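import Vale.Agent.P312.Dyn

/-! Algebra for the Cook-Mertz procedure: low-degree extensions and the masking lemma. -/

namespace Vale.Agent.P312

open Finset

section Iter

variable {β : Type}

theorem iter_add (m n : ℕ) (a : β) (f : ℕ → β → β) :
    iter (m + n) a f = iter n (iter m a f) (fun i => f (m + i)) := by
  induction n with
  | zero => rfl
  | succ n ih => rw [← Nat.add_assoc, iter_succ, iter_succ, ih]

theorem iter_mul (m n : ℕ) (a : β) (f : ℕ → β → β) :
    iter (m * n) a f = iter m a (fun s R => iter n R (fun i => f (s * n + i))) := by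
  induction m with
  | zero => simp
  | succ m ih => rw [Nat.succ_mul, iter_add, ih, iter_succ]

theorem iter_congr {n : ℕ} {a : β} {f g : ℕ → β → β} (h : ∀ i < n, ∀ R, f i R = g i R) :
    iter n a f = iter n a g := by
  induction n with
  | zero => rfl
  | succ n ih =>
    rw [iter_succ, iter_succ, ih (fun i hi => h i (by omega)), h n (by omega)]

theorem iter_id {n : ℕ} {a : β} {f : ℕ → β → β} (h : ∀ i < n, ∀ R, f i R = R) :
    iter n a f = a := by
  induction n with
  | zero => rfl
  | succ n ih => rw [iter_succ, ih (fun i hi => h i (by omega)), h n (by omega)]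

theorem iter_inv {n : ℕ} {a : β} {f : ℕ → β → β} (P : β → Prop) (h0 : P a)
    (h : ∀ i < n, ∀ R, P R → P (f i R)) : P (iter n a f) := by
  induction n with
  | zero => exact h0
  | succ n ih => rw [iter_succ]; exact h n (by omega) _ (ih (fun i hi => h i (by omega)))

theorem iter_congr_inv {n : ℕ} {a : β} {f g : ℕ → β → β} (P : β → Prop) (h0 : P a)
    (hP : ∀ i < n, ∀ R, P R → P (g i R)) (h : ∀ i < n, ∀ R, P R → f i R = g i R) :
    iter n a f = iter n a g := by
  induction n with
  | zero => rfl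
  | succ n ih =>
    rw [iter_succ, iter_succ, ih (fun i hi => hP i (by omega)) (fun i hi => h i (by omega)),
      h n (by omega) _ (iter_inv P h0 (fun i hi => hP i (by omega)))]

end Iter

section Digit

theorem digit_lt {B : ℕ} (hB : 0 < B) (y i : ℕ) : digit B y i < B := Nat.mod_lt _ hB

theorem digit_zero (B y : ℕ) : digit B y 0 = y % B := by simp [digit]

theorem digit_succ (B y i : ℕ) : digit B y (i + 1) = digit B (y / B) i := by
  simp [digit, Nat.div_div_eq_div_mul, pow_succ, mul_comm]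

theorem eq_of_digit {B : ℕ} (n : ℕ) : ∀ {y z : ℕ}, y < B ^ n → z < B ^ n →
    (∀ i < n, digit B y i = digit B z i) → y = z := by
  induction n with
  | zero => intro y z hy hz _; simp at hy hz; omega
  | succ n ih =>
    intro y z hy hz h
    have hB : 0 < B := by
      rcases Nat.eq_zero_or_pos B with h0 | h0
      · subst h0; simp at hy
      · exact h0
    have h1 : y / B = z / B := by
      apply ih
      · exact Nat.div_lt_of_lt_mul (by rwa [pow_succ, mul_comm] at hy)
      · exact Nat.div_lt_of_lt_mul (by rwa [pow_succ, mul_comm] at hz)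
      · intro i hi
        rw [← digit_succ, ← digit_succ]; exact h (i + 1) (by omega)
    have h2 : y % B = z % B := by
      rw [← digit_zero, ← digit_zero]; exact h 0 (by omega)
    rw [← Nat.div_add_mod y B, ← Nat.div_add_mod z B, h1, h2]

theorem digit_add_mul_lt {B n y z i : ℕ} (hi : i < n) :
    digit B (y + z * B ^ n) i = digit B y i := by
  unfold digit
  rcases Nat.eq_zero_or_pos B with h0 | hB
  · subst h0
    have : (0 : ℕ) ^ n = 0 := by simp; omega
    simp [this]
  obtain ⟨k, rfl⟩ : ∃ k, n = i + 1 + k := ⟨n - (i + 1), by omega⟩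
  have : z * B ^ (i + 1 + k) = (z * B ^ k * B) * B ^ i := by ring
  rw [this, Nat.add_mul_div_right _ _ (pow_pos hB i), Nat.add_mul_mod_self_right]

theorem digit_add_mul_ge {B n y z i : ℕ} (hy : y < B ^ n) :
    digit B (y + z * B ^ n) (n + i) = digit B z i := by
  unfold digit
  have hpos : 0 < B ^ n := by omega
  rw [pow_add, ← Nat.div_div_eq_div_mul, Nat.add_mul_div_right _ _ hpos, Nat.div_eq_of_lt hy,
    zero_add]

theorem digit_mod_pow {B n z i : ℕ} (hi : i < n) : digit B (z % B ^ n) i = digit B z i := by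
  conv_rhs => rw [← Nat.mod_add_div z (B ^ n), mul_comm]
  rw [digit_add_mul_lt hi]

theorem digit_div_pow (B n z i : ℕ) : digit B (z / B ^ n) i = digit B z (n + i) := by
  unfold digit
  rw [pow_add, Nat.div_div_eq_div_mul]

/-- The number with given digits. -/
def ofDig (B : ℕ) (f : ℕ → ℕ) (n : ℕ) : ℕ := iter n 0 (fun i y => y + f i * B ^ i)

theorem ofDig_lt {B : ℕ} {f : ℕ → ℕ} (n : ℕ) (hf : ∀ i < n, f i < B) : ofDig B f n < B ^ n := by
  induction n with
  | zero => simp [ofDig]
  | succ n ih =>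
    have h1 := ih (fun i hi => hf i (by omega))
    have h2 := hf n (by omega)
    unfold ofDig at *
    rw [iter_succ, pow_succ]
    calc _ < B ^ n + f n * B ^ n := by omega
      _ = (f n + 1) * B ^ n := by ring
      _ ≤ B * B ^ n := Nat.mul_le_mul_right _ h2
      _ = _ := by ring

theorem digit_ofDig {B : ℕ} {f : ℕ → ℕ} (n : ℕ) (hf : ∀ i < n, f i < B) :
    ∀ i < n, digit B (ofDig B f n) i = f i := by
  induction n with
  | zero => intro i hi; omega
  | succ n ih =>
    intro i hi
    have h1 := ofDig_lt n (fun i hi => hf i (by omega))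
    have e : ofDig B f (n + 1) = ofDig B f n + f n * B ^ n := rfl
    rw [e]
    rcases Nat.lt_or_ge i n with h | h
    · rw [digit_add_mul_lt h]; exact ih (fun i hi => hf i (by omega)) i h
    · have : i = n + 0 := by omega
      rw [this, digit_add_mul_ge h1, digit_zero, Nat.mod_eq_of_lt (hf n (by omega))]; simp

theorem setDigit_eq {B : ℕ} (y i a : ℕ) :
    setDigit B y i a = y % B ^ i + (a + y / B ^ (i + 1) * B) * B ^ i := by
  unfold setDigit digit
  have h1 := Nat.mod_add_div y (B ^ i)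
  have h2 := Nat.mod_add_div (y / B ^ i) B
  have h3 : y / B ^ i / B = y / B ^ (i + 1) := by rw [Nat.div_div_eq_div_mul, pow_succ]
  rw [h3] at h2
  have h4 : y = y % B ^ i + y / B ^ (i + 1) * B * B ^ i + y / B ^ i % B * B ^ i := by
    calc y = y % B ^ i + B ^ i * (y / B ^ i) := h1.symm
      _ = y % B ^ i + B ^ i * (y / B ^ i % B + B * (y / B ^ (i + 1))) := by rw [h2]
      _ = _ := by ring
  have h5 : y - y / B ^ i % B * B ^ i = y % B ^ i + y / B ^ (i + 1) * B * B ^ i :=
    Nat.sub_eq_of_eq_add h4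
  rw [h5]; ring

theorem digit_setDigit {B : ℕ} (y i j : ℕ) {a : ℕ} (ha : a < B) :
    digit B (setDigit B y i a) j = if j = i then a else digit B y j := by
  have hB : 0 < B := by omega
  rw [setDigit_eq]
  rcases Nat.lt_or_ge j i with h | h
  · rw [digit_add_mul_lt h, digit_mod_pow h, if_neg (by omega)]
  · obtain ⟨k, rfl⟩ : ∃ k, j = i + k := ⟨j - i, by omega⟩
    rw [digit_add_mul_ge (Nat.mod_lt _ (pow_pos hB _))]
    cases k with
    | zero => rw [digit_zero, Nat.add_mul_mod_self_right, Nat.mod_eq_of_lt ha]; simp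
    | succ k =>
      rw [digit_succ, Nat.add_mul_div_right _ _ hB, Nat.div_eq_of_lt ha, zero_add, digit_div_pow,
        if_neg (by omega)]
      congr 1; omega

theorem setDigit_lt {B y i a n : ℕ} (ha : a < B) (hi : i < n) (hy : y < B ^ n) :
    setDigit B y i a < B ^ n := by
  have hB : 0 < B := by omega
  rw [setDigit_eq]
  obtain ⟨k, rfl⟩ : ∃ k, n = i + 1 + k := ⟨n - (i + 1), by omega⟩
  have h1 : y / B ^ (i + 1) < B ^ k := Nat.div_lt_of_lt_mul (by rwa [← pow_add])
  have h2 : y % B ^ i < B ^ i := Nat.mod_lt _ (pow_pos hB _)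
  have h3 : a + y / B ^ (i + 1) * B + 1 ≤ B ^ k * B := by nlinarith
  calc _ < B ^ i + (a + y / B ^ (i + 1) * B) * B ^ i := by omega
    _ = (a + y / B ^ (i + 1) * B + 1) * B ^ i := by ring
    _ ≤ B ^ k * B * B ^ i := Nat.mul_le_mul_right _ h3
    _ = _ := by ring

end Digit

section PD

variable {F : Type} [Field F]

/-- `g` is a polynomial function of degree at most `d`. -/
def PD (d : ℕ) (g : F → F) : Prop :=
  ∃ P : Polynomial F, P.natDegree ≤ d ∧ ∀ l, g l = P.eval l

theorem PD.mono {d d' : ℕ} {g : F → F} (h : PD d g) (hd : d ≤ d') : PD d' g := by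
  obtain ⟨P, h1, h2⟩ := h
  exact ⟨P, h1.trans hd, h2⟩

theorem PD.const (d : ℕ) (c : F) : PD d (fun _ => c) :=
  ⟨Polynomial.C c, by simp, by simp⟩

theorem PD.affine (t v : F) : PD 1 (fun l => l * t + v) := by
  refine ⟨Polynomial.C t * Polynomial.X + Polynomial.C v, Polynomial.natDegree_linear_le, ?_⟩
  intro l
  rw [Polynomial.eval_add, Polynomial.eval_mul, Polynomial.eval_C, Polynomial.eval_X,
    Polynomial.eval_C, mul_comm]

theorem PD.add {d : ℕ} {g h : F → F} (hg : PD d g) (hh : PD d h) : PD d (fun l => g l + h l) := by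
  obtain ⟨P, h1, h2⟩ := hg
  obtain ⟨Q, h3, h4⟩ := hh
  exact ⟨P + Q, (Polynomial.natDegree_add_le _ _).trans (max_le h1 h3), by simp [h2, h4]⟩

theorem PD.neg {d : ℕ} {g : F → F} (hg : PD d g) : PD d (fun l => - g l) := by
  obtain ⟨P, h1, h2⟩ := hg
  exact ⟨-P, by simpa using h1, by simp [h2]⟩

theorem PD.mul {d e : ℕ} {g h : F → F} (hg : PD d g) (hh : PD e h) :
    PD (d + e) (fun l => g l * h l) := by
  obtain ⟨P, h1, h2⟩ := hg
  obtain ⟨Q, h3, h4⟩ := hh
  exact ⟨P * Q, Polynomial.natDegree_mul_le.trans (add_le_add h1 h3), by simp [h2, h4]⟩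

theorem PD.const_mul {d : ℕ} {g : F → F} (c : F) (hg : PD d g) : PD d (fun l => c * g l) := by
  simpa using (PD.const 0 c).mul hg

theorem PD.mul_const {d : ℕ} {g : F → F} (c : F) (hg : PD d g) : PD d (fun l => g l * c) := by
  simpa using hg.mul (PD.const 0 c)

theorem PD.sum {d n : ℕ} {g : ℕ → F → F} (hg : ∀ i < n, PD d (g i)) :
    PD d (fun l => ∑ i ∈ range n, g i l) := by
  induction n with
  | zero => simpa using PD.const d (0 : F)
  | succ n ih =>
    simp only [sum_range_succ]
    exact (ih (fun i hi => hg i (by omega))).add (hg n (by omega))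

theorem PD.prod {d n : ℕ} {g : ℕ → F → F} (hg : ∀ i < n, PD d (g i)) :
    PD (n * d) (fun l => ∏ i ∈ range n, g i l) := by
  induction n with
  | zero => simpa using PD.const 0 (1 : F)
  | succ n ih =>
    simp only [prod_range_succ, Nat.succ_mul]
    exact (ih (fun i hi => hg i (by omega))).mul (hg n (by omega))

/-- Lagrange basis polynomial on the nodes `0, …, V-1`. -/
def lag (V z : ℕ) (y : F) : F :=
  ∏ z' ∈ range V, if z' = z then 1 else (y - (z' : F)) * ((z : F) - (z' : F))⁻¹

/-- Low-degree extension of `φ` on `{0, …, V-1}^n`, evaluated at `reg`. -/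
def lde (V n : ℕ) (reg : ℕ → F) (φ : ℕ → ℕ) : F :=
  ∑ z ∈ range (V ^ n), (φ z : F) * ∏ i ∈ range n, lag V (digit V z i) (reg i)

theorem PD.lag (V z : ℕ) {g : F → F} (hg : PD 1 g) : PD V (fun l => lag V z (g l)) := by
  have := PD.prod (d := 1) (n := V)
    (g := fun z' l => if z' = z then (1 : F) else (g l - (z' : F)) * ((z : F) - (z' : F))⁻¹)
    (fun i _ => by
      by_cases h : i = z
      · simpa [h] using PD.const 1 (1 : F)
      · simp only [h, if_false, sub_eq_add_neg]
        exact (hg.add (PD.const 1 _)).mul_const _)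
  simpa [Vale.Agent.P312.lag] using this

theorem PD.lde (V n : ℕ) {reg : F → ℕ → F} (φ : ℕ → ℕ) (h : ∀ i < n, PD 1 (fun l => reg l i)) :
    PD (n * V) (fun l => lde V n (reg l) φ) := by
  unfold Vale.Agent.P312.lde
  apply PD.sum
  intro z _
  apply PD.const_mul
  exact PD.prod (fun i hi => PD.lag V _ (h i hi))

theorem lde_congr (V n : ℕ) {reg reg' : ℕ → F} (φ : ℕ → ℕ) (h : ∀ i < n, reg i = reg' i) :
    lde V n reg φ = lde V n reg' φ := by
  unfold lde
  refine sum_congr rfl (fun z _ => ?_)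
  congr 1
  exact prod_congr rfl (fun i hi => by rw [h i (mem_range.1 hi)])

end PD

section ZModP

variable {p : ℕ} [hp : Fact p.Prime]

theorem natCast_inj_of_lt {a b : ℕ} (ha : a < p) (hb : b < p) (h : (a : ZMod p) = b) : a = b := by
  have := (ZMod.natCast_eq_natCast_iff' a b p).1 h
  rwa [Nat.mod_eq_of_lt ha, Nat.mod_eq_of_lt hb] at this

theorem lag_nat {V z y : ℕ} (hV : V ≤ p) (hz : z < V) (hy : y < V) :
    lag V z (y : ZMod p) = if y = z then 1 else 0 := by
  unfold lag
  split_ifs with h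
  · subst h
    apply prod_eq_one
    intro z' hz'
    split_ifs with h1
    · rfl
    · apply mul_inv_cancel₀
      intro h2
      exact h1 (natCast_inj_of_lt (by have := mem_range.1 hz'; omega) (by omega)
        (sub_eq_zero.1 h2).symm)
  · apply prod_eq_zero (mem_range.2 hy)
    simp [h]

theorem lde_nat {V n z₀ : ℕ} (hV : V ≤ p) (hz : z₀ < V ^ n) {reg : ℕ → ZMod p} (φ : ℕ → ℕ)
    (h : ∀ i < n, reg i = (digit V z₀ i : ℕ)) : lde V n reg φ = φ z₀ := by
  unfold lde
  rcases Nat.eq_zero_or_pos n with h0 | hn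
  · subst h0
    have : z₀ = 0 := by simpa using hz
    simp [this]
  have hVpos : 0 < V := by
    rcases Nat.eq_zero_or_pos V with h0 | h0
    · subst h0; rw [zero_pow (by omega)] at hz; omega
    · exact h0
  rw [sum_eq_single z₀]
  · rw [prod_eq_one, mul_one]
    intro i hi
    rw [h i (mem_range.1 hi), lag_nat hV (digit_lt hVpos _ _) (digit_lt hVpos _ _)]; simp
  · intro z hz' hne
    have : ∃ i < n, digit V z₀ i ≠ digit V z i := by
      by_contra hc
      push Not at hc
      exact hne (eq_of_digit n hz (mem_range.1 hz') hc).symm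
    obtain ⟨i, hi, hd⟩ := this
    rw [prod_eq_zero (mem_range.2 hi), mul_zero]
    rw [h i hi, lag_nat hV (digit_lt hVpos _ _) (digit_lt hVpos _ _)]; simp [hd]
  · intro hc; exact absurd (mem_range.2 hz) hc

theorem PD.sum_univ_eq_zero {d : ℕ} {g : ZMod p → ZMod p} (hg : PD d g) (hd : d + 1 < p) :
    ∑ l : ZMod p, g l = 0 := by
  obtain ⟨P, h1, h2⟩ := hg
  simp only [h2, Polynomial.eval_eq_sum_range]
  rw [sum_comm]
  apply sum_eq_zero
  intro i hi
  rw [← mul_sum, FiniteField.sum_pow_lt_card_sub_one, mul_zero]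
  rw [ZMod.card]
  have := mem_range.1 hi
  omega

theorem PD.sum_inv {d : ℕ} {g : ZMod p → ZMod p} (hg : PD d g) (hd : d + 1 < p) :
    ∑ s ∈ range (p - 1), g (((s + 1 : ℕ) : ZMod p))⁻¹ = - g 0 := by
  have h0 := hg.sum_univ_eq_zero hd
  have h1 : ∑ l : ZMod p, g l = ∑ l : ZMod p, g l⁻¹ :=
    (Equiv.sum_comp (Equiv.inv (ZMod p)) g).symm
  have h2 : ∑ l : ZMod p, g l⁻¹ = ∑ s ∈ range p, g ((s : ZMod p))⁻¹ := by
    symm
    apply sum_bij (fun (s : ℕ) _ => (s : ZMod p))
    · intro a _; exact mem_univ _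
    · intro a ha b hb hab
      exact natCast_inj_of_lt (mem_range.1 ha) (mem_range.1 hb) hab
    · intro b _
      exact ⟨b.val, mem_range.2 (ZMod.val_lt b), by simp⟩
    · intro a _; rfl
  have h3 : range p = range (p - 1 + 1) := by congr 1; omega
  rw [h1, h2, h3, sum_range_succ'] at h0
  simp only [Nat.cast_zero, inv_zero] at h0
  exact eq_neg_of_add_eq_zero_left h0

/-- Loading values into registers. -/
theorem iter_load (W : ℕ) (f : ℕ → (ℕ → ZMod p) → (ℕ → ZMod p)) (reg : ℕ → ℕ)
    (val : ℕ → ZMod p) (P : (ℕ → ZMod p) → Prop) (R : ℕ → ZMod p) (hP : P R)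
    (hf : ∀ i < W, ∀ R, P R → f i R = R + Pi.single (reg i) (val i))
    (hP' : ∀ i < W, ∀ R x, P R → P (R + Pi.single (reg i) x)) :
    iter W R f = R + ∑ i ∈ range W, Pi.single (reg i) (val i) ∧ P (iter W R f) := by
  induction W with
  | zero => simpa using hP
  | succ W ih =>
    obtain ⟨h1, h2⟩ := ih (fun i hi => hf i (by omega)) (fun i hi => hP' i (by omega))
    rw [iter_succ, hf W (by omega) _ h2]
    refine ⟨?_, hP' W (by omega) _ _ h2⟩
    rw [h1, sum_range_succ, add_assoc]

theorem sum_single_apply {W : ℕ} (reg : ℕ → ℕ) (val : ℕ → ZMod p) {i₀ : ℕ} (h0 : i₀ < W)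
    (h : ∀ i < W, i ≠ i₀ → reg i = reg i₀ → val i = 0) :
    (∑ i ∈ range W, Pi.single (M := fun _ => ZMod p) (reg i) (val i)) (reg i₀) = val i₀ := by
  rw [Finset.sum_apply, sum_eq_single i₀]
  · simp
  · intro i hi hne
    by_cases hr : reg i = reg i₀
    · rw [h i (mem_range.1 hi) hne hr]; simp
    · exact Pi.single_eq_of_ne (Ne.symm hr) _
  · intro hc; exact absurd (mem_range.2 h0) hc

theorem sum_single_apply_zero {W : ℕ} (reg : ℕ → ℕ) (val : ℕ → ZMod p) {r : ℕ}
    (h : ∀ i < W, reg i = r → val i = 0) :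
    (∑ i ∈ range W, Pi.single (M := fun _ => ZMod p) (reg i) (val i)) r = 0 := by
  rw [Finset.sum_apply]
  apply sum_eq_zero
  intro i hi
  by_cases hr : reg i = r
  · rw [h i (mem_range.1 hi) hr]; simp
  · exact Pi.single_eq_of_ne (Ne.symm hr) _

/-- The Cook-Mertz masking lemma: load the children `p` times; after round `s+1 < p` subtract
`g ((s+1)⁻¹)` from the target. -/
theorem cm_node (W d : ℕ) (f : ℕ → (ℕ → ZMod p) → (ℕ → ZMod p)) (R₀ : ℕ → ZMod p) (tgt : ℕ)
    (reg : ℕ → ℕ) (val : ℕ → ZMod p) (P : (ℕ → ZMod p) → Prop) (g : ZMod p → ZMod p)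
    (hg : PD d g) (hd : d + 1 < p) (hP0 : P R₀)
    (hPs : ∀ i < W, ∀ R x, P R → P (R + Pi.single (reg i) x))
    (hPt : ∀ R x, P R → P (R + Pi.single tgt x))
    (hch : ∀ s < p, ∀ i < W, ∀ R, P R → f (s * (W + 1) + i) R = R + Pi.single (reg i) (val i))
    (hev : ∀ s, s + 1 < p → ∀ R, P R →
      (∀ r, r ≠ tgt → R r = R₀ r + ((s + 1 : ℕ) : ZMod p) *
        (∑ i ∈ range W, Pi.single (M := fun _ => ZMod p) (reg i) (val i)) r) →
      f (s * (W + 1) + W) R = R + Pi.single tgt (- g (((s + 1 : ℕ) : ZMod p))⁻¹))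
    (hlast : ∀ R, f ((p - 1) * (W + 1) + W) R = R) :
    iter (p * (W + 1)) R₀ f = R₀ + Pi.single tgt (g 0) := by
  set v : ℕ → ZMod p := ∑ i ∈ range W, Pi.single (reg i) (val i) with hv
  have hp1 : 1 < p := hp.out.one_lt
  rw [iter_mul]
  have key : ∀ n ≤ p - 1,
      iter n R₀ (fun s R => iter (W + 1) R (fun i => f (s * (W + 1) + i))) =
        R₀ + (n : ZMod p) • v +
          Pi.single tgt (- ∑ s ∈ range n, g (((s + 1 : ℕ) : ZMod p))⁻¹) ∧
      P (iter n R₀ (fun s R => iter (W + 1) R (fun i => f (s * (W + 1) + i)))) := by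
    intro n
    induction n with
    | zero => intro _; simpa using hP0
    | succ n ih =>
      intro hn
      obtain ⟨h1, h2⟩ := ih (by omega)
      rw [iter_succ, iter_succ]
      obtain ⟨h3, h4⟩ := iter_load W (fun i => f (n * (W + 1) + i)) reg val P _ h2
        (fun i hi => hch n (by omega) i hi) hPs
      have h5 := hev n (by omega) _ h4 (by
        intro r hr
        rw [h3, h1]
        simp only [Pi.add_apply, Pi.smul_apply, smul_eq_mul, Pi.single_eq_of_ne hr]
        push_cast; ring)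
      rw [h5]
      refine ⟨?_, hPt _ _ h4⟩
      rw [h3, h1, sum_range_succ, neg_add, Pi.single_add]
      push_cast
      rw [add_smul, one_smul]
      abel
  obtain ⟨h1, h2⟩ := key (p - 1) le_rfl
  have e : p = (p - 1) + 1 := by omega
  have e2 : ∀ (F : ℕ → (ℕ → ZMod p) → (ℕ → ZMod p)), iter p R₀ F = iter (p - 1 + 1) R₀ F := by
    intro F; rw [← e]
  rw [e2, iter_succ, iter_succ]
  obtain ⟨h3, -⟩ := iter_load W (fun i => f ((p - 1) * (W + 1) + i)) reg val P _ h2
    (fun i hi => hch (p - 1) (by omega) i hi) hPs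
  rw [hlast, h3, h1, hg.sum_inv hd, neg_neg]
  have : (((p - 1 : ℕ) : ZMod p)) • v + v = 0 := by
    have h4 : (((p - 1 : ℕ) : ZMod p)) + 1 = 0 := by
      have : (((p - 1 + 1 : ℕ)) : ZMod p) = 0 := by rw [← e]; exact ZMod.natCast_self p
      exact_mod_cast this
    calc _ = ((((p - 1 : ℕ) : ZMod p)) + 1) • v := by rw [add_smul, one_smul]
      _ = 0 := by rw [h4, zero_smul]
  calc _ = R₀ + Pi.single tgt (g 0) + ((((p - 1 : ℕ) : ZMod p)) • v + v) := by abel
    _ = _ := by rw [this, add_zero]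

end ZModP

end Vale.Agent.P312
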