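import Vale.Agent.P312.Tree

/-! Correctness of the call tree. -/

namespace Vale.Agent.P312

open Finset

namespace Par

variable {P : Par} [hp : Fact P.p.Prime]

/-- The call tree run with the parameters `P`. -/
noncomputable abbrev rn (P : Par) [Fact P.p.Prime] (d : ℕ) (a : Addr) (R : ℕ → ZMod P.p) :
    ℕ → ZMod P.p := run (P.p * (P.W + 1)) P.δ P.act d a R

theorem rn_succ (d : ℕ) (a : Addr) (R : ℕ → ZMod P.p) :
    P.rn (d + 1) a R = iter (P.p * (P.W + 1)) R (fun t R => P.rn d (P.δ a t) (P.act a t R)) := rfl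

theorem rn_nop (d : ℕ) (R : ℕ → ZMod P.p) : P.rn d .nop R = R := by
  induction d generalizing R with
  | zero => rfl
  | succ d ih =>
    rw [rn_succ]
    apply iter_id
    intro i _ R
    simp only [δ, act, h, Pi.single_zero, add_zero, ih]

/-- The statement proved by induction on the depth. -/
def Spec (P : Par) [Fact P.p.Prime] (d : ℕ) : Prop :=
  ∀ (a : Addr) (R : ℕ → ZMod P.p), P.WF a → P.rank a ≤ d →
    P.rn d a R = R + Pi.single (P.tgt a) (P.val a R)

theorem iter_first {S : Type} {n : ℕ} (hn : 0 < n) (R : S) (f : ℕ → S → S)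
    (h : ∀ i, 0 < i → ∀ R, f i R = R) : iter n R f = f 0 R := by
  obtain ⟨m, rfl⟩ : ∃ m, n = 1 + m := ⟨n - 1, by omega⟩
  rw [iter_add, iter_id]
  · rfl
  · intro i _ R; exact h _ (by omega) R

theorem inv_mul_add {s : ℕ} (hs : s + 1 < P.p) (a b : ZMod P.p) :
    ((s + 1 : ℕ) : ZMod P.p)⁻¹ * (a + ((s + 1 : ℕ) : ZMod P.p) * b) =
      ((s + 1 : ℕ) : ZMod P.p)⁻¹ * a + b := by
  have : ((s + 1 : ℕ) : ZMod P.p) ≠ 0 := by
    intro h0
    have := natCast_inj_of_lt (p := P.p) hs (by omega : 0 < P.p) (by simpa using h0)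
    omega
  rw [mul_add, ← mul_assoc, inv_mul_cancel₀ this, one_mul]

theorem J_pos : 0 < P.p * (P.W + 1) := Nat.mul_pos hp.out.pos (by omega)

omit hp in
theorem deg_le (hG : P.Good) {n : ℕ} (hn : n ≤ P.b + P.M + 1) : n * P.V + 1 < P.p := by
  have h1 := hG.deg
  have h2 : n * P.V ≤ P.l * ((P.b + P.M + 1) * P.V) :=
    le_trans (Nat.mul_le_mul_right _ hn) (Nat.le_mul_of_pos_left _ hG.l_pos)
  omega

theorem node_X0 (d k u sd : ℕ) (R : ℕ → ZMod P.p) :
    P.rn (d + 1) (.X 0 k u sd) R = R + Pi.single (P.tgt (.X 0 k u sd)) (P.val (.X 0 k u sd) R) := by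
  rw [rn_succ, iter_first J_pos]
  · simp only [δ, if_true, rn_nop, act, h, val, zero_mul]; rfl
  · intro i hi R
    simp only [δ, if_true, rn_nop, act, h, show i ≠ 0 by omega, if_false, Pi.single_zero, add_zero]

theorem node_E0 (d : ℕ) (R : ℕ → ZMod P.p) :
    P.rn (d + 1) (.E 0) R = R + Pi.single (P.tgt (.E 0)) (P.val (.E 0) R) := by
  rw [rn_succ, iter_first J_pos]
  · simp only [δ, if_true, rn_nop, act, h, val, and_self]; rfl
  · intro i hi R
    simp only [δ, if_true, rn_nop, act, h, show i ≠ 0 by omega, and_false, if_false,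
      Pi.single_zero, add_zero]

theorem node_X (hG : P.Good) {d : ℕ} (IH : P.Spec d) (J k u sd : ℕ) (R : ℕ → ZMod P.p)
    (hW : P.WF (.X (J + 1) k u sd)) (hr : P.rank (.X (J + 1) k u sd) ≤ d + 1) :
    P.rn (d + 1) (.X (J + 1) k u sd) R =
      R + Pi.single (P.tgt (.X (J + 1) k u sd)) (P.val (.X (J + 1) k u sd) R) := by
  obtain ⟨hu, hsd⟩ := hW
  simp only [rank] at hr
  set reg : ℕ → ℕ := fun i => if i < P.b then P.xreg (1 - sd) i else P.slot (J * P.M + (i - P.b))
    with hreg
  set vl : ℕ → ZMod P.p := fun i => if i < P.b then (digit P.V (P.D.Y (J * P.M) k) i : ℕ)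
    else if i < P.b + P.M then (P.D.ev (J * P.M + (i - P.b)) : ℕ) else 0 with hvl
  have hinj : ∀ i < P.W, ∀ i' < P.W, reg i = reg i' → i = i' := by
    intro i hi i' hi' h
    simp only [hreg] at h
    unfold W at hi hi'
    split_ifs at h with h1 h2 h2
    · unfold xreg at h; omega
    · have := xreg_lt (show 1 - sd ≤ 1 by omega) h1
      have := P.slot_bounds (J * P.M + (i' - P.b)); omega
    · have := xreg_lt (show 1 - sd ≤ 1 by omega) h2
      have := P.slot_bounds (J * P.M + (i - P.b)); omega
    · have := slot_inj (by omega) (by omega) h; omega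
  have hne : ∀ i < P.W, reg i ≠ P.xreg sd u := by
    intro i _ h
    simp only [hreg] at h
    split_ifs at h with h1
    · unfold xreg at h
      rcases Nat.le_one_iff_eq_zero_or_eq_one.1 hsd with h2 | h2 <;> subst h2 <;> omega
    · have := xreg_lt hsd hu
      have := P.slot_bounds (J * P.M + (i - P.b)); omega
  have hv : ∀ i < P.W, (∑ i ∈ range P.W, Pi.single (M := fun _ => ZMod P.p) (reg i) (vl i)) (reg i)
      = vl i := fun i hi =>
    sum_single_apply reg vl hi (fun i' hi' hne h => absurd (hinj _ hi' _ hi h) hne)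
  rw [rn_succ]
  rw [cm_node P.W ((P.b + P.M) * P.V) _ R (P.xreg sd u) reg vl (fun _ => True)
    (fun l => lde P.V (P.b + P.M) (fun i => l * R (reg i) + vl i) (P.φX k u))
    (PD.lde _ _ _ (fun i _ => PD.affine _ _)) (deg_le hG (by omega)) trivial
    (fun _ _ _ _ _ => trivial) (fun _ _ _ => trivial)]
  · simp only [tgt, val]
    congr 2
    rw [lde_nat (V_le_p hG)
      (z₀ := P.D.Y (J * P.M) k + ofDig P.V (fun i => P.D.ev (J * P.M + i)) P.M * P.V ^ P.b)]
    · congr 1
      unfold φX
      rw [Nat.add_mul_mod_self_right, Nat.mod_eq_of_lt (Y_lt hG _ _),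
        Nat.add_mul_div_right _ _ (pow_pos hG.V_pos _), Nat.div_eq_of_lt (Y_lt hG _ _), zero_add,
        replay_eq (J * P.M) k P.M _ (fun i hi => digit_ofDig P.M (fun i _ => ev_lt hG _) i hi),
        Nat.succ_mul]
    · have h1 := Y_lt hG (J * P.M) k
      have h2 := ofDig_lt (B := P.V) (f := fun i => P.D.ev (J * P.M + i)) P.M
        (fun i _ => ev_lt hG _)
      rw [pow_add]
      nlinarith
    · intro i hi
      simp only [zero_mul, zero_add, hvl]
      split_ifs with h1
      · rw [digit_add_mul_lt h1]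
      · obtain ⟨i', rfl⟩ : ∃ i', i = P.b + i' := ⟨i - P.b, by omega⟩
        rw [digit_add_mul_ge (Y_lt hG _ _), digit_ofDig P.M (fun i _ => ev_lt hG _) i' (by omega),
          Nat.add_sub_cancel_left]
  · intro s _ i hi R' _
    simp only [δ, act, h, phase_mod s hi.le, phase_div s hi.le, show i ≠ P.W by omega, false_and,
      if_false, Nat.succ_ne_zero, Pi.single_zero, add_zero, Nat.add_sub_cancel, hreg, hvl]
    split_ifs with h1 h2
    · exact IH (.X J k i (1 - sd)) _ ⟨h1, by omega⟩ (by simp only [rank]; nlinarith)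
    · refine IH (.E _) _ trivial ?_
      · have := rank_E_le hG (j := J * P.M + (i - P.b)) (J := J + 1) (by rw [Nat.succ_mul]; omega)
        simp only [Nat.succ_ne_zero, if_false] at this
        omega
    · simp [rn_nop]
  · intro s hs R' _ hR'
    simp only [δ, act, h, phase_mod s le_rfl, phase_div s le_rfl, hs, and_self, if_true,
      Nat.succ_ne_zero, if_false, Nat.add_sub_cancel, tgt]
    rw [if_neg (by unfold W; omega), if_neg (by unfold W; omega), rn_nop]
    congr 3
    apply lde_congr
    intro i hi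
    have hi' : i < P.W := by unfold W; omega
    have := hR' (reg i) (hne i hi')
    rw [hv i hi'] at this
    show _ * R' (reg i) = _
    rw [this, inv_mul_add hs]
  · intro R'
    have h1 : ¬ (P.p - 1 + 1 < P.p) := by omega
    simp only [δ, act, h, phase_mod (P.p - 1) le_rfl, phase_div (P.p - 1) le_rfl, h1, and_false,
      if_false, Nat.succ_ne_zero, Pi.single_zero, add_zero]
    rw [if_neg (by unfold W; omega), if_neg (by unfold W; omega), rn_nop]

theorem node_B (hG : P.Good) {d : ℕ} (IH : P.Spec d) (j s₀ c r : ℕ) (R : ℕ → ZMod P.p)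
    (hW : P.WF (.B j s₀ c r)) (hr : P.rank (.B j s₀ c r) ≤ d + 1) :
    P.rn (d + 1) (.B j s₀ c r) R = R + Pi.single (P.tgt (.B j s₀ c r)) (P.val (.B j s₀ c r) R) := by
  obtain ⟨hj, hrl⟩ := hW
  simp only [rank] at hr
  obtain ⟨f1, f2, f3, f4, -, -⟩ := σ_facts hG hj
  set reg : ℕ → ℕ := fun i => P.xreg 0 i with hreg
  set vl : ℕ → ZMod P.p := fun i => if i < P.b then
    (digit P.V (P.D.Y (P.β j) (P.D.blk (digit P.V c r))) i : ℕ) else 0 with hvl
  have hv : ∀ i < P.b, (∑ i ∈ range P.W, Pi.single (M := fun _ => ZMod P.p) (reg i) (vl i)) (reg i)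
      = vl i := fun i hi =>
    sum_single_apply reg vl (by unfold W; omega) (fun i' _ hne h => by
      simp only [hreg, xreg] at h; omega)
  have hv0 : ∀ i, (∑ i ∈ range P.W, Pi.single (M := fun _ => ZMod P.p) (reg i) (vl i))
      (P.slot i) = 0 := fun i => sum_single_apply_zero reg vl (fun i' _ h => by
      have := P.slot_bounds i
      simp only [hreg, xreg] at h
      simp only [hvl]
      rw [if_neg (by omega)])
  rw [rn_succ]
  rw [cm_node P.W ((P.b + (P.σ j - P.β j + 1)) * P.V) _ R (P.areg r) reg vl (fun _ => True)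
    (fun l => lde P.V (P.b + (P.σ j - P.β j + 1)) (fun i => if i < P.b then l * R (reg i) + vl i
      else ((s₀ + 1 : ℕ) : ZMod P.p)⁻¹ * R (P.slot (P.β j + (i - P.b))))
      (P.φB (P.σ j - P.β j) c r))
    (PD.lde _ _ _ (fun i _ => by
      by_cases h1 : i < P.b
      · simp only [h1, if_true]; exact PD.affine _ _
      · simp only [h1, if_false]; exact PD.const _ _)) (deg_le hG (by omega)) trivial
    (fun _ _ _ _ _ => trivial) (fun _ _ _ => trivial)]
  · simp only [tgt, val, valB]
    congr 2
    apply lde_congr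
    intro i _
    split_ifs with h1
    · simp only [hvl, h1, if_true, zero_mul, zero_add]
    · rfl
  · intro s _ i hi R' _
    simp only [δ, act, h, phase_mod s hi.le, show i ≠ P.W by omega, false_and,
      if_false, Pi.single_zero, add_zero, hreg, hvl]
    split_ifs with h1
    · exact IH (.X _ _ i 0) _ ⟨h1, by omega⟩ (by simp only [rank]; omega)
    · simp [rn_nop]
  · intro s hs R' _ hR'
    simp only [δ, act, h, phase_mod s le_rfl, phase_div s le_rfl, hs, and_self, if_true, tgt]
    rw [if_neg (by unfold W; omega), rn_nop]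
    congr 3
    apply lde_congr
    intro i _
    split_ifs with h1
    · have := hR' (reg i) (by simp only [hreg, xreg, areg]; omega)
      rw [hv i h1] at this
      show _ * R' (reg i) = _
      rw [this, inv_mul_add hs]
    · have := hR' (P.slot (P.β j + (i - P.b))) (by
        have := P.slot_bounds (P.β j + (i - P.b)); unfold areg; omega)
      rw [this, hv0, mul_zero, add_zero]
  · intro R'
    have h1 : ¬ (P.p - 1 + 1 < P.p) := by omega
    simp only [δ, act, h, phase_mod (P.p - 1) le_rfl, phase_div (P.p - 1) le_rfl, h1, and_false,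
      if_false, Pi.single_zero, add_zero]
    rw [if_neg (by unfold W; omega), rn_nop]

theorem valB_congr (j c r : ℕ) {w w' : ℕ → ZMod P.p} (h : ∀ i ≤ P.σ j - P.β j, w i = w' i) :
    P.valB j c r w = P.valB j c r w' := by
  unfold valB
  apply lde_congr
  intro i hi
  split_ifs with h1
  · rfl
  · exact h _ (by omega)

theorem valP_congr (j c : ℕ) {w w' : ℕ → ZMod P.p} (h : ∀ i ≤ P.σ j - P.β j, w i = w' i) :
    P.valP j c w = P.valP j c w' := by
  unfold valP
  congr 1
  exact prod_congr rfl (fun r _ => valB_congr j c r h)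

theorem node_P (hG : P.Good) {d : ℕ} (IH : P.Spec d) (j s₀ c : ℕ) (R : ℕ → ZMod P.p)
    (hW : P.WF (.G j s₀ (P.l + 1) c)) (hr : P.rank (.G j s₀ (P.l + 1) c) ≤ d + 1) :
    P.rn (d + 1) (.G j s₀ (P.l + 1) c) R =
      R + Pi.single (P.tgt (.G j s₀ (P.l + 1) c)) (P.val (.G j s₀ (P.l + 1) c) R) := by
  obtain ⟨hj, -, -⟩ := hW
  simp only [rank] at hr
  obtain ⟨f1, f2, f3, f4, -, -⟩ := σ_facts hG hj
  have hlM := l_le_M hG
  set reg : ℕ → ℕ := fun i => P.areg i with hreg
  set vl : ℕ → ZMod P.p := fun i => if i < P.l then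
    P.valB j c i (fun i => ((s₀ + 1 : ℕ) : ZMod P.p)⁻¹ * R (P.slot (P.β j + i))) else 0 with hvl
  have hv : ∀ i < P.l, (∑ i ∈ range P.W, Pi.single (M := fun _ => ZMod P.p) (reg i) (vl i)) (reg i)
      = vl i := fun i hi =>
    sum_single_apply reg vl (by unfold W; omega) (fun i' _ hne h => by
      simp only [hreg, areg] at h; omega)
  have hslot : ∀ i ≤ P.σ j - P.β j, P.slot (P.β j + i) ≠ P.slot j := by
    intro i hi h
    have e : j = P.β j + (j - P.β j) := by omega
    rw [e] at h
    rw [← e] at h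
    have : P.slot (P.β j + i) = P.slot (P.β j + (j - P.β j)) := by rw [← e]; exact h
    have := slot_inj (by omega) (by omega) this
    omega
  rw [rn_succ]
  rw [cm_node P.W (P.l * 1) _ R (P.slot j) reg vl
    (fun R' => ∀ i ≤ P.σ j - P.β j, R' (P.slot (P.β j + i)) = R (P.slot (P.β j + i)))
    (fun l => - (((digit P.V c (j - P.σ j) : ℕ) : ZMod P.p) *
      ∏ r ∈ range P.l, (l * R (reg r) + vl r)))
    (PD.neg (PD.const_mul _ (PD.prod (fun i _ => PD.affine _ _))))
    (by
      have := deg_le hG (n := P.l) (by omega)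
      have := Nat.le_mul_of_pos_right P.l hG.V_pos
      omega)
    (fun _ _ => rfl)]
  · simp only [tgt, val, valP, Nat.sub_self, pow_zero, range_one, sum_singleton, zero_mul,
      add_zero, zero_add]
    congr 4
    exact prod_congr rfl (fun r hr => by simp only [hvl, mem_range.1 hr, if_true])
  · intro i _ R' x hP i' hi'
    rw [Pi.add_apply, Pi.single_eq_of_ne, add_zero, hP i' hi']
    have := P.slot_bounds (P.β j + i')
    simp only [hreg, areg]; omega
  · intro R' x hP i' hi'
    rw [Pi.add_apply, Pi.single_eq_of_ne (hslot i' hi'), add_zero, hP i' hi']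
  · intro s _ i hi R' hP
    simp only [δ, act, h, phase_mod s hi.le, show i ≠ P.W by omega, false_and,
      if_false, Pi.single_zero, add_zero, hreg, hvl, show ¬ (P.l + 1 ≤ P.l) by omega]
    split_ifs with h1
    · rw [IH (.B j s₀ c i) _ ⟨hj, h1⟩ (by simp only [rank]; omega)]
      simp only [tgt, val]
      congr 2
      exact valB_congr j c i (fun i' hi' => by rw [hP i' hi'])
    · simp [rn_nop]
  · intro s hs R' _ hR'
    simp only [δ, act, h, phase_mod s le_rfl, phase_div s le_rfl, hs, and_self, if_true, tgt,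
      show ¬ (P.l + 1 ≤ P.l) by omega, if_false, neg_neg]
    rw [if_neg (by unfold W; omega), rn_nop]
    congr 3
    apply prod_congr rfl
    intro r hr
    have := hR' (reg r) (by have := P.slot_bounds j; simp only [hreg, areg]; omega)
    rw [hv r (mem_range.1 hr)] at this
    show _ * R' (reg r) = _
    rw [this, inv_mul_add hs]
  · intro R'
    have h1 : ¬ (P.p - 1 + 1 < P.p) := by omega
    simp only [δ, act, h, phase_mod (P.p - 1) le_rfl, phase_div (P.p - 1) le_rfl, h1, and_false,
      if_false, Pi.single_zero, add_zero, show ¬ (P.l + 1 ≤ P.l) by omega]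
    rw [if_neg (by unfold W; omega), rn_nop]

theorem sum_range_mul_split {F : Type} [AddCommMonoid F] (V m : ℕ) (f : ℕ → F) :
    ∑ c ∈ range (V * m), f c = ∑ t ∈ range V, ∑ c ∈ range m, f (t + c * V) := by
  induction m with
  | zero => simp
  | succ m ih =>
    rw [Nat.mul_succ, sum_range_add, ih, ← sum_add_distrib]
    refine sum_congr rfl (fun t _ => ?_)
    rw [sum_range_succ]
    congr 2
    ring

theorem node_G (hG : P.Good) {d : ℕ} (IH : P.Spec d) (j s₀ n c : ℕ) (R : ℕ → ZMod P.p)
    (hn : n ≤ P.l) (hW : P.WF (.G j s₀ n c)) (hr : P.rank (.G j s₀ n c) ≤ d + 1) :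
    P.rn (d + 1) (.G j s₀ n c) R = R + Pi.single (P.tgt (.G j s₀ n c)) (P.val (.G j s₀ n c) R) := by
  obtain ⟨hj, -, hc⟩ := hW
  simp only [rank] at hr
  obtain ⟨f1, f2, f3, f4, -, -⟩ := σ_facts hG hj
  have hslot : ∀ i ≤ P.σ j - P.β j, P.slot (P.β j + i) ≠ P.slot j := by
    intro i hi h
    have e : j = P.β j + (j - P.β j) := by omega
    have : P.slot (P.β j + i) = P.slot (P.β j + (j - P.β j)) := by rw [← e]; exact h
    have := slot_inj (by omega) (by omega) this
    omega
  have hVJ : P.V ≤ P.p * (P.W + 1) :=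
    (V_le_p hG).trans (Nat.le_mul_of_pos_right _ (by omega))
  rw [rn_succ]
  have := (iter_load (P.p * (P.W + 1)) (fun t R => P.rn d (P.δ (.G j s₀ n c) t)
    (P.act (.G j s₀ n c) t R)) (fun _ => P.slot j)
    (fun t => if t < P.V then P.val (.G j s₀ (n + 1) (c + t * P.V ^ n)) R else 0)
    (fun R' => ∀ i ≤ P.σ j - P.β j, R' (P.slot (P.β j + i)) = R (P.slot (P.β j + i))) R
    (fun _ _ => rfl) ?_ ?_).1
  · rw [this]
    congr 1
    funext r
    by_cases hr' : r = P.slot j
    · subst hr'
      simp only [Finset.sum_apply, Pi.single_eq_same, tgt]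
      obtain ⟨m, hm⟩ : ∃ m, P.p * (P.W + 1) = P.V + m := ⟨_, (Nat.add_sub_cancel' hVJ).symm⟩
      rw [hm, sum_range_add, sum_eq_zero (s := range m) (fun t _ => by rw [if_neg (by omega)]),
        add_zero, sum_congr rfl (fun t ht => if_pos (mem_range.1 ht))]
      simp only [val]
      rw [sum_neg_distrib, show P.l + 1 - n = (P.l + 1 - (n + 1)) + 1 by omega,
        pow_succ' P.V (P.l + 1 - (n + 1)), sum_range_mul_split]
      congr 1
      refine sum_congr rfl (fun t _ => sum_congr rfl (fun c' _ => ?_))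
      congr 1
      ring
    · simp only [Finset.sum_apply, tgt, Pi.single_eq_of_ne hr', sum_const_zero]
  · intro t _ R' hP
    simp only [δ, act, h, hn, if_true, Pi.single_zero, add_zero]
    split_ifs with h1
    · rw [IH (.G j s₀ (n + 1) (c + t * P.V ^ n)) _ ⟨hj, by omega, ?_⟩ (by simp only [rank]; omega)]
      · simp only [tgt, val]
        congr 3
        exact sum_congr rfl (fun c' _ => valP_congr j _ (fun i' hi' => by rw [hP i' hi']))
      · rw [pow_succ]; nlinarith
    · simp [rn_nop]
  · intro _ _ R' x hP i' hi'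
    rw [Pi.add_apply, Pi.single_eq_of_ne (hslot i' hi'), add_zero, hP i' hi']

theorem valB_ev (hG : P.Good) (j c r : ℕ) :
    P.valB j c r (fun i => (P.D.ev (P.β j + i) : ℕ)) =
      if P.D.ev (P.β j + (P.σ j - P.β j)) = digit P.V c 0 ∧
        P.D.ve (P.replay (P.D.blk (digit P.V c r)) (P.D.Y (P.β j) (P.D.blk (digit P.V c r)))
          (fun i => if i < P.σ j - P.β j then P.D.ev (P.β j + i)
            else digit P.V c (i - (P.σ j - P.β j))) (P.σ j - P.β j + r))
          (digit P.V c r) = digit P.V c (r + 1) then 1 else 0 := by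
  unfold valB
  set n₀ := P.σ j - P.β j
  set y := P.D.Y (P.β j) (P.D.blk (digit P.V c r)) with hy
  have hylt : y < P.V ^ P.b := Y_lt hG _ _
  have hd := digit_ofDig (B := P.V) (f := fun i => P.D.ev (P.β j + i)) (n₀ + 1)
    (fun i _ => ev_lt hG _)
  rw [lde_nat (V_le_p hG)
    (z₀ := y + ofDig P.V (fun i => P.D.ev (P.β j + i)) (n₀ + 1) * P.V ^ P.b)]
  · unfold φB
    rw [Nat.add_mul_mod_self_right, Nat.mod_eq_of_lt hylt,
      Nat.add_mul_div_right _ _ (pow_pos hG.V_pos _), Nat.div_eq_of_lt hylt, zero_add,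
      hd n₀ (by omega)]
    have : (fun i => if i < n₀ then digit P.V (ofDig P.V (fun i => P.D.ev (P.β j + i)) (n₀ + 1)) i
        else digit P.V c (i - n₀)) =
        (fun i => if i < n₀ then P.D.ev (P.β j + i) else digit P.V c (i - n₀)) := by
      funext i
      split_ifs with h1
      · exact hd i (by omega)
      · rfl
    rw [this]
    split_ifs <;> simp
  · have h2 := ofDig_lt (B := P.V) (f := fun i => P.D.ev (P.β j + i)) (n₀ + 1)
      (fun i _ => ev_lt hG _)
    rw [pow_add]
    nlinarith
  · intro i hi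
    split_ifs with h1
    · rw [digit_add_mul_lt h1]
    · obtain ⟨i', rfl⟩ : ∃ i', i = P.b + i' := ⟨i - P.b, by omega⟩
      rw [digit_add_mul_ge hylt, hd i' (by omega), Nat.add_sub_cancel_left]

omit hp in
theorem replay_seq {j c r : ℕ} (f1 : P.β j ≤ P.σ j) (k : ℕ)
    (hc : ∀ r' < r, digit P.V c r' = P.D.ev (P.σ j + r')) :
    P.replay k (P.D.Y (P.β j) k) (fun i => if i < P.σ j - P.β j then P.D.ev (P.β j + i)
      else digit P.V c (i - (P.σ j - P.β j))) (P.σ j - P.β j + r) = P.D.Y (P.σ j + r) k := by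
  rw [replay_eq (P.β j) k _ _ (fun i hi => by
    split_ifs with h1
    · rfl
    · rw [hc _ (by omega)]; congr 1; omega)]
  congr 1; omega

theorem sum_valP (hG : P.Good) {j : ℕ} (hj : 1 ≤ j) :
    ∑ c ∈ range (P.V ^ (P.l + 1)), P.valP j c (fun i => (P.D.ev (P.β j + i) : ℕ)) =
      (P.D.ev j : ℕ) := by
  obtain ⟨f1, f2, f3, f4, -, -⟩ := σ_facts hG hj
  have hd := digit_ofDig (B := P.V) (f := fun r => P.D.ev (P.σ j + r)) (P.l + 1)
    (fun i _ => ev_lt hG _)
  have hlt := ofDig_lt (B := P.V) (f := fun r => P.D.ev (P.σ j + r)) (P.l + 1)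
    (fun i _ => ev_lt hG _)
  set c₀ := ofDig P.V (fun r => P.D.ev (P.σ j + r)) (P.l + 1)
  have e0 : P.β j + (P.σ j - P.β j) = P.σ j := by omega
  rw [sum_eq_single c₀]
  · unfold valP
    rw [prod_eq_one, mul_one, hd _ (by omega)]
    · congr 2; omega
    · intro r hr
      have hr := mem_range.1 hr
      rw [valB_ev hG, if_pos]
      refine ⟨by rw [e0, hd 0 (by omega)]; rfl, ?_⟩
      rw [replay_seq f1 _ (fun r' hr' => hd r' (by omega)), hd r (by omega), hd (r + 1) (by omega)]
      rfl
  · intro c hc hne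
    unfold valP
    by_contra hne0
    have h1 : ∀ r < P.l, P.valB j c r (fun i => (P.D.ev (P.β j + i) : ℕ)) ≠ 0 := by
      intro r hr h0
      exact hne0 (by rw [prod_eq_zero (mem_range.2 hr) h0, mul_zero])
    have h2 : ∀ r ≤ P.l, ∀ r' ≤ r, digit P.V c r' = P.D.ev (P.σ j + r') := by
      intro r
      induction r with
      | zero =>
        intro _ r' hr'
        have h3 := h1 0 hG.l_pos
        rw [valB_ev hG] at h3
        split_ifs at h3 with h4
        · obtain rfl : r' = 0 := by omega
          rw [← h4.1, e0]; rfl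
        · exact absurd rfl h3
      | succ r ih =>
        intro hr r' hr'
        rcases Nat.lt_or_ge r' (r + 1) with h5 | h5
        · exact ih (by omega) r' (by omega)
        · obtain rfl : r' = r + 1 := by omega
          have h3 := h1 r (by omega)
          rw [valB_ev hG] at h3
          split_ifs at h3 with h4
          · rw [← h4.2, replay_seq f1 _ (fun r' hr' => ih (by omega) r' (by omega)),
              ih (by omega) r le_rfl]
            rfl
          · exact absurd rfl h3
    apply hne
    apply eq_of_digit (P.l + 1) (mem_range.1 hc) hlt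
    intro i hi
    rw [h2 P.l le_rfl i (by omega), hd i hi]
  · intro hc; exact absurd (mem_range.2 hlt) hc

theorem node_E (hG : P.Good) {d : ℕ} (IH : P.Spec d) (j : ℕ) (R : ℕ → ZMod P.p)
    (hj : 1 ≤ j) (hr : P.rank (.E j) ≤ d + 1) :
    P.rn (d + 1) (.E j) R = R + Pi.single (P.tgt (.E j)) (P.val (.E j) R) := by
  have hj0 : j ≠ 0 := by omega
  simp only [rank, hj0, if_false] at hr
  obtain ⟨f1, f2, f3, f4, f5, f6⟩ := σ_facts hG hj
  have hlM := l_le_M hG
  have hl := hG.l_pos
  have f7 : 0 ≤ (P.σ j - P.β j) / P.l := Nat.zero_le _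
  set reg : ℕ → ℕ := fun i => P.slot (P.β j + i) with hreg
  set vl : ℕ → ZMod P.p := fun i => if i ≤ P.σ j - P.β j then (P.D.ev (P.β j + i) : ℕ) else 0
    with hvl
  have hv : ∀ i ≤ P.σ j - P.β j,
      (∑ i ∈ range P.W, Pi.single (M := fun _ => ZMod P.p) (reg i) (vl i)) (reg i) = vl i :=
    fun i hi => sum_single_apply reg vl (by unfold W; omega) (fun i' _ hne h => by
      simp only [hvl]
      rw [if_neg]
      intro h1
      exact hne (slot_inj (by omega) (by omega) h))
  have hslot : ∀ i ≤ P.σ j - P.β j, P.slot (P.β j + i) ≠ P.slot j := by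
    intro i hi h
    have e : j = P.β j + (j - P.β j) := by omega
    have : P.slot (P.β j + i) = P.slot (P.β j + (j - P.β j)) := by rw [← e]; exact h
    have := slot_inj (by omega) (by omega) this
    omega
  rw [rn_succ]
  rw [cm_node P.W (P.l * ((P.b + P.M + 1) * P.V)) _ R (P.slot j) reg vl (fun _ => True)
    (fun l => ∑ c ∈ range (P.V ^ (P.l + 1)), P.valP j c (fun i => l * R (reg i) + vl i))
    (PD.sum (fun c _ => PD.const_mul _ (PD.prod (fun r _ => PD.mono (PD.lde _ _ _ (fun i _ => by
      by_cases h1 : i < P.b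
      · simp only [h1, if_true]; exact PD.const _ _
      · simp only [h1, if_false]; exact PD.affine _ _))
      (Nat.mul_le_mul_right _ (by omega))))))
    hG.deg trivial (fun _ _ _ _ _ => trivial) (fun _ _ _ => trivial)]
  · simp only [tgt, val]
    congr 2
    rw [← sum_valP hG hj]
    refine sum_congr rfl (fun c _ => valP_congr j c (fun i hi => ?_))
    simp only [hvl, hi, if_true, zero_mul, zero_add]
  · intro s _ i hi R' _
    simp only [δ, act, h, phase_mod s hi.le, show i ≠ P.W by omega, false_and, hj0,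
      if_false, Pi.single_zero, add_zero, hreg, hvl]
    split_ifs with h1
    · refine IH (.E _) _ trivial ?_
      rcases Nat.eq_zero_or_pos i with h2 | h2
      · subst h2
        have := rank_E_le hG (j := P.β j + 0) (J := P.band j) le_rfl
        split_ifs at this <;> omega
      · simp only [rank, show P.β j + i ≠ 0 by omega, if_false]
        have hM := M_pos hG
        have e1 : P.band (P.β j + i) = P.band j := by
          unfold band β
          rw [Nat.add_sub_assoc h2, add_comm, Nat.add_mul_div_right _ _ hM,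
            Nat.div_eq_of_lt (by omega), zero_add]
        have e2 : P.β (P.β j + i) = P.β j := by
          have : ∀ j, P.β j = P.band j * P.M := fun _ => rfl
          rw [this (P.β j + i), e1, ← this]
        obtain ⟨g1, g2, -, -, g5, -⟩ := σ_facts hG (show 1 ≤ P.β j + i by omega)
        rw [e1, e2]
        rw [e2] at g1 g5
        have : (P.σ (P.β j + i) - P.β j) / P.l < (P.σ j - P.β j) / P.l := by
          by_contra hc
          have := Nat.mul_le_mul_right P.l (not_lt.1 hc)
          omega
        omega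
    · simp [rn_nop]
  · intro s hs R' _ hR'
    simp only [δ, act, h, phase_mod s le_rfl, phase_div s le_rfl, hs, and_self, if_true, hj0,
      if_false, false_and, Pi.single_zero, add_zero]
    rw [if_neg (by unfold W; omega),
      IH (.G j s 0 0) _ ⟨hj, by omega, by simp⟩ (by simp only [rank]; omega)]
    simp only [tgt, val, Nat.sub_zero, pow_zero, mul_one, zero_add]
    congr 3
    refine sum_congr rfl (fun c _ => valP_congr j c (fun i hi => ?_))
    have := hR' (reg i) (hslot i hi)
    rw [hv i hi] at this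
    show _ * R' (reg i) = _
    rw [this, inv_mul_add hs]
  · intro R'
    have h1 : ¬ (P.p - 1 + 1 < P.p) := by omega
    simp only [δ, act, h, phase_mod (P.p - 1) le_rfl, phase_div (P.p - 1) le_rfl, h1, and_false,
      if_false, Pi.single_zero, add_zero, hj0, false_and]
    rw [if_neg (by unfold W; omega), rn_nop]

theorem spec (hG : P.Good) (d : ℕ) : P.Spec d := by
  induction d with
  | zero =>
    intro a R _ hr
    cases a with
    | nop => simp [rn_nop, val]
    | E j =>
      have := Nat.zero_le ((P.σ j - P.β j) / P.l)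
      simp only [rank] at hr; split_ifs at hr <;> omega
    | _ => simp only [rank] at hr; omega
  | succ d IH =>
    intro a R hW hr
    cases a with
    | nop => simp [rn_nop, val]
    | X J k u sd =>
      cases J with
      | zero => exact node_X0 d k u sd R
      | succ J => exact node_X hG IH J k u sd R hW hr
    | E j =>
      cases j with
      | zero => exact node_E0 d R
      | succ j => exact node_E hG IH (j + 1) R (by omega) hr
    | G j s n c =>
      rcases Nat.lt_or_ge P.l n with h1 | h1
      · obtain rfl : n = P.l + 1 := by have := hW.2.1; omega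
        exact node_P hG IH j s c R hW hr
      · exact node_G hG IH j s n c R h1 hW hr
    | B j s c r => exact node_B hG IH j s c r R hW hr

/-- The root computes event number `n * l * l`. -/
theorem root (hG : P.Good) (n : ℕ) :
    P.rn (n * (2 * P.l + 4) + 1) (.E (n * P.M)) 0 (P.slot (n * P.M)) = (P.D.ev (n * P.M) : ℕ) := by
  rw [spec hG _ (.E _) 0 trivial]
  · simp [tgt, val]
  · have := rank_E_le hG (j := n * P.M) (J := n) le_rfl
    split_ifs at this <;> omega

end Par

end Vale.Agent.P312
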