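import Vale.Agent.P312.Flat
import Vale.Agent.P312.TreeMain

/-! The call tree coded by natural numbers. -/

namespace Vale.Agent.P312

open Finset

def t5 (a b c d e : ℕ) : ℕ := Nat.pair a (Nat.pair b (Nat.pair c (Nat.pair d e)))
def g0 (z : ℕ) : ℕ := z.unpair.1
def g1 (z : ℕ) : ℕ := z.unpair.2.unpair.1
def g2 (z : ℕ) : ℕ := z.unpair.2.unpair.2.unpair.1
def g3 (z : ℕ) : ℕ := z.unpair.2.unpair.2.unpair.2.unpair.1
def g4 (z : ℕ) : ℕ := z.unpair.2.unpair.2.unpair.2.unpair.2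

@[simp] theorem g0_t5 (a b c d e : ℕ) : g0 (t5 a b c d e) = a := by simp [g0, t5]
@[simp] theorem g1_t5 (a b c d e : ℕ) : g1 (t5 a b c d e) = b := by simp [g1, t5]
@[simp] theorem g2_t5 (a b c d e : ℕ) : g2 (t5 a b c d e) = c := by simp [g2, t5]
@[simp] theorem g3_t5 (a b c d e : ℕ) : g3 (t5 a b c d e) = d := by simp [g3, t5]
@[simp] theorem g4_t5 (a b c d e : ℕ) : g4 (t5 a b c d e) = e := by simp [g4, t5]

theorem pair_lt {a b K : ℕ} (ha : a < K) (hb : b < K) : Nat.pair a b < K ^ 2 := by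
  have h1 := Nat.pair_lt_max_add_one_sq a b
  have h2 : max a b + 1 ≤ K := by omega
  exact h1.trans_le (Nat.pow_le_pow_left h2 2)

theorem t5_lt {a b c d e K : ℕ} (ha : a < K) (hb : b < K) (hc : c < K) (hd : d < K) (he : e < K) :
    t5 a b c d e < K ^ 16 := by
  have hK : 1 ≤ K := by omega
  have l2 : K ≤ K ^ 2 := Nat.le_self_pow (by omega) K
  have l4 : K ≤ (K ^ 2) ^ 2 := l2.trans (Nat.le_self_pow (by omega) _)
  have l8 : K ≤ ((K ^ 2) ^ 2) ^ 2 := l4.trans (Nat.le_self_pow (by omega) _)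
  have h1 := pair_lt hd he
  have h2 := pair_lt (hc.trans_le l2) h1
  have h3 := pair_lt (hb.trans_le l4) h2
  have h4 := pair_lt (ha.trans_le l8) h3
  have e : (((K ^ 2) ^ 2) ^ 2) ^ 2 = K ^ 16 := by ring
  rw [← e]; exact h4

def encA : Addr → ℕ
  | .nop => t5 0 0 0 0 0
  | .X J k u sd => t5 1 J k u sd
  | .E j => t5 2 j 0 0 0
  | .G j s n c => t5 3 j s n c
  | .B j s c r => t5 4 j s c r

def cslot (b l j : ℕ) : ℕ := 2 * b + j % (l * l + 1)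
def careg (b l r : ℕ) : ℕ := 2 * b + (l * l + 1) + r
def cβ (l j : ℕ) : ℕ := (j - 1) / (l * l) * (l * l)
def cσ (l j : ℕ) : ℕ := (j - 1) / l * l

def cδ (N p V b l : ℕ) (blk : ℕ → ℕ) (a t : ℕ) : ℕ :=
  if g0 a = 1 then
    (if g1 a = 0 then t5 0 0 0 0 0
    else if t % (b + l * l + 1 + 1) < b then
      t5 1 (g1 a - 1) (g2 a) (t % (b + l * l + 1 + 1)) (1 - g4 a)
    else if t % (b + l * l + 1 + 1) < b + l * l then
      t5 2 ((g1 a - 1) * (l * l) + (t % (b + l * l + 1 + 1) - b)) 0 0 0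
    else t5 0 0 0 0 0)
  else if g0 a = 2 then
    (if g1 a = 0 then t5 0 0 0 0 0
    else if t % (b + l * l + 1 + 1) ≤ cσ l (g1 a) - cβ l (g1 a) then
      t5 2 (cβ l (g1 a) + t % (b + l * l + 1 + 1)) 0 0 0
    else if t % (b + l * l + 1 + 1) = b + l * l + 1 ∧ t / (b + l * l + 1 + 1) + 1 < p then
      t5 3 (g1 a) (t / (b + l * l + 1 + 1)) 0 0
    else t5 0 0 0 0 0)
  else if g0 a = 3 then
    (if g3 a ≤ l then
      (if t < V then t5 3 (g1 a) (g2 a) (g3 a + 1) (g4 a + t * cpow N V (g3 a)) else t5 0 0 0 0 0)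
    else if t % (b + l * l + 1 + 1) < l then t5 4 (g1 a) (g2 a) (g4 a) (t % (b + l * l + 1 + 1))
    else t5 0 0 0 0 0)
  else if g0 a = 4 then
    (if t % (b + l * l + 1 + 1) < b then
      t5 1 ((g1 a - 1) / (l * l)) (blk (cdig N V (g3 a) (g4 a))) (t % (b + l * l + 1 + 1)) 0
    else t5 0 0 0 0 0)
  else t5 0 0 0 0 0

def creplay (N : ℕ) (blk : ℕ → ℕ) (vy : ℕ → ℕ → ℕ) (k y : ℕ) (c : ℕ → ℕ) (n : ℕ) : ℕ :=
  citer N n y (fun i y => if blk (c i) = k then vy y (c i) else y)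

def cφX (N V b l : ℕ) (blk : ℕ → ℕ) (vy : ℕ → ℕ → ℕ) (k u z : ℕ) : ℕ :=
  cdig N V (creplay N blk vy k (z % cpow N V b) (fun i => cdig N V (z / cpow N V b) i) (l * l)) u

def cφB (N V b : ℕ) (blk : ℕ → ℕ) (vy ve : ℕ → ℕ → ℕ) (n₀ c r z : ℕ) : ℕ :=
  if cdig N V (z / cpow N V b) n₀ = cdig N V c 0 ∧
      ve (creplay N blk vy (blk (cdig N V c r)) (z % cpow N V b)
        (fun i => if i < n₀ then cdig N V (z / cpow N V b) i else cdig N V c (i - n₀)) (n₀ + r))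
        (cdig N V c r) = cdig N V c (r + 1) then 1 else 0

def ctgt (b l a : ℕ) : ℕ :=
  if g0 a = 1 then g4 a * b + g3 a
  else if g0 a = 2 then cslot b l (g1 a)
  else if g0 a = 3 then cslot b l (g1 a)
  else if g0 a = 4 then careg b l (g4 a)
  else 0

def chX (N p V b l : ℕ) (blk : ℕ → ℕ) (vy : ℕ → ℕ → ℕ) (J k u sd s R : ℕ) : ℕ :=
  cneg p (clde N p V (b + l * l) (fun i => cinv p (s + 1) *
    cdig N p R (if i < b then (1 - sd) * b + i else cslot b l ((J - 1) * (l * l) + (i - b))))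
    (fun z => cφX N V b l blk vy k u z))

def chG (N p V b l : ℕ) (j c s R : ℕ) : ℕ :=
  cdig N V c (j - cσ l j) * cprod p l (fun r => cinv p (s + 1) * cdig N p R (careg b l r))

def chB (N p V b l : ℕ) (blk : ℕ → ℕ) (vy ve : ℕ → ℕ → ℕ) (j s₀ c r s R : ℕ) : ℕ :=
  cneg p (clde N p V (b + (cσ l j - cβ l j + 1))
    (fun i => if i < b then cinv p (s + 1) * cdig N p R (0 * b + i)
      else cinv p (s₀ + 1) * cdig N p R (cslot b l (cβ l j + (i - b))))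
    (fun z => cφB N V b blk vy ve (cσ l j - cβ l j) c r z))

def ch (N p V b l : ℕ) (blk : ℕ → ℕ) (vy ve : ℕ → ℕ → ℕ) (X0 : ℕ → ℕ) (e0 a t R : ℕ) : ℕ :=
  if g0 a = 1 then
    (if g1 a = 0 then (if t = 0 then cdig N V (X0 (g2 a)) (g3 a) else 0)
    else if t % (b + l * l + 1 + 1) = b + l * l + 1 ∧ t / (b + l * l + 1 + 1) + 1 < p then
      chX N p V b l blk vy (g1 a) (g2 a) (g3 a) (g4 a) (t / (b + l * l + 1 + 1)) R
    else 0)
  else if g0 a = 2 then (if g1 a = 0 ∧ t = 0 then e0 else 0)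
  else if g0 a = 3 then
    (if g3 a ≤ l then 0
    else if t % (b + l * l + 1 + 1) = b + l * l + 1 ∧ t / (b + l * l + 1 + 1) + 1 < p then
      chG N p V b l (g1 a) (g4 a) (t / (b + l * l + 1 + 1)) R
    else 0)
  else if g0 a = 4 then
    (if t % (b + l * l + 1 + 1) = b + l * l + 1 ∧ t / (b + l * l + 1 + 1) + 1 < p then
      chB N p V b l blk vy ve (g1 a) (g2 a) (g3 a) (g4 a) (t / (b + l * l + 1 + 1)) R
    else 0)
  else 0

def cact (N p V b l : ℕ) (blk : ℕ → ℕ) (vy ve : ℕ → ℕ → ℕ) (X0 : ℕ → ℕ) (e0 a t R : ℕ) : ℕ :=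
  cset N p R (ctgt b l a) ((cdig N p R (ctgt b l a) + ch N p V b l blk vy ve X0 e0 a t R) % p)

/-- The coded computation of event number `n * l * l`. -/
def cev (N p V b l : ℕ) (blk : ℕ → ℕ) (vy ve : ℕ → ℕ → ℕ) (X0 : ℕ → ℕ) (e0 n : ℕ) : ℕ :=
  cdig N p (cflat N (p * (b + l * l + 1 + 1)) (fun a t => cδ N p V b l blk a t)
    (fun a t R => cact N p V b l blk vy ve X0 e0 a t R) (n * (2 * l + 4) + 1)
    (t5 2 (n * (l * l)) 0 0 0) 0) (cslot b l (n * (l * l)))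

section LSfacts

variable {Sym : Type} {α : Type} [Ctx Sym α]

@[fun_prop] theorem LS.t5 {a b c d e : α → ℕ} (ha : LS Sym a) (hb : LS Sym b) (hc : LS Sym c)
    (hd : LS Sym d) (he : LS Sym e) : LS Sym (fun y => t5 (a y) (b y) (c y) (d y) (e y)) := by
  unfold Vale.Agent.P312.t5; fun_prop

@[fun_prop] theorem LS.g0 {a : α → ℕ} (ha : LS Sym a) : LS Sym (fun y => g0 (a y)) := by
  unfold Vale.Agent.P312.g0; fun_prop
@[fun_prop] theorem LS.g1 {a : α → ℕ} (ha : LS Sym a) : LS Sym (fun y => g1 (a y)) := by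
  unfold Vale.Agent.P312.g1; fun_prop
@[fun_prop] theorem LS.g2 {a : α → ℕ} (ha : LS Sym a) : LS Sym (fun y => g2 (a y)) := by
  unfold Vale.Agent.P312.g2; fun_prop
@[fun_prop] theorem LS.g3 {a : α → ℕ} (ha : LS Sym a) : LS Sym (fun y => g3 (a y)) := by
  unfold Vale.Agent.P312.g3; fun_prop
@[fun_prop] theorem LS.g4 {a : α → ℕ} (ha : LS Sym a) : LS Sym (fun y => g4 (a y)) := by
  unfold Vale.Agent.P312.g4; fun_prop

@[fun_prop] theorem LS.cslot {b l j : α → ℕ} (hb : LS Sym b) (hl : LS Sym l) (hj : LS Sym j) :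
    LS Sym (fun y => cslot (b y) (l y) (j y)) := by
  unfold Vale.Agent.P312.cslot; fun_prop
@[fun_prop] theorem LS.careg {b l j : α → ℕ} (hb : LS Sym b) (hl : LS Sym l) (hj : LS Sym j) :
    LS Sym (fun y => careg (b y) (l y) (j y)) := by
  unfold Vale.Agent.P312.careg; fun_prop
@[fun_prop] theorem LS.cβ {l j : α → ℕ} (hl : LS Sym l) (hj : LS Sym j) :
    LS Sym (fun y => cβ (l y) (j y)) := by
  unfold Vale.Agent.P312.cβ; fun_prop
@[fun_prop] theorem LS.cσ {l j : α → ℕ} (hl : LS Sym l) (hj : LS Sym j) :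
    LS Sym (fun y => cσ (l y) (j y)) := by
  unfold Vale.Agent.P312.cσ; fun_prop

@[fun_prop] theorem LS.cδ {N p V b l a t : α → ℕ} {blk : α → ℕ → ℕ} (hN : LS Sym N)
    (hp : LS Sym p) (hV : LS Sym V) (hb : LS Sym b) (hl : LS Sym l)
    (hblk : LS Sym (fun q : α × ℕ => blk q.1 q.2)) (ha : LS Sym a) (ht : LS Sym t) :
    LS Sym (fun y => cδ (N y) (p y) (V y) (b y) (l y) (blk y) (a y) (t y)) := by
  unfold Vale.Agent.P312.cδ; fun_prop

@[fun_prop] theorem LS.creplay {N k u n : α → ℕ} {blk c : α → ℕ → ℕ} {vy : α → ℕ → ℕ → ℕ}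
    (hN : LS Sym N) (hblk : LS Sym (fun q : α × ℕ => blk q.1 q.2))
    (hvy : LS Sym (fun q : α × ℕ × ℕ => vy q.1 q.2.1 q.2.2)) (hk : LS Sym k) (hu : LS Sym u)
    (hc : LS Sym (fun q : α × ℕ => c q.1 q.2)) (hn : LS Sym n) :
    LS Sym (fun y => creplay (N y) (blk y) (vy y) (k y) (u y) (c y) (n y)) := by
  unfold Vale.Agent.P312.creplay; fun_prop

@[fun_prop] theorem LS.cφX {N V b l k u z : α → ℕ} {blk : α → ℕ → ℕ} {vy : α → ℕ → ℕ → ℕ}
    (hN : LS Sym N) (hV : LS Sym V) (hb : LS Sym b) (hl : LS Sym l)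
    (hblk : LS Sym (fun q : α × ℕ => blk q.1 q.2))
    (hvy : LS Sym (fun q : α × ℕ × ℕ => vy q.1 q.2.1 q.2.2)) (hk : LS Sym k) (hu : LS Sym u)
    (hz : LS Sym z) :
    LS Sym (fun y => cφX (N y) (V y) (b y) (l y) (blk y) (vy y) (k y) (u y) (z y)) := by
  unfold Vale.Agent.P312.cφX; fun_prop

@[fun_prop] theorem LS.cφB {N V b n c r z : α → ℕ} {blk : α → ℕ → ℕ} {vy ve : α → ℕ → ℕ → ℕ}
    (hN : LS Sym N) (hV : LS Sym V) (hb : LS Sym b)
    (hblk : LS Sym (fun q : α × ℕ => blk q.1 q.2))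
    (hvy : LS Sym (fun q : α × ℕ × ℕ => vy q.1 q.2.1 q.2.2))
    (hve : LS Sym (fun q : α × ℕ × ℕ => ve q.1 q.2.1 q.2.2)) (hn : LS Sym n) (hc : LS Sym c)
    (hr : LS Sym r) (hz : LS Sym z) :
    LS Sym (fun y => cφB (N y) (V y) (b y) (blk y) (vy y) (ve y) (n y) (c y) (r y) (z y)) := by
  unfold Vale.Agent.P312.cφB; fun_prop

@[fun_prop] theorem LS.ctgt {b l a : α → ℕ} (hb : LS Sym b) (hl : LS Sym l) (ha : LS Sym a) :
    LS Sym (fun y => ctgt (b y) (l y) (a y)) := by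
  unfold Vale.Agent.P312.ctgt; fun_prop

@[fun_prop] theorem LS.chX {N p V b l J k u sd s R : α → ℕ} {blk : α → ℕ → ℕ}
    {vy : α → ℕ → ℕ → ℕ} (hN : LS Sym N) (hp : LS Sym p) (hV : LS Sym V) (hb : LS Sym b)
    (hl : LS Sym l) (hblk : LS Sym (fun q : α × ℕ => blk q.1 q.2))
    (hvy : LS Sym (fun q : α × ℕ × ℕ => vy q.1 q.2.1 q.2.2)) (hJ : LS Sym J) (hk : LS Sym k)
    (hu : LS Sym u) (hsd : LS Sym sd) (hs : LS Sym s) (hR : LS Sym R) :
    LS Sym (fun y => chX (N y) (p y) (V y) (b y) (l y) (blk y) (vy y) (J y) (k y) (u y) (sd y)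
      (s y) (R y)) := by
  unfold Vale.Agent.P312.chX; fun_prop

@[fun_prop] theorem LS.chG {N p V b l j c s R : α → ℕ} (hN : LS Sym N) (hp : LS Sym p)
    (hV : LS Sym V) (hb : LS Sym b) (hl : LS Sym l) (hj : LS Sym j) (hc : LS Sym c)
    (hs : LS Sym s) (hR : LS Sym R) :
    LS Sym (fun y => chG (N y) (p y) (V y) (b y) (l y) (j y) (c y) (s y) (R y)) := by
  unfold Vale.Agent.P312.chG; fun_prop

@[fun_prop] theorem LS.chB {N p V b l j s₀ c r s R : α → ℕ} {blk : α → ℕ → ℕ}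
    {vy ve : α → ℕ → ℕ → ℕ} (hN : LS Sym N) (hp : LS Sym p) (hV : LS Sym V) (hb : LS Sym b)
    (hl : LS Sym l) (hblk : LS Sym (fun q : α × ℕ => blk q.1 q.2))
    (hvy : LS Sym (fun q : α × ℕ × ℕ => vy q.1 q.2.1 q.2.2))
    (hve : LS Sym (fun q : α × ℕ × ℕ => ve q.1 q.2.1 q.2.2)) (hj : LS Sym j) (hs₀ : LS Sym s₀)
    (hc : LS Sym c) (hr : LS Sym r) (hs : LS Sym s) (hR : LS Sym R) :
    LS Sym (fun y => chB (N y) (p y) (V y) (b y) (l y) (blk y) (vy y) (ve y) (j y) (s₀ y) (c y)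
      (r y) (s y) (R y)) := by
  unfold Vale.Agent.P312.chB; fun_prop

@[fun_prop] theorem LS.ch {N p V b l e0 a t R : α → ℕ} {blk X0 : α → ℕ → ℕ}
    {vy ve : α → ℕ → ℕ → ℕ} (hN : LS Sym N) (hp : LS Sym p) (hV : LS Sym V) (hb : LS Sym b)
    (hl : LS Sym l) (hblk : LS Sym (fun q : α × ℕ => blk q.1 q.2))
    (hvy : LS Sym (fun q : α × ℕ × ℕ => vy q.1 q.2.1 q.2.2))
    (hve : LS Sym (fun q : α × ℕ × ℕ => ve q.1 q.2.1 q.2.2))
    (hX0 : LS Sym (fun q : α × ℕ => X0 q.1 q.2)) (he0 : LS Sym e0) (ha : LS Sym a)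
    (ht : LS Sym t) (hR : LS Sym R) :
    LS Sym (fun y => ch (N y) (p y) (V y) (b y) (l y) (blk y) (vy y) (ve y) (X0 y) (e0 y) (a y)
      (t y) (R y)) := by
  unfold Vale.Agent.P312.ch; fun_prop

@[fun_prop] theorem LS.cact {N p V b l e0 a t R : α → ℕ} {blk X0 : α → ℕ → ℕ}
    {vy ve : α → ℕ → ℕ → ℕ} (hN : LS Sym N) (hp : LS Sym p) (hV : LS Sym V) (hb : LS Sym b)
    (hl : LS Sym l) (hblk : LS Sym (fun q : α × ℕ => blk q.1 q.2))
    (hvy : LS Sym (fun q : α × ℕ × ℕ => vy q.1 q.2.1 q.2.2))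
    (hve : LS Sym (fun q : α × ℕ × ℕ => ve q.1 q.2.1 q.2.2))
    (hX0 : LS Sym (fun q : α × ℕ => X0 q.1 q.2)) (he0 : LS Sym e0) (ha : LS Sym a)
    (ht : LS Sym t) (hR : LS Sym R) :
    LS Sym (fun y => cact (N y) (p y) (V y) (b y) (l y) (blk y) (vy y) (ve y) (X0 y) (e0 y) (a y)
      (t y) (R y)) := by
  unfold Vale.Agent.P312.cact; fun_prop

@[fun_prop] theorem LS.cev {N p V b l e0 n : α → ℕ} {blk X0 : α → ℕ → ℕ}
    {vy ve : α → ℕ → ℕ → ℕ} (hN : LS Sym N) (hp : LS Sym p) (hV : LS Sym V) (hb : LS Sym b)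
    (hl : LS Sym l) (hblk : LS Sym (fun q : α × ℕ => blk q.1 q.2))
    (hvy : LS Sym (fun q : α × ℕ × ℕ => vy q.1 q.2.1 q.2.2))
    (hve : LS Sym (fun q : α × ℕ × ℕ => ve q.1 q.2.1 q.2.2))
    (hX0 : LS Sym (fun q : α × ℕ => X0 q.1 q.2)) (he0 : LS Sym e0) (hn : LS Sym n) :
    LS Sym (fun y => cev (N y) (p y) (V y) (b y) (l y) (blk y) (vy y) (ve y) (X0 y) (e0 y)
      (n y)) := by
  unfold Vale.Agent.P312.cev; fun_prop

end LSfacts

end Vale.Agent.P312
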