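import Vale.Agent.P312.Coded

/-! The coded call tree computes the events. -/

namespace Vale.Agent.P312

open Finset

namespace Par

variable {P : Par}

def nreg (P : Par) : ℕ := 2 * P.b + (P.M + 1) + P.l

/-- The clamp `N` is large enough. -/
structure Fit (P : Par) (N K n : ℕ) : Prop where
  K16 : K ^ 16 ≤ N
  reg : P.p ^ P.nreg ≤ K
  tree : (P.p * (P.W + 1)) ^ (n * (2 * P.l + 4) + 1) ≤ N
  root : n * P.M < K
  blk_le : ∀ e, P.D.blk e ≤ e
  vy_lt : ∀ y e, P.D.vy y e < N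

def Bd (P : Par) (E₀ : ℕ) : Addr → Prop
  | .nop => True
  | .X J k _ _ => J * P.M ≤ E₀ ∧ k < P.V
  | .E j => j ≤ E₀
  | .G j s _ _ => j ≤ E₀ ∧ s < P.p
  | .B j s c _ => j ≤ E₀ ∧ s < P.p ∧ c < P.V ^ (P.l + 1)

theorem p_big (hG : P.Good) : P.b + P.M + 2 < P.p := by
  have h1 := hG.deg
  have h2 : P.b + P.M + 1 ≤ P.l * ((P.b + P.M + 1) * P.V) :=
    le_trans (Nat.le_mul_of_pos_right _ hG.V_pos) (Nat.le_mul_of_pos_left _ hG.l_pos)
  omega

theorem Fit.facts {N K n : ℕ} (hG : P.Good) (hF : P.Fit N K n) :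
    P.p < K ∧ K ≤ N ∧ (∀ m ≤ P.b + P.M + 1, P.V ^ m ≤ K) := by
  have h1 := p_big hG
  have h2 := M_pos hG
  have h3 := hG.l_pos
  have h4 : P.p ^ 1 < P.p ^ P.nreg := Nat.pow_lt_pow_right (by omega) (by unfold nreg; omega)
  have h5 := hF.reg
  rw [pow_one] at h4
  refine ⟨by omega, (Nat.le_self_pow (by omega) K).trans hF.K16, fun m hm => ?_⟩
  calc P.V ^ m ≤ P.p ^ m := Nat.pow_le_pow_left (V_le_p hG) _
    _ ≤ P.p ^ P.nreg := Nat.pow_le_pow_right (by omega) (by unfold nreg; omega)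
    _ ≤ K := h5

theorem enc_le {N K n : ℕ} (hG : P.Good) (hF : P.Fit N K n) (a : Addr) (hW : P.WF a)
    (hB : P.Bd (n * P.M) a) : encA a ≤ N := by
  obtain ⟨f1, f2, f3⟩ := hF.facts hG
  have h1 := p_big hG
  have h2 := M_pos hG
  have h3 := l_le_M hG
  have h4 := V_le_p hG
  have h5 := hF.root
  refine le_trans (le_of_lt ?_) hF.K16
  cases a with
  | nop => exact t5_lt (by omega) (by omega) (by omega) (by omega) (by omega)
  | X J k u sd =>
    obtain ⟨w1, w2⟩ := hW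
    obtain ⟨b1, b2⟩ := hB
    have := Nat.le_mul_of_pos_right J h2
    exact t5_lt (by omega) (by omega) (by omega) (by omega) (by omega)
  | E j =>
    have b1 : j ≤ n * P.M := hB
    exact t5_lt (by omega) (by omega) (by omega) (by omega) (by omega)
  | G j s m c =>
    obtain ⟨w1, w2, w3⟩ := hW
    obtain ⟨b1, b2⟩ := hB
    have := f3 m (by omega)
    exact t5_lt (by omega) (by omega) (by omega) (by omega) (by omega)
  | B j s c r =>
    obtain ⟨w1, w2⟩ := hW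
    obtain ⟨b1, b2, b3⟩ := hB
    have := f3 (P.l + 1) (by omega)
    exact t5_lt (by omega) (by omega) (by omega) (by omega) (by omega)

theorem δ_inv {N K n : ℕ} (hG : P.Good) (hF : P.Fit N K n) (a : Addr) (t : ℕ) (hW : P.WF a)
    (hB : P.Bd (n * P.M) a) : P.WF (P.δ a t) ∧ P.Bd (n * P.M) (P.δ a t) := by
  cases a with
  | nop => exact ⟨trivial, trivial⟩
  | X J k u sd =>
    obtain ⟨w1, w2⟩ := hW
    obtain ⟨b1, b2⟩ := hB
    simp only [δ]
    have e : J ≠ 0 → (J - 1) * P.M + P.M = J * P.M := by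
      intro h
      obtain ⟨J', rfl⟩ : ∃ J', J = J' + 1 := ⟨J - 1, by omega⟩
      simp [Nat.succ_mul]
    split_ifs with h1 h2 h3
    · exact ⟨trivial, trivial⟩
    · have := e h1
      exact ⟨⟨h2, by omega⟩, ⟨by omega, b2⟩⟩
    · have := e h1
      exact ⟨trivial, show _ ≤ _ by omega⟩
    · exact ⟨trivial, trivial⟩
  | E j =>
    have b1 : j ≤ n * P.M := hB
    simp only [δ]
    split_ifs with h1 h2 h3
    · exact ⟨trivial, trivial⟩
    · obtain ⟨g1, g2, -⟩ := σ_facts hG (show 1 ≤ j by omega)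
      exact ⟨trivial, show _ ≤ _ by omega⟩
    · exact ⟨⟨by omega, by omega, by simp⟩, ⟨b1, by omega⟩⟩
    · exact ⟨trivial, trivial⟩
  | G j s m c =>
    obtain ⟨w1, w2, w3⟩ := hW
    obtain ⟨b1, b2⟩ := hB
    simp only [δ]
    split_ifs with h1 h2 h3
    · exact ⟨⟨w1, by omega, by rw [pow_succ]; nlinarith⟩, ⟨b1, b2⟩⟩
    · exact ⟨trivial, trivial⟩
    · obtain rfl : m = P.l + 1 := by omega
      exact ⟨⟨w1, h3⟩, ⟨b1, b2, w3⟩⟩
    · exact ⟨trivial, trivial⟩
  | B j s c r =>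
    obtain ⟨w1, w2⟩ := hW
    obtain ⟨b1, b2, b3⟩ := hB
    simp only [δ]
    split_ifs with h1
    · obtain ⟨g1, g2, -⟩ := σ_facts hG w1
      refine ⟨⟨h1, by omega⟩, ⟨?_, ?_⟩⟩
      · show P.β j ≤ _
        omega
      · exact (hF.blk_le _).trans_lt (digit_lt hG.V_pos _ _)
    · exact ⟨trivial, trivial⟩

theorem cδ_eq {N K n : ℕ} (hG : P.Good) (hF : P.Fit N K n) (a : Addr) (t : ℕ)
    (hB : P.Bd (n * P.M) a) :
    cδ N P.p P.V P.b P.l P.D.blk (encA a) t = encA (P.δ a t) := by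
  obtain ⟨f1, f2, f3⟩ := hF.facts hG
  have h3 := l_le_M hG
  cases a with
  | nop => simp [cδ, encA, δ]
  | X J k u sd =>
    simp only [δ, apply_ite encA]
    simp only [cδ, encA, g0_t5, g1_t5, g2_t5, g4_t5, if_true]
    rfl
  | E j =>
    simp only [δ, apply_ite encA]
    simp only [cδ, encA, g0_t5, g1_t5, if_true, show (2 : ℕ) ≠ 1 by omega, if_false]
    rfl
  | G j s m c =>
    simp only [δ, apply_ite encA]
    simp only [cδ, encA, g0_t5, g1_t5, g2_t5, g3_t5, g4_t5, if_true,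
      show (3 : ℕ) ≠ 1 by omega, show (3 : ℕ) ≠ 2 by omega, if_false]
    by_cases h1 : m ≤ P.l
    · rw [cpow_eq ((f3 m (by omega)).trans f2)]; rfl
    · rw [if_neg h1, if_neg h1]; rfl
  | B j s c r =>
    obtain ⟨b1, b2, b3⟩ := hB
    have := f3 (P.l + 1) (by omega)
    simp only [δ, apply_ite encA]
    simp only [cδ, encA, g0_t5, g1_t5, g3_t5, g4_t5, if_true,
      show (4 : ℕ) ≠ 1 by omega, show (4 : ℕ) ≠ 2 by omega, show (4 : ℕ) ≠ 3 by omega, if_false]
    rw [cdig_eq _ (by omega)]; rfl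

theorem ctgt_eq (a : Addr) : ctgt P.b P.l (encA a) = P.tgt a := by
  cases a <;> simp [ctgt, encA, tgt, xreg, cslot, slot, careg, areg, M]

theorem tgt_lt (a : Addr) (hW : P.WF a) : P.tgt a < P.nreg := by
  unfold nreg
  cases a with
  | nop => simp only [tgt]; omega
  | X J k u sd => have := xreg_lt hW.2 hW.1; simp only [tgt]; omega
  | E j => have := P.slot_bounds j; simp only [tgt]; omega
  | G j s m c => have := P.slot_bounds j; simp only [tgt]; omega
  | B j s c r => have := hW.2; simp only [tgt, areg]; omega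

theorem creplay_eq {N : ℕ} (hv : ∀ y e, P.D.vy y e < N) (k y : ℕ) (hy : y < N) (c c' : ℕ → ℕ)
    (m : ℕ) (hc : ∀ i < m, c i = c' i) :
    creplay N P.D.blk P.D.vy k y c m = P.replay k y c' m ∧ P.replay k y c' m < N := by
  have h1 : ∀ i, ∀ R, R < N → (if P.D.blk (c' i) = k then P.D.vy R (c' i) else R) < N := by
    intro i R hR
    split_ifs
    · exact hv _ _
    · exact hR
  constructor
  · unfold creplay replay
    apply citer_eq (fun R => R < N) hy (fun R hR => hR.le) (fun i _ R hR => h1 i R hR)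
    intro i hi R _
    rw [hc i hi]
  · exact iter_inv (fun R => R < N) hy (fun i _ R hR => h1 i R hR)

theorem cφX_eq {N K n : ℕ} (hG : P.Good) (hF : P.Fit N K n) (k u z : ℕ) (hz : z < N) :
    cφX N P.V P.b P.l P.D.blk P.D.vy k u z = P.φX k u z := by
  obtain ⟨f1, f2, f3⟩ := hF.facts hG
  unfold cφX φX
  rw [cpow_eq ((f3 P.b (by omega)).trans f2)]
  obtain ⟨h1, h2⟩ := creplay_eq hF.vy_lt k (z % P.V ^ P.b) ((Nat.mod_le _ _).trans_lt hz)
    (fun i => cdig N P.V (z / P.V ^ P.b) i) (fun i => digit P.V (z / P.V ^ P.b) i) (P.l * P.l)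
    (fun i _ => cdig_eq i ((Nat.div_le_self _ _).trans_lt hz))
  rw [h1, cdig_eq _ h2]; rfl

theorem cφB_eq {N K n : ℕ} (hG : P.Good) (hF : P.Fit N K n) (n₀ c r z : ℕ) (hz : z < N)
    (hc : c < N) : cφB N P.V P.b P.D.blk P.D.vy P.D.ve n₀ c r z = P.φB n₀ c r z := by
  obtain ⟨f1, f2, f3⟩ := hF.facts hG
  unfold cφB φB
  rw [cpow_eq ((f3 P.b (by omega)).trans f2)]
  have hz' : z / P.V ^ P.b < N := (Nat.div_le_self _ _).trans_lt hz
  simp only [cdig_eq _ hc, cdig_eq _ hz']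
  rw [(creplay_eq hF.vy_lt _ (z % P.V ^ P.b) ((Nat.mod_le _ _).trans_lt hz) _ _ _
    (fun i _ => rfl)).1]

variable [hp : Fact P.p.Prime]

/-- Decoding of the register file. -/
def dec (P : Par) (R : ℕ) : ℕ → ZMod P.p := fun i => (digit P.p R i : ℕ)

theorem ch_cast {N K n : ℕ} (hG : P.Good) (hF : P.Fit N K n) (a : Addr) (t R : ℕ) (hW : P.WF a)
    (hB : P.Bd (n * P.M) a) (hR : R < N) :
    ((ch N P.p P.V P.b P.l P.D.blk P.D.vy P.D.ve P.D.X0 P.D.e0 (encA a) t R : ℕ) : ZMod P.p) =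
      P.h a t (P.dec R) := by
  obtain ⟨f1, f2, f3⟩ := hF.facts hG
  have h3 := l_le_M hG
  have h1 := p_big hG
  have h2 : 2 < P.p := by omega
  have hp0 : 0 < P.p := by omega
  have eW : P.b + P.l * P.l + 1 = P.W := rfl
  cases a with
  | nop => simp [ch, encA, h]
  | X J k u sd =>
    simp only [ch, encA, h, g0_t5, g1_t5, g2_t5, g3_t5, g4_t5, if_true]
    rw [eW]
    split_ifs with c1 c2 c3
    · rw [cdig_eq]
      exact (Y_lt hG 0 k).trans_le ((f3 _ (by omega)).trans f2)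
    · simp
    · unfold chX
      have hN := (f3 (P.b + P.M) (by omega)).trans f2
      rw [cneg_cast hp0]
      congr 1
      apply clde_cast h2 hN
      · intro z hz; exact cφX_eq hG hF k u z (hz.trans_le hN)
      · intro i _
        rw [Nat.cast_mul, cinv_cast h2, cdig_eq _ hR]; rfl
    · simp
  | E j =>
    simp only [ch, encA, h, g0_t5, g1_t5, if_true, show (2 : ℕ) ≠ 1 by omega, if_false]
    split_ifs <;> simp
  | G j s m c =>
    obtain ⟨w1, w2, w3⟩ := hW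
    have hc : c < N := w3.trans_le ((f3 _ (by omega)).trans f2)
    simp only [ch, encA, h, g0_t5, g1_t5, g3_t5, g4_t5, if_true,
      show (3 : ℕ) ≠ 1 by omega, show (3 : ℕ) ≠ 2 by omega, if_false]
    rw [eW]
    split_ifs with c1 c2
    · simp
    · unfold chG
      rw [Nat.cast_mul, cprod_cast hp0, cdig_eq _ hc]
      congr 1
      refine prod_congr rfl (fun r _ => ?_)
      rw [Nat.cast_mul, cinv_cast h2, cdig_eq _ hR]; rfl
    · simp
  | B j s c r =>
    obtain ⟨w1, w2⟩ := hW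
    obtain ⟨b1, b2, b3⟩ := hB
    have hc : c < N := b3.trans_le ((f3 _ (by omega)).trans f2)
    obtain ⟨g1, g2, g3, g4, -⟩ := σ_facts hG w1
    simp only [ch, encA, h, g0_t5, g1_t5, g2_t5, g3_t5, g4_t5, if_true,
      show (4 : ℕ) ≠ 1 by omega, show (4 : ℕ) ≠ 2 by omega, show (4 : ℕ) ≠ 3 by omega, if_false]
    rw [eW]
    split_ifs with c1
    · unfold chB
      have hN := (f3 (P.b + (P.σ j - P.β j + 1)) (by have := hG.l_pos; omega)).trans f2
      rw [cneg_cast hp0]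
      congr 1
      apply clde_cast h2 hN
      · intro z hz; exact cφB_eq hG hF _ c r z (hz.trans_le hN) hc
      · intro i _
        split_ifs
        · rw [Nat.cast_mul, cinv_cast h2, cdig_eq _ hR]; rfl
        · rw [Nat.cast_mul, cinv_cast h2, cdig_eq _ hR]; rfl
    · simp

theorem cact_spec {N K n : ℕ} (hG : P.Good) (hF : P.Fit N K n) (a : Addr) (t R : ℕ) (hW : P.WF a)
    (hB : P.Bd (n * P.M) a) (hR : R < P.p ^ P.nreg) :
    cact N P.p P.V P.b P.l P.D.blk P.D.vy P.D.ve P.D.X0 P.D.e0 (encA a) t R < P.p ^ P.nreg ∧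
    P.dec (cact N P.p P.V P.b P.l P.D.blk P.D.vy P.D.ve P.D.X0 P.D.e0 (encA a) t R) =
      P.act a t (P.dec R) := by
  obtain ⟨f1, f2, f3⟩ := hF.facts hG
  have hp0 : 0 < P.p := hp.out.pos
  have hRN : R < N := hR.trans_le (hF.reg.trans f2)
  have ht := tgt_lt a hW
  unfold cact
  rw [ctgt_eq, cset_eq _ hRN ((Nat.pow_le_pow_right hp0 ht.le).trans (hF.reg.trans f2))]
  refine ⟨setDigit_lt (Nat.mod_lt _ hp0) ht hR, ?_⟩
  funext i
  unfold dec act
  rw [digit_setDigit _ _ _ (Nat.mod_lt _ hp0), Pi.add_apply]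
  split_ifs with h1
  · subst h1
    rw [ZMod.natCast_mod, Nat.cast_add, ch_cast hG hF a t R hW hB hRN, cdig_eq _ hRN,
      Pi.single_eq_same]
    rfl
  · rw [Pi.single_eq_of_ne h1, add_zero]

theorem cev_eq {N K n : ℕ} (hG : P.Good) (hF : P.Fit N K n) :
    cev N P.p P.V P.b P.l P.D.blk P.D.vy P.D.ve P.D.X0 P.D.e0 n = P.D.ev (n * P.M) := by
  obtain ⟨f1, f2, f3⟩ := hF.facts hG
  have hp0 : 0 < P.p := hp.out.pos
  have hroot : P.WF (.E (n * P.M)) ∧ P.Bd (n * P.M) (.E (n * P.M)) := ⟨trivial, le_refl (n * P.M)⟩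
  unfold cev
  have e1 := cflat_eq (N := N) (J := P.p * (P.W + 1)) J_pos
    (fun a t => cδ N P.p P.V P.b P.l P.D.blk a t)
    (fun a t R => cact N P.p P.V P.b P.l P.D.blk P.D.vy P.D.ve P.D.X0 P.D.e0 a t R)
    (n * (2 * P.l + 4) + 1) (encA (.E (n * P.M))) 0
    (fun a' => ∃ a, a' = encA a ∧ P.WF a ∧ P.Bd (n * P.M) a) (fun R => R < P.p ^ P.nreg) hF.tree
    (by rintro _ ⟨a, rfl, h1, h2⟩; exact enc_le hG hF a h1 h2)
    (fun R hR => hR.le.trans (hF.reg.trans f2))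
    (by
      rintro _ t _ ⟨a, rfl, h1, h2⟩
      exact ⟨P.δ a t, cδ_eq hG hF a t h2, δ_inv hG hF a t h1 h2⟩)
    (by
      rintro _ t R _ ⟨a, rfl, h1, h2⟩ hR
      exact (cact_spec hG hF a t R h1 h2 hR).1)
    ⟨_, rfl, hroot⟩ (pow_pos hp0 _)
  obtain ⟨e2, e3⟩ := run_sim (P.p * (P.W + 1)) P.δ P.act
    (fun a t => cδ N P.p P.V P.b P.l P.D.blk a t)
    (fun a t R => cact N P.p P.V P.b P.l P.D.blk P.D.vy P.D.ve P.D.X0 P.D.e0 a t R) encA P.dec
    (fun a => P.WF a ∧ P.Bd (n * P.M) a) (fun R => R < P.p ^ P.nreg)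
    (fun a t _ h => ⟨δ_inv hG hF a t h.1 h.2, cδ_eq hG hF a t h.2⟩)
    (fun a t R _ h hR => cact_spec hG hF a t R h.1 h.2 hR) (n * (2 * P.l + 4) + 1)
    (.E (n * P.M)) 0 hroot (pow_pos hp0 _)
  have e4 : P.dec 0 = 0 := by
    funext i; simp [dec, digit]
  have e5 := root hG n
  unfold rn at e5
  rw [← e4, ← e3, ← e1] at e5
  rw [← e1] at e2
  have e6 := natCast_inj_of_lt (digit_lt hp0 _ _) ((ev_lt hG _).trans_le (V_le_p hG)) e5
  rw [← e6]
  exact cdig_eq _ (e2.trans_le (hF.reg.trans f2))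

end Par

end Vale.Agent.P312
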