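import Vale.Agent.P312.Prog

/-! TASK A1: counter programs run on an offline Turing machine in logarithmic space. -/

namespace Vale.Agent.P312

namespace TMP

/-- Transition functions. -/
abbrev Tr (Sym Q : Type) (k : ℕ) : Type :=
  InSym Sym → (Fin k → Option Bool) → Q × SignType × (Fin k → Option Bool × SignType)

variable {Sym Q Q' : Type} {k : ℕ}

/-- The symbol under head `r`. -/
def sym (r : ℕ) (g : Fin k → Option Bool) : Option Bool := if h : r < k then g ⟨r, h⟩ else none

/-- Act on tape `r` only. -/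
def act (r : ℕ) (w : Option Bool) (mv : SignType) (g : Fin k → Option Bool) :
    Fin k → Option Bool × SignType :=
  fun i => if i.val = r then (w, mv) else (g i, 0)

/-- Leave all tapes alone. -/
def nop (g : Fin k → Option Bool) : Fin k → Option Bool × SignType := fun i => (g i, 0)

def trGo (q : Q) (mv : SignType) : Tr Sym Q k := fun _ g => (q, mv, nop g)

def trStart (r : ℕ) (q : Q) : Tr Sym Q k := fun _ g => (q, 0, act r (sym r g) 1 g)

def trSweep (r : ℕ) (b : Bool) (q q' : Q) : Tr Sym Q k := fun _ g =>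
  if sym r g = none then (q', 0, act r none 0 g) else (q, 0, act r (some b) (-1) g)

def trInc (r : ℕ) (q q' : Q) : Tr Sym Q k := fun _ g =>
  if sym r g = some true then (q, 0, act r (some true) 1 g) else (q', 0, act r (some true) (-1) g)

def trDec (r : ℕ) (q q' q'' : Q) : Tr Sym Q k := fun _ g =>
  if sym r g = some false then (q, 0, act r (some false) 1 g)
  else if sym r g = none then (q'', 0, act r none (-1) g) else (q', 0, act r (some false) (-1) g)

def trIf (P : InSym Sym → Bool) (q q' : Q) : Tr Sym Q k := fun a g =>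
  if P a = true then (q, 0, nop g) else (q', 0, nop g)

def mapTr (ι : Q → Q') (f : Tr Sym Q k) : Tr Sym Q' k := fun a g => (ι (f a g).1, (f a g).2)

theorem map_trGo (ι : Q → Q') (q : Q) (mv : SignType) :
    mapTr ι (trGo q mv : Tr Sym Q k) = trGo (ι q) mv := rfl

theorem map_trStart (ι : Q → Q') (r : ℕ) (q : Q) :
    mapTr ι (trStart r q : Tr Sym Q k) = trStart r (ι q) := rfl

theorem map_trSweep (ι : Q → Q') (r : ℕ) (b : Bool) (q q' : Q) :
    mapTr ι (trSweep r b q q' : Tr Sym Q k) = trSweep r b (ι q) (ι q') := by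
  funext a g; unfold mapTr trSweep; split_ifs <;> rfl

theorem map_trInc (ι : Q → Q') (r : ℕ) (q q' : Q) :
    mapTr ι (trInc r q q' : Tr Sym Q k) = trInc r (ι q) (ι q') := by
  funext a g; unfold mapTr trInc; split_ifs <;> rfl

theorem map_trDec (ι : Q → Q') (r : ℕ) (q q' q'' : Q) :
    mapTr ι (trDec r q q' q'' : Tr Sym Q k) = trDec r (ι q) (ι q') (ι q'') := by
  funext a g; unfold mapTr trDec; split_ifs <;> rfl

theorem map_trIf (ι : Q → Q') (P : InSym Sym → Bool) (q q' : Q) :
    mapTr ι (trIf P q q' : Tr Sym Q k) = trIf P (ι q) (ι q') := by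
  funext a g; unfold mapTr trIf; split_ifs <;> rfl

/-- The table `D` implements a program between two states. -/
def Emb (D : Q → Option (Tr Sym Q k)) : Prog Sym → Q → Q → Prop
  | .skip, qi, qo => D qi = some (trGo qo 0)
  | .inc r, qi, qo => ∃ q1 q2, D qi = some (trStart r q1) ∧ D q1 = some (trInc r q1 q2) ∧
      D q2 = some (trSweep r false q2 qo)
  | .loop r b, qi, qo => ∃ q1 q2 q3 qb, D qi = some (trStart r q1) ∧
      D q1 = some (trDec r q1 q2 q3) ∧ D q2 = some (trSweep r true q2 qb) ∧
      D q3 = some (trSweep r false q3 qo) ∧ Emb D b qb qi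
  | .seq p q, qi, qo => ∃ qm, Emb D p qi qm ∧ Emb D q qm qo
  | .mvL, qi, qo => D qi = some (trGo qo (-1))
  | .mvR, qi, qo => D qi = some (trGo qo 1)
  | .ifsym P p q, qi, qo => ∃ q1 q2, D qi = some (trIf P q1 q2) ∧ Emb D p q1 qo ∧ Emb D q q2 qo

theorem Emb.map {D : Q → Option (Tr Sym Q k)} {D' : Q' → Option (Tr Sym Q' k)} (ι : Q → Q')
    (h : ∀ q f, D q = some f → D' (ι q) = some (mapTr ι f)) (p : Prog Sym) :
    ∀ qi qo, Emb D p qi qo → Emb D' p (ι qi) (ι qo) := by
  induction p with
  | skip => exact fun qi qo e => h _ _ e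
  | inc r =>
    rintro qi qo ⟨q1, q2, e1, e2, e3⟩
    exact ⟨ι q1, ι q2, h _ _ e1, map_trInc ι r q1 q2 ▸ h _ _ e2, map_trSweep ι r _ q2 qo ▸ h _ _ e3⟩
  | loop r b ih =>
    rintro qi qo ⟨q1, q2, q3, qb, e1, e2, e3, e4, e5⟩
    exact ⟨ι q1, ι q2, ι q3, ι qb, h _ _ e1, map_trDec ι r q1 q2 q3 ▸ h _ _ e2,
      map_trSweep ι r _ q2 qb ▸ h _ _ e3, map_trSweep ι r _ q3 qo ▸ h _ _ e4, ih _ _ e5⟩
  | seq p q ihp ihq =>
    rintro qi qo ⟨qm, e1, e2⟩
    exact ⟨ι qm, ihp _ _ e1, ihq _ _ e2⟩
  | mvL => exact fun qi qo e => h _ _ e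
  | mvR => exact fun qi qo e => h _ _ e
  | ifsym P p q ihp ihq =>
    rintro qi qo ⟨q1, q2, e1, e2, e3⟩
    exact ⟨ι q1, ι q2, map_trIf ι P q1 q2 ▸ h _ _ e1, ihp _ _ e2, ihq _ _ e3⟩

/-- The table of a fragment with exit state `none`. -/
def tab {P : Type} (δ : P → Tr Sym (Option P) k) : Option P → Option (Tr Sym (Option P) k) :=
  fun q => q.map δ

theorem Emb.tab_map {P : Type} {δ : P → Tr Sym (Option P) k} {D' : Q' → Option (Tr Sym Q' k)}
    (ι : P → Q') (e : Q') (h : ∀ s, D' (ι s) = some (mapTr (fun o => o.elim e ι) (δ s)))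
    {p : Prog Sym} {s : P} (hp : Emb (tab δ) p (some s) none) : Emb D' p (ι s) e := by
  refine Emb.map (fun o : Option P => o.elim e ι) ?_ p _ _ hp
  rintro (_ | s) f hf
  · simp [tab] at hf
  · simp only [tab, Option.map_some, Option.some.injEq] at hf
    subst hf
    exact h s

theorem exists_frag (k : ℕ) (p : Prog Sym) : ∃ (P : Type) (_ : Finite P) (s : P)
    (δ : P → Tr Sym (Option P) k), Emb (tab δ) p (some s) none := by
  induction p with
  | skip => exact ⟨Unit, inferInstance, (), fun _ => trGo none 0, rfl⟩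
  | mvL => exact ⟨Unit, inferInstance, (), fun _ => trGo none (-1), rfl⟩
  | mvR => exact ⟨Unit, inferInstance, (), fun _ => trGo none 1, rfl⟩
  | inc r =>
    exact ⟨Fin 3, inferInstance, 0,
      ![trStart r (some 1), trInc r (some 1) (some 2), trSweep r false (some 2) none],
      some 1, some 2, rfl, rfl, rfl⟩
  | loop r b ih =>
    obtain ⟨P, _, s, δ, h⟩ := ih
    refine ⟨Fin 4 ⊕ P, inferInstance, .inl 0, Sum.elim
      ![trStart r (some (.inl 1)), trDec r (some (.inl 1)) (some (.inl 2)) (some (.inl 3)),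
        trSweep r true (some (.inl 2)) (some (.inr s)), trSweep r false (some (.inl 3)) none]
      fun t => mapTr (fun o => o.elim (some (.inl 0)) fun t => some (.inr t)) (δ t),
      some (.inl 1), some (.inl 2), some (.inl 3), some (.inr s), rfl, rfl, rfl, rfl, ?_⟩
    exact Emb.tab_map (fun t => some (Sum.inr t)) _ (fun _ => rfl) h
  | seq p q ihp ihq =>
    obtain ⟨P, _, s, δ, h⟩ := ihp
    obtain ⟨P', _, s', δ', h'⟩ := ihq
    refine ⟨P ⊕ P', inferInstance, .inl s, Sum.elim
      (fun t => mapTr (fun o => o.elim (some (.inr s')) fun t => some (.inl t)) (δ t))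
      fun t => mapTr (fun o => o.elim none fun t => some (.inr t)) (δ' t), some (.inr s'), ?_, ?_⟩
    · exact Emb.tab_map (fun t => some (Sum.inl t)) _ (fun _ => rfl) h
    · exact Emb.tab_map (fun t => some (Sum.inr t)) _ (fun _ => rfl) h'
  | ifsym c p q ihp ihq =>
    obtain ⟨P, _, s, δ, h⟩ := ihp
    obtain ⟨P', _, s', δ', h'⟩ := ihq
    refine ⟨Option (P ⊕ P'), inferInstance, none, fun o => o.elim
      (trIf c (some (some (.inl s))) (some (some (.inr s')))) (Sum.elim
      (fun t => mapTr (fun o => o.elim none fun t => some (some (.inl t))) (δ t))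
      fun t => mapTr (fun o => o.elim none fun t => some (some (.inr t))) (δ' t)),
      some (some (.inl s)), some (some (.inr s')), rfl, ?_, ?_⟩
    · exact Emb.tab_map (fun t => some (some (Sum.inl t))) _ (fun _ => rfl) h
    · exact Emb.tab_map (fun t => some (some (Sum.inr t))) _ (fun _ => rfl) h'

/-- All registers used are below `k`. -/
def RegsLt (k : ℕ) : Prog Sym → Prop
  | .inc r => r < k
  | .loop r b => r < k ∧ RegsLt k b
  | .seq p q => RegsLt k p ∧ RegsLt k q
  | .ifsym _ p q => RegsLt k p ∧ RegsLt k q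
  | _ => True

theorem exists_regsLt (p : Prog Sym) : ∃ k₀, ∀ k, k₀ ≤ k → RegsLt k p := by
  induction p with
  | skip => exact ⟨0, fun _ _ => trivial⟩
  | mvL => exact ⟨0, fun _ _ => trivial⟩
  | mvR => exact ⟨0, fun _ _ => trivial⟩
  | inc r => exact ⟨r + 1, fun _ h => h⟩
  | loop r b ih =>
    obtain ⟨k, h⟩ := ih
    exact ⟨max (r + 1) k, fun k' h' => ⟨by omega, h _ (by omega)⟩⟩
  | seq p q ihp ihq =>
    obtain ⟨k, h⟩ := ihp
    obtain ⟨k2, h2⟩ := ihq
    exact ⟨max k k2, fun k' h' => ⟨h _ (by omega), h2 _ (by omega)⟩⟩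
  | ifsym c p q ihp ihq =>
    obtain ⟨k, h⟩ := ihp
    obtain ⟨k2, h2⟩ := ihq
    exact ⟨max k k2, fun k' h' => ⟨h _ (by omega), h2 _ (by omega)⟩⟩

/-- A tape holding a list of bits in cells `1, 2, …`. -/
def tapeOf (L : List Bool) : ℤ → Option Bool := fun z => if 1 ≤ z then L[(z - 1).toNat]? else none

/-- Binary value, least significant bit first. -/
def bval : List Bool → ℕ
  | [] => 0
  | b :: t => b.toNat + 2 * bval t

theorem bval_false (j : ℕ) (L : List Bool) : bval (List.replicate j false ++ L) = 2 ^ j * bval L := by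
  induction j with
  | zero => simp
  | succ j ih => simp only [List.replicate_succ, List.cons_append, bval, ih, pow_succ]; simp; ring

theorem bval_true (j : ℕ) (L : List Bool) :
    bval (List.replicate j true ++ L) + 1 = 2 ^ j * (bval L + 1) := by
  induction j with
  | zero => simp
  | succ j ih =>
    simp only [List.replicate_succ, List.cons_append, bval, pow_succ, Bool.toNat_true]
    linarith

theorem exists_run (b : Bool) (L : List Bool) :
    ∃ j L', L = List.replicate j b ++ L' ∧ (L' = [] ∨ ∃ t, L' = (!b) :: t) := by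
  induction L with
  | nil => exact ⟨0, [], rfl, Or.inl rfl⟩
  | cons a L ih =>
    by_cases h : a = b
    · obtain ⟨j, L', h1, h2⟩ := ih
      exact ⟨j + 1, L', by rw [h, h1]; rfl, h2⟩
    · exact ⟨0, a :: L, rfl, Or.inr ⟨L, by rw [Bool.eq_not_iff.2 h]⟩⟩

theorem tapeOf_at (A L : List Bool) : tapeOf (A ++ L) ((A.length : ℤ) + 1) = L.head? := by
  simp [tapeOf, List.head?_eq_getElem?, List.getElem?_append_right]

theorem update_tapeOf (A L : List Bool) (b : Bool) :
    Function.update (tapeOf (A ++ L)) ((A.length : ℤ) + 1) (some b) = tapeOf (A ++ b :: L.tail) := by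
  funext z
  by_cases h : z = (A.length : ℤ) + 1
  · subst h
    rw [Function.update_self, tapeOf_at]
    rfl
  · rw [Function.update_of_ne h]
    unfold tapeOf
    split_ifs with h1
    · rcases lt_or_gt_of_ne h with h2 | h2
      · rw [List.getElem?_append_left (by omega), List.getElem?_append_left (by omega)]
      · rw [List.getElem?_append_right (by omega), List.getElem?_append_right (by omega)]
        obtain ⟨m, hm⟩ : ∃ m, (z - 1).toNat - A.length = m + 1 := ⟨(z - 1).toNat - A.length - 1,
          by omega⟩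
        rw [hm, List.getElem?_cons_succ, List.getElem?_tail]
    · rfl

/-- A configuration in which only head `r` may be away from home. -/
def mk (q : Q) (hd : ℕ) (T : Fin k → ℤ → Option Bool) (r : Fin k) (pos : ℤ)
    (t : ℤ → Option Bool) : OffCfg (Option Bool) Q k :=
  ⟨q, hd, Function.update (fun _ => 0) r pos, Function.update T r t⟩

/-- All heads are within bounds. -/
def Good (H : ℕ) (c : OffCfg (Option Bool) Q k) : Prop := ∀ i, 0 ≤ c.head i ∧ c.head i ≤ H

/-- Reachability through good configurations. -/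
abbrev Reach (M : Offline Sym (Option Bool) Q k) (x : List Sym) (H : ℕ) :
    OffCfg (Option Bool) Q k → OffCfg (Option Bool) Q k → Prop :=
  Relation.ReflTransGen fun c c' => Good H c ∧ M.step x c = c'

/-- The machine follows the table. -/
def Follows (M : Offline Sym (Option Bool) Q k) (D : Q → Option (Tr Sym Q k)) : Prop :=
  ∀ q f, D q = some f → M.out q = none ∧ M.δ q = f

variable {M : Offline Sym (Option Bool) Q k} {D : Q → Option (Tr Sym Q k)} {x : List Sym} {H : ℕ}

theorem reach_act (hM : Follows M D) {q q' : Q} {f : Tr Sym Q k} (hq : D q = some f) {hd : ℕ}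
    (hhd : hd ≤ x.length + 1) (T : Fin k → ℤ → Option Bool) (r : Fin k) {pos : ℤ}
    (h0 : 0 ≤ pos) (h1 : pos ≤ H) (t : ℤ → Option Bool) {w : Option Bool} {mv : SignType}
    (hf : ∀ a g, sym r.val g = t pos → f a g = (q', 0, act r.val w mv g)) :
    Reach M x H (mk q hd T r pos t) (mk q' hd T r (pos + mv) (Function.update t pos w)) := by
  refine Relation.ReflTransGen.single ⟨fun i => ?_, ?_⟩
  · by_cases h : i = r
    · subst h; simp [mk, h0, h1]
    · simp [mk, h]
  · obtain ⟨e1, e2⟩ := hM q f hq
    have e3 := hf (readIn x hd) (fun i => (mk q hd T r pos t).tape i ((mk q hd T r pos t).head i))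
      (by simp [sym, mk])
    unfold Offline.step
    have e4 : M.out (mk q hd T r pos t).state = none := e1
    rw [e4]
    have e5 : M.δ (mk q hd T r pos t).state (readIn x (mk q hd T r pos t).inHead) =
      f (readIn x hd) := by rw [← e2]; rfl
    simp only [e5, e3]
    simp only [mk, OffCfg.mk.injEq, true_and]
    refine ⟨by simp [hhd], funext fun i => ?_, funext fun i => ?_⟩
    · by_cases h : i = r
      · subst h; simp [act]
      · simp [act, h, Fin.val_ne_of_ne h]
    · by_cases h : i = r
      · subst h; simp [act]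
      · simp [act, h, Fin.val_ne_of_ne h]

theorem reach_sweep (hM : Follows M D) {q q' : Q} (r : Fin k) (b : Bool)
    (hq : D q = some (trSweep r.val b q q')) {hd : ℕ} (hhd : hd ≤ x.length + 1)
    (T : Fin k → ℤ → Option Bool) (A : List Bool) : ∀ L : List Bool, A.length ≤ H →
    Reach M x H (mk q hd T r A.length (tapeOf (A ++ L)))
      (mk q' hd T r 0 (tapeOf (List.replicate A.length b ++ L))) := by
  induction A using List.reverseRecOn with
  | nil =>
    intro L _
    have h := reach_act (x := x) (H := H) hM hq hhd T r le_rfl (by positivity) (tapeOf L)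
      (q' := q') (w := none) (mv := 0) fun a g hg => by
        have : sym r.val g = none := hg
        simp [trSweep, this]
    have e : Function.update (tapeOf L) 0 none = tapeOf L :=
      Function.update_eq_self_iff.2 rfl
    rw [e] at h
    simpa using h
  | append_singleton A a ih =>
    intro L hA
    simp only [List.length_append, List.length_singleton] at hA
    have h := reach_act (x := x) (H := H) hM hq hhd T r (pos := (A.length : ℤ) + 1)
      (by positivity) (by exact_mod_cast hA) (tapeOf (A ++ a :: L))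
      (q' := q) (w := some b) (mv := -1) fun a g hg => by
        rw [tapeOf_at] at hg
        simp [trSweep, hg]
    rw [update_tapeOf] at h
    have h2 := ih (b :: L) (by omega)
    simp only [List.length_append, List.length_singleton, List.replicate_succ',
      List.append_assoc, List.singleton_append]
    push_cast
    refine h.trans ?_
    simpa using h2

theorem reach_scan (hM : Follows M D) {q : Q} {f : Tr Sym Q k} (r : Fin k) (b : Bool)
    (hq : D q = some f) (hf : ∀ a g, sym r.val g = some b → f a g = (q, 0, act r.val (some b) 1 g))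
    {hd : ℕ} (hhd : hd ≤ x.length + 1) (T : Fin k → ℤ → Option Bool) (j : ℕ) :
    ∀ L : List Bool, j ≤ H → Reach M x H (mk q hd T r 1 (tapeOf (List.replicate j b ++ L)))
      (mk q hd T r (j + 1) (tapeOf (List.replicate j b ++ L))) := by
  induction j with
  | zero => intro L _; simpa using Relation.ReflTransGen.refl
  | succ j ih =>
    intro L hj
    have h1 := ih (b :: L) (by omega)
    have h2 := tapeOf_at (List.replicate j b) (b :: L)
    rw [List.length_replicate] at h2
    have h := reach_act (x := x) (H := H) hM hq hhd T r (pos := (j : ℤ) + 1)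
      (by positivity) (by exact_mod_cast hj) (tapeOf (List.replicate j b ++ b :: L))
      (q' := q) (w := some b) (mv := 1) fun a g hg => hf a g (hg.trans h2)
    rw [Function.update_eq_self_iff.2 h2.symm] at h
    simp only [List.replicate_succ', List.append_assoc, List.singleton_append]
    push_cast
    exact h1.trans h

theorem reach_start (hM : Follows M D) {q q' : Q} (r : Fin k)
    (hq : D q = some (trStart r.val q')) {hd : ℕ} (hhd : hd ≤ x.length + 1)
    (T : Fin k → ℤ → Option Bool) (L : List Bool) :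
    Reach M x H (mk q hd T r 0 (tapeOf L)) (mk q' hd T r 1 (tapeOf L)) := by
  have h := reach_act (x := x) (H := H) hM hq hhd T r le_rfl (by positivity) (tapeOf L)
    (q' := q') (w := none) (mv := 1) fun a g hg => by
      have : sym r.val g = none := hg
      simp [trStart, this]
  have e : Function.update (tapeOf L) 0 none = tapeOf L := Function.update_eq_self_iff.2 rfl
  rw [e] at h
  simpa using h

/-- The configuration represents the program state. -/
def Rep (x : List Sym) (B : ℕ) (q : Q) (s : PState) (c : OffCfg (Option Bool) Q k) : Prop :=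
  c.state = q ∧ c.inHead = s.hd ∧ s.hd ≤ x.length + 1 ∧ c.head = (fun _ => 0) ∧
    ∀ i : Fin k, ∃ L, c.tape i = tapeOf L ∧ bval L = s.reg i ∧ L.length ≤ Nat.log 2 B + 1

theorem Rep.eq_mk {B : ℕ} {q : Q} {s : PState} {c : OffCfg (Option Bool) Q k}
    (h : Rep x B q s c) (r : Fin k) {L : List Bool} (hL : c.tape r = tapeOf L) :
    c = mk q s.hd c.tape r 0 (tapeOf L) := by
  obtain ⟨q0, hd, head, tape⟩ := c
  obtain ⟨h1, h2, -, h4, -⟩ := h
  simp only at h1 h2 h4 hL
  subst h1 h2 h4
  simp [mk, ← hL]

theorem Rep.update {B : ℕ} {q q' : Q} {s : PState} {c : OffCfg (Option Bool) Q k}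
    (h : Rep x B q s c) (r : Fin k) {L : List Bool} {v : ℕ} (hv : bval L = v)
    (hL : L.length ≤ Nat.log 2 B + 1) :
    Rep x B q' ⟨Function.update s.reg r v, s.hd⟩ (mk q' s.hd c.tape r 0 (tapeOf L)) := by
  refine ⟨rfl, rfl, h.2.2.1, by simp [mk], fun i => ?_⟩
  by_cases hi : i = r
  · subst hi
    exact ⟨L, by simp [mk], by simp [hv], hL⟩
  · obtain ⟨L', h1, h2, h3⟩ := h.2.2.2.2 i
    exact ⟨L', by simp [mk, hi, h1], by simp [Fin.val_ne_of_ne hi, h2], h3⟩

theorem reach_nop (hM : Follows M D) {B : ℕ} {q q' : Q} {f : Tr Sym Q k} (hq : D q = some f)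
    {s : PState} {c : OffCfg (Option Bool) Q k} (h : Rep x B q s c) {mv : SignType}
    (hf : ∀ g, f (readIn x s.hd) g = (q', mv, nop g)) {hd' : ℕ}
    (hhd : min (x.length + 1) ((s.hd : ℤ) + (mv : ℤ)).toNat = hd') :
    ∃ c', Reach M x H c c' ∧ Rep x B q' ⟨s.reg, hd'⟩ c' := by
  obtain ⟨h1, h2, h3, h4, h5⟩ := h
  obtain ⟨e1, e2⟩ := hM q f hq
  refine ⟨M.step x c, Relation.ReflTransGen.single ⟨fun i => by simp [h4], rfl⟩, ?_⟩
  unfold Offline.step
  rw [h1, e1, e2, h2]
  simp only [hf]
  refine ⟨rfl, hhd, by rw [← hhd]; exact min_le_left _ _, by simp [h4, nop], fun i => ?_⟩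
  simpa [nop] using h5 i

theorem dec_phase (hM : Follows M D) {B : ℕ} {qi q1 q2 q3 qb qo : Q} (r : Fin k)
    (e1 : D qi = some (trStart r.val q1)) (e2 : D q1 = some (trDec r.val q1 q2 q3))
    (e3 : D q2 = some (trSweep r.val true q2 qb)) (e4 : D q3 = some (trSweep r.val false q3 qo))
    {s : PState} {c : OffCfg (Option Bool) Q k} (h : Rep x B qi s c) :
    ∃ c', Reach M x (Nat.log 2 B + 2) c c' ∧ (s.reg r = 0 → Rep x B qo s c') ∧
      (s.reg r ≠ 0 → Rep x B qb ⟨Function.update s.reg r (s.reg r - 1), s.hd⟩ c') := by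
  obtain ⟨L, hL1, hL2, hL3⟩ := h.2.2.2.2 r
  obtain ⟨j, L', rfl, hL'⟩ := exists_run false L
  have hhd := h.2.2.1
  simp only [List.length_append, List.length_replicate] at hL3
  have r1 := reach_start (x := x) (H := Nat.log 2 B + 2) hM r e1 hhd c.tape
    (List.replicate j false ++ L')
  have r2 := reach_scan (x := x) (H := Nat.log 2 B + 2) hM r false e2
    (fun a g hg => by simp [trDec, hg]) hhd c.tape j L' (by omega)
  have ht := tapeOf_at (List.replicate j false) L'
  rw [List.length_replicate] at ht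
  rw [← h.eq_mk r hL1] at r1
  rcases hL' with rfl | ⟨t, rfl⟩
  · have r3 := reach_act (x := x) (H := Nat.log 2 B + 2) hM e2 hhd c.tape r (pos := (j : ℤ) + 1)
      (by positivity) (by push_cast; omega) (tapeOf (List.replicate j false ++ []))
      (q' := q3) (w := none) (mv := -1) fun a g hg => by
        rw [ht] at hg
        simp [trDec, hg]
    rw [Function.update_eq_self_iff.2 ht.symm] at r3
    have r4 := reach_sweep (x := x) (H := Nat.log 2 B + 2) hM r false e4 hhd c.tape
      (List.replicate j false) [] (by simp; omega)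
    rw [List.length_replicate] at r4
    have h0 : s.reg r = 0 := by rw [← hL2, bval_false]; rfl
    refine ⟨_, r1.trans (r2.trans (r3.trans (by simpa using r4))), fun _ => ?_,
      fun hne => absurd h0 hne⟩
    have := h.update (q' := qo) r (L := List.replicate j false) (v := s.reg r)
      (by simpa using hL2) (by simpa using hL3)
    simpa using this
  · have r3 := reach_act (x := x) (H := Nat.log 2 B + 2) hM e2 hhd c.tape r (pos := (j : ℤ) + 1)
      (by positivity) (by push_cast; omega) (tapeOf (List.replicate j false ++ (!false) :: t))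
      (q' := q2) (w := some false) (mv := -1) fun a g hg => by
        rw [ht] at hg
        simp [trDec, hg]
    have hu := update_tapeOf (List.replicate j false) ((!false) :: t) false
    rw [List.length_replicate] at hu
    rw [hu] at r3
    have r4 := reach_sweep (x := x) (H := Nat.log 2 B + 2) hM r true e3 hhd c.tape
      (List.replicate j false) (false :: t) (by simp; omega)
    rw [List.length_replicate] at r4
    have hv := bval_true j (false :: t)
    rw [bval_false] at hL2
    simp only [bval, Bool.not_false, Bool.toNat_true, Bool.toNat_false, zero_add] at hL2 hv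
    have hp : 0 < 2 ^ j := by positivity
    refine ⟨_, r1.trans (r2.trans (r3.trans (by simpa using r4))), fun h0 => ?_, fun _ => ?_⟩
    · exfalso
      rw [h0] at hL2
      nlinarith
    · refine h.update r ?_ (by simpa using hL3)
      rw [add_comm (2 * bval t), hL2] at hv
      omega

theorem inc_phase (hM : Follows M D) {B : ℕ} {qi q1 q2 qo : Q} (r : Fin k)
    (e1 : D qi = some (trStart r.val q1)) (e2 : D q1 = some (trInc r.val q1 q2))
    (e3 : D q2 = some (trSweep r.val false q2 qo))
    {s : PState} {c : OffCfg (Option Bool) Q k} (h : Rep x B qi s c) (hB : s.reg r + 1 ≤ B) :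
    ∃ c', Reach M x (Nat.log 2 B + 2) c c' ∧
      Rep x B qo ⟨Function.update s.reg r (s.reg r + 1), s.hd⟩ c' := by
  obtain ⟨L, hL1, hL2, hL3⟩ := h.2.2.2.2 r
  obtain ⟨j, L', rfl, hL'⟩ := exists_run true L
  have hhd := h.2.2.1
  simp only [List.length_append, List.length_replicate] at hL3
  have r1 := reach_start (x := x) (H := Nat.log 2 B + 2) hM r e1 hhd c.tape
    (List.replicate j true ++ L')
  have r2 := reach_scan (x := x) (H := Nat.log 2 B + 2) hM r true e2
    (fun a g hg => by simp [trInc, hg]) hhd c.tape j L' (by omega)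
  have ht := tapeOf_at (List.replicate j true) L'
  rw [List.length_replicate] at ht
  rw [← h.eq_mk r hL1] at r1
  have r3 := reach_act (x := x) (H := Nat.log 2 B + 2) hM e2 hhd c.tape r (pos := (j : ℤ) + 1)
    (by positivity) (by push_cast; omega) (tapeOf (List.replicate j true ++ L'))
    (q' := q2) (w := some true) (mv := -1) fun a g hg => by
      rw [ht] at hg
      rcases hL' with rfl | ⟨t, rfl⟩ <;> simp [trInc, hg]
  have hu := update_tapeOf (List.replicate j true) L' true
  rw [List.length_replicate] at hu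
  rw [hu] at r3
  have r4 := reach_sweep (x := x) (H := Nat.log 2 B + 2) hM r false e3 hhd c.tape
    (List.replicate j true) (true :: L'.tail) (by simp; omega)
  rw [List.length_replicate] at r4
  have hv := bval_true j L'
  rw [hL2] at hv
  refine ⟨_, r1.trans (r2.trans (r3.trans (by simpa using r4))), h.update r ?_ ?_⟩
  · rw [bval_false, hv]
    rcases hL' with rfl | ⟨t, rfl⟩ <;> simp [bval, add_comm]
  · rcases hL' with rfl | ⟨t, rfl⟩
    · have : j ≤ Nat.log 2 B := Nat.le_log_of_pow_le one_lt_two (by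
        simp only [bval, zero_add, mul_one] at hv
        omega)
      simpa using this
    · simpa using hL3

theorem sim (hM : Follows M D) {B : ℕ} {p : Prog Sym} {s s' : PState} (h : Exec x B p s s') :
    RegsLt k p → ∀ qi qo c, Emb D p qi qo → Rep x B qi s c →
      ∃ c', Reach M x (Nat.log 2 B + 2) c c' ∧ Rep x B qo s' c' := by
  induction h with
  | skip s =>
    intro _ qi qo c e hc
    exact reach_nop hM e hc (fun _ => rfl) (by simp [hc.2.2.1])
  | inc r s hB =>
    rintro hr qi qo c ⟨q1, q2, e1, e2, e3⟩ hc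
    exact inc_phase hM ⟨r, hr⟩ e1 e2 e3 hc hB
  | loop0 r b s h0 =>
    rintro hr qi qo c ⟨q1, q2, q3, qb, e1, e2, e3, e4, -⟩ hc
    obtain ⟨c', h1, h2, -⟩ := dec_phase hM ⟨r, hr.1⟩ e1 e2 e3 e4 hc
    exact ⟨c', h1, h2 h0⟩
  | loopS r b s s₁ s₂ h0 _ _ ih1 ih2 =>
    intro hr qi qo c e hc
    obtain ⟨q1, q2, q3, qb, e1, e2, e3, e4, e5⟩ := id e
    obtain ⟨c', h1, -, h2⟩ := dec_phase hM ⟨r, hr.1⟩ e1 e2 e3 e4 hc
    obtain ⟨c2, h3, h4⟩ := ih1 hr.2 _ _ _ e5 (h2 h0)
    obtain ⟨c3, h5, h6⟩ := ih2 hr _ _ _ e h4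
    exact ⟨c3, h1.trans (h3.trans h5), h6⟩
  | seq p q s s₁ s₂ _ _ ih1 ih2 =>
    rintro hr qi qo c ⟨qm, e1, e2⟩ hc
    obtain ⟨c2, h3, h4⟩ := ih1 hr.1 _ _ _ e1 hc
    obtain ⟨c3, h5, h6⟩ := ih2 hr.2 _ _ _ e2 h4
    exact ⟨c3, h3.trans h5, h6⟩
  | mvL s =>
    intro _ qi qo c e hc
    have := hc.2.2.1
    exact reach_nop hM e hc (fun _ => rfl) (by simp; omega)
  | mvR s =>
    intro _ qi qo c e hc
    exact reach_nop hM e hc (fun _ => rfl) (by simp)
  | ifT P p q s s' hP _ ih =>
    rintro hr qi qo c ⟨q1, q2, e1, e2, -⟩ hc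
    obtain ⟨c2, h3, h4⟩ := reach_nop (H := Nat.log 2 B + 2) (q' := q1) (mv := 0) hM e1 hc
      (fun _ => by simp [trIf, hP]) (hd' := s.hd) (by simp [hc.2.2.1])
    obtain ⟨c3, h5, h6⟩ := ih hr.1 _ _ _ e2 h4
    exact ⟨c3, h3.trans h5, h6⟩
  | ifF P p q s s' hP _ ih =>
    rintro hr qi qo c ⟨q1, q2, e1, -, e2⟩ hc
    obtain ⟨c2, h3, h4⟩ := reach_nop (H := Nat.log 2 B + 2) (q' := q2) (mv := 0) hM e1 hc
      (fun _ => by simp [trIf, hP]) (hd' := s.hd) (by simp [hc.2.2.1])
    obtain ⟨c3, h5, h6⟩ := ih hr.2 _ _ _ e2 h4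
    exact ⟨c3, h3.trans h5, h6⟩

theorem Reach.final {c c' : OffCfg (Option Bool) Q k} (h : Reach M x H c c') (hg : Good H c')
    (hfix : M.step x c' = c') :
    (∃ τ, (M.step x)^[τ] c = c') ∧ ∀ σ, Good H ((M.step x)^[σ] c) := by
  induction h using Relation.ReflTransGen.head_induction_on with
  | refl => exact ⟨⟨0, rfl⟩, fun σ => by rw [Function.iterate_fixed hfix]; exact hg⟩
  | head h1 _ ih =>
    obtain ⟨⟨τ, h2⟩, h3⟩ := ih
    refine ⟨⟨τ + 1, by rw [Function.iterate_succ_apply, h1.2, h2]⟩, fun σ => ?_⟩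
    cases σ with
    | zero => exact h1.1
    | succ σ => rw [Function.iterate_succ_apply, h1.2]; exact h3 σ

/-- Is the symbol different from the left end marker. -/
def notLend : InSym Sym → Bool
  | .lend => false
  | _ => true

theorem notLend_readIn (x : List Sym) (i : ℕ) : notLend (readIn x i) = decide (i ≠ 0) := by
  unfold readIn
  split_ifs with h
  · simp [h, notLend]
  · cases x[i - 1]? <;> simp [h, notLend]

end TMP

open TMP in
theorem tm_of_prog {Sym : Type} [Finite Sym] (p : Prog Sym) :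
    ∃ (k : ℕ) (Γ Q : Type) (_ : Finite Γ) (_ : Finite Q) (M : Offline Sym Γ Q k),
      ∀ (x : List Sym) (B : ℕ) (s' : PState), Exec x B p ⟨fun _ => 0, 0⟩ s' →
        (∃ τ, M.out (M.run x τ).state = some (decide (s'.hd ≠ 0))) ∧
        ∀ τ, M.cells x τ ≤ k * (Nat.log 2 B + 3) := by
  obtain ⟨k, hk⟩ := exists_regsLt p
  obtain ⟨P, _, s, δ, h⟩ := exists_frag k p
  let tr : Option P → Tr Sym (Option P ⊕ Bool) k := fun o => o.elim
    (trIf notLend (.inr true) (.inr false))
    fun t => mapTr (fun o => o.elim (.inl none) fun t => .inl (some t)) (δ t)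
  let D : Option P ⊕ Bool → Option (Tr Sym (Option P ⊕ Bool) k) :=
    Sum.elim (fun o => some (tr o)) fun _ => none
  let M : Offline Sym (Option Bool) (Option P ⊕ Bool) k :=
    { blank := none
      start := .inl (some s)
      out := Sum.elim (fun _ => none) some
      δ := Sum.elim tr fun b => trGo (.inr b) 0 }
  have hM : Follows M D := by
    rintro (o | b) f hf
    · exact ⟨rfl, Option.some.inj hf⟩
    · exact absurd hf (by simp [D])
  have hE : Emb D p (.inl (some s)) (.inl none) :=
    Emb.tab_map (fun t => Sum.inl (some t)) _ (fun _ => rfl) h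
  refine ⟨k, Option Bool, Option P ⊕ Bool, inferInstance, inferInstance, M, fun x B s' hx => ?_⟩
  obtain ⟨c1, h1, h2⟩ := sim hM hx (hk k le_rfl) _ _ M.init hE
    ⟨rfl, rfl, Nat.zero_le _, rfl, fun i => ⟨[], by funext z; simp [tapeOf, M, Offline.init], rfl,
      Nat.zero_le _⟩⟩
  obtain ⟨c2, h3, h4⟩ := reach_nop (H := Nat.log 2 B + 2) (q := .inl none)
    (q' := .inr (decide (s'.hd ≠ 0))) (mv := 0) hM rfl h2 (fun g => by
      simp only [tr, Option.elim_none, trIf, notLend_readIn]
      cases decide (s'.hd ≠ 0) <;> rfl) (hd' := s'.hd) (by simp [h2.2.2.1])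
  have hout : M.out c2.state = some (decide (s'.hd ≠ 0)) := by rw [h4.1]; rfl
  obtain ⟨⟨τ, h5⟩, h6⟩ := Reach.final (h1.trans h3) (fun i => by simp [h4.2.2.2.1]; positivity)
    (by unfold Offline.step; rw [hout])
  refine ⟨⟨τ, by unfold Offline.run; rw [h5, hout]⟩, fun τ => ?_⟩
  unfold Offline.cells
  refine (Finset.sum_le_card_nsmul _ _ (Nat.log 2 B + 3) fun i _ => ?_).trans (by simp)
  refine (Finset.card_le_card (t := Finset.Icc (0 : ℤ) (Nat.log 2 B + 2 : ℕ)) ?_).trans ?_
  · intro z hz
    obtain ⟨σ, -, rfl⟩ := Finset.mem_image.1 hz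
    exact Finset.mem_Icc.2 (h6 σ i)
  · simp

end Vale.Agent.P312
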