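import Vale.Agent.P312.LSDef
import Vale.Agent.P312.TMofProg

/-! TASK A2: expressions compile to counter programs; the search loop. -/

namespace Vale.Agent.P312

namespace CP

variable {Sym : Type} {x : List Sym} {B : ℕ}

theorem cast {p : Prog Sym} {r0 r1 r2 r3 : ℕ → ℕ} {h0 h1 h2 h3 : ℕ}
    (H : Exec x B p ⟨r0, h0⟩ ⟨r1, h1⟩) (e0 : ∀ i, r2 i = r0 i) (e1 : ∀ i, r3 i = r1 i)
    (e2 : h2 = h0) (e3 : h3 = h1) : Exec x B p ⟨r2, h2⟩ ⟨r3, h3⟩ := by
  rwa [funext e0, funext e1, e2, e3]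

theorem mono {p : Prog Sym} {s t : PState} (H : Exec x B p s t) {B' : ℕ} (hB : B ≤ B') :
    Exec x B' p s t := by
  induction H with
  | skip s => exact .skip s
  | inc r s h => exact .inc r s (h.trans hB)
  | loop0 r b s h => exact .loop0 r b s h
  | loopS r b s s₁ s₂ h _ _ ih1 ih2 => exact .loopS r b s s₁ s₂ h ih1 ih2
  | seq p q s s₁ s₂ _ _ ih1 ih2 => exact .seq p q s s₁ s₂ ih1 ih2
  | mvL s => exact .mvL s
  | mvR s => exact .mvR s
  | ifT P p q s s' h _ ih => exact .ifT P p q s s' h ih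
  | ifF P p q s s' h _ ih => exact .ifF P p q s s' h ih

theorem exec_loop (r : ℕ) (b : Prog Sym) (n : ℕ) : ∀ (R : ℕ → ℕ → ℕ) (Hd : ℕ → ℕ), R n r = 0 →
    (∀ i < n, R i r ≠ 0 ∧ Exec x B b ⟨Function.update (R i) r (R i r - 1), Hd i⟩
      ⟨R (i + 1), Hd (i + 1)⟩) → Exec x B (.loop r b) ⟨R 0, Hd 0⟩ ⟨R n, Hd n⟩ := by
  induction n with
  | zero => exact fun R Hd h0 _ => .loop0 r b _ h0
  | succ n ih =>
    exact fun R Hd h0 h => .loopS r b _ _ _ (h 0 (by omega)).1 (h 0 (by omega)).2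
      (ih (fun i => R (i + 1)) (fun i => Hd (i + 1)) h0 fun i hi => h (i + 1) (by omega))

theorem exec_inc (r : ℕ) (reg : ℕ → ℕ) (h : ℕ) (hB : reg r + 1 ≤ B) :
    Exec x B (.inc r) ⟨reg, h⟩ ⟨fun i => if i = r then reg r + 1 else reg i, h⟩ :=
  cast (.inc r ⟨reg, h⟩ hB) (fun _ => rfl) (fun i => by simp [Function.update_apply]) rfl rfl

theorem exec_clear (r : ℕ) (reg : ℕ → ℕ) (h : ℕ) :
    Exec x B (.loop r .skip) ⟨reg, h⟩ ⟨fun i => if i = r then 0 else reg i, h⟩ := by
  refine cast (exec_loop r .skip (reg r) (fun j i => if i = r then reg r - j else reg i)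
    (fun _ => h) (by simp) fun j hj => ⟨by simp; omega, ?_⟩) (by grind) (by grind) rfl rfl
  exact cast (.skip ⟨_, h⟩) (fun _ => rfl) (by grind) rfl rfl

theorem exec_back (r : ℕ) (reg : ℕ → ℕ) (h : ℕ) :
    Exec x B (.loop r .mvL) ⟨reg, h⟩ ⟨fun i => if i = r then 0 else reg i, h - reg r⟩ := by
  refine cast (exec_loop r .mvL (reg r) (fun j i => if i = r then reg r - j else reg i)
    (fun j => h - j) (by simp) fun j hj => ⟨by simp; omega, ?_⟩) (by grind) (by grind) rfl rfl
  exact cast (.mvL ⟨_, h - j⟩) (fun _ => rfl) (by grind) rfl rfl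

theorem exec_move {a b : ℕ} (hab : a ≠ b) (reg : ℕ → ℕ) (h : ℕ) (hB : reg b + reg a ≤ B) :
    Exec x B (.loop a (.inc b)) ⟨reg, h⟩
      ⟨fun i => if i = a then 0 else if i = b then reg b + reg a else reg i, h⟩ := by
  refine cast (exec_loop a (.inc b) (reg a)
    (fun j i => if i = a then reg a - j else if i = b then reg b + j else reg i)
    (fun _ => h) (by simp) fun j hj => ⟨by simp; omega, ?_⟩) (by grind) (by grind) rfl rfl
  exact cast (exec_inc b _ h (by grind)) (fun _ => rfl) (by grind) rfl rfl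

theorem exec_move2 {a b c : ℕ} (hab : a ≠ b) (hac : a ≠ c) (hbc : b ≠ c) (reg : ℕ → ℕ) (h : ℕ)
    (hB : reg b + reg a ≤ B) (hB' : reg c + reg a ≤ B) :
    Exec x B (.loop a (.seq (.inc b) (.inc c))) ⟨reg, h⟩
      ⟨fun i => if i = a then 0 else if i = b then reg b + reg a else
        if i = c then reg c + reg a else reg i, h⟩ := by
  refine cast (exec_loop a _ (reg a)
    (fun j i => if i = a then reg a - j else if i = b then reg b + j else
      if i = c then reg c + j else reg i)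
    (fun _ => h) (by simp) fun j hj => ⟨by simp; omega, ?_⟩) (by grind) (by grind) rfl rfl
  exact .seq _ _ _ _ _ (exec_inc b _ h (by grind))
    (cast (exec_inc c _ h (by grind)) (fun _ => rfl) (by grind) rfl rfl)

theorem exec_fwd {a b : ℕ} (hab : a ≠ b) (reg : ℕ → ℕ) (hB : reg b + reg a ≤ B) :
    Exec x B (.loop a (.seq .mvR (.inc b))) ⟨reg, 0⟩
      ⟨fun i => if i = a then 0 else if i = b then reg b + reg a else reg i,
        min (x.length + 1) (reg a)⟩ := by
  refine cast (exec_loop a _ (reg a)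
    (fun j i => if i = a then reg a - j else if i = b then reg b + j else reg i)
    (fun j => min (x.length + 1) j) (by simp) fun j hj => ⟨by simp; omega, ?_⟩) (by grind)
    (by grind) (by simp) rfl
  exact .seq _ _ _ _ _ (.mvR _)
    (cast (exec_inc b _ _ (by grind)) (fun _ => rfl) (by grind) rfl (by grind))

theorem readIn_min (x : List Sym) (v : ℕ) : readIn x (min (x.length + 1) v) = readIn x v := by
  rcases le_total v (x.length + 1) with h | h
  · rw [min_eq_right h]
  · rw [min_eq_left h]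
    unfold readIn
    rw [if_neg (by omega), if_neg (by omega), List.getElem?_eq_none (by omega),
      List.getElem?_eq_none (by omega)]

theorem eval_le (e : Exp Sym) : ∀ env, e.Bnd x B env → e.eval x env ≤ B := by
  induction e with
  | hd => exact fun _ h => h
  | drop e ih => exact fun _ h => ih _ h
  | zero => exact fun _ _ => Nat.zero_le _
  | succ e _ => exact fun _ h => h.2
  | lett e b _ ih => exact fun _ h => ih _ h.2
  | loop n a s _ iha ihs =>
    intro env h
    simp only [Exp.eval]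
    cases hn : n.eval x env with
    | zero => exact iha _ h.2.1
    | succ j => exact ihs _ (h.2.2 j (by omega))
  | test P e _ =>
    intro env h
    simp only [Exp.eval]
    have := h.2
    split_ifs <;> omega

theorem map_eq {ρ : List ℕ} {m : ℕ} (hρ : ∀ r ∈ ρ, r < m) {reg reg' : ℕ → ℕ}
    (h : ∀ r < m, reg' r = reg r) : ρ.map reg' = ρ.map reg :=
  List.map_congr_left fun r hr => h r (hρ r hr)

end CP

open CP in
theorem exists_compile {Sym : Type} (e : Exp Sym) (ρ : List ℕ) (m : ℕ) (hρ : ∀ r ∈ ρ, r < m) :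
    ∃ p : Prog Sym, ∀ (x : List Sym) (B : ℕ) (reg : ℕ → ℕ), (∀ r, m ≤ r → reg r = 0) →
      e.Bnd x B (ρ.map reg) →
        Exec x B p ⟨reg, 0⟩ ⟨Function.update reg m (e.eval x (ρ.map reg)), 0⟩ := by
  induction e generalizing ρ m with
  | hd =>
    cases ρ with
    | nil =>
      refine ⟨.skip, fun x B reg h0 _ => cast (.skip ⟨reg, 0⟩) (fun _ => rfl) (fun i => ?_) rfl rfl⟩
      simp only [Exp.eval, List.map_nil, List.headD_nil]
      grind
    | cons r ρ =>
      have hr : r < m := hρ r (by simp)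
      refine ⟨.seq (.loop r (.seq (.inc m) (.inc (m + 1)))) (.loop (m + 1) (.inc r)),
        fun x B reg h0 hB => ?_⟩
      simp only [Exp.eval, Exp.Bnd, List.map_cons, List.headD_cons] at hB ⊢
      have h1 := h0 m le_rfl
      have h2 := h0 (m + 1) (by omega)
      exact .seq _ _ _ _ _ (exec_move2 (by omega) (by omega) (by omega) reg 0 (by omega) (by omega))
        (cast (exec_move (by omega) _ 0 (by grind)) (fun _ => rfl) (by grind) rfl rfl)
  | drop e ih =>
    obtain ⟨p, hp⟩ := ih ρ.tail m fun r hr => hρ r (List.mem_of_mem_tail hr)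
    refine ⟨p, fun x B reg h0 hB => ?_⟩
    simp only [Exp.eval, Exp.Bnd, ← List.map_tail] at hB ⊢
    exact hp x B reg h0 hB
  | zero =>
    refine ⟨.skip, fun x B reg h0 _ => cast (.skip ⟨reg, 0⟩) (fun _ => rfl) (fun i => ?_) rfl rfl⟩
    simp only [Exp.eval]
    grind
  | succ e ih =>
    obtain ⟨p, hp⟩ := ih ρ m hρ
    refine ⟨.seq p (.inc m), fun x B reg h0 hB => ?_⟩
    simp only [Exp.eval, Exp.Bnd] at hB ⊢
    exact .seq _ _ _ _ _ (hp x B reg h0 hB.1)
      (cast (exec_inc m _ 0 (by grind)) (fun _ => rfl) (by grind) rfl rfl)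
  | lett e b ihe ihb =>
    obtain ⟨p, hp⟩ := ihe ρ m hρ
    obtain ⟨q, hq⟩ := ihb (m :: ρ) (m + 1) (by grind)
    refine ⟨.seq p (.seq q (.seq (.loop m .skip) (.loop (m + 1) (.inc m)))),
      fun x B reg h0 hB => ?_⟩
    simp only [Exp.eval, Exp.Bnd] at hB ⊢
    have h1 := hp x B reg h0 hB.1
    have h3 := eval_le b _ hB.2
    generalize e.eval x (ρ.map reg) = v at *
    have e1 : (m :: ρ).map (Function.update reg m v) = v :: ρ.map reg := by
      rw [List.map_cons, Function.update_self, map_eq hρ (reg := reg) (by grind)]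
    have h2 := hq x B (Function.update reg m v) (by grind) (e1 ▸ hB.2)
    rw [e1] at h2
    generalize b.eval x (v :: ρ.map reg) = w at *
    have h4 := h0 (m + 1) (by omega)
    exact .seq _ _ _ _ _ h1 (.seq _ _ _ _ _ h2 (.seq _ _ _ _ _ (exec_clear m _ 0)
      (cast (exec_move (by omega) _ 0 (by grind)) (fun _ => rfl) (by grind) rfl rfl)))
  | loop n a s ihn iha ihs =>
    obtain ⟨pn, hn⟩ := ihn ρ m hρ
    obtain ⟨pa, ha⟩ := iha ρ (m + 2) (by grind)
    obtain ⟨ps, hs⟩ := ihs ((m + 2) :: (m + 1) :: ρ) (m + 3) (by grind)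
    refine ⟨.seq pn (.seq pa (.seq (.loop m (.seq ps (.seq (.loop (m + 2) .skip)
      (.seq (.loop (m + 3) (.inc (m + 2))) (.inc (m + 1))))))
      (.seq (.loop (m + 1) .skip) (.loop (m + 2) (.inc m))))), fun x B reg h0 hB => ?_⟩
    have h5 := eval_le _ _ hB
    simp only [Exp.eval, Exp.Bnd] at hB h5 ⊢
    obtain ⟨b1, b2, b3⟩ := hB
    have h1 := hn x B reg h0 b1
    have h3 := eval_le n _ b1
    generalize n.eval x (ρ.map reg) = N at *
    have e1 : ρ.map (Function.update reg m N) = ρ.map reg := map_eq hρ (by grind)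
    have h2 := ha x B (Function.update reg m N) (by grind) (e1 ▸ b2)
    rw [e1] at h2
    generalize a.eval x (ρ.map reg) = A at *
    obtain ⟨it, hit⟩ : ∃ it : ℕ → ℕ,
      it = fun j => iter j A fun i acc => s.eval x (acc :: i :: ρ.map reg) := ⟨_, rfl⟩
    have i0 : it 0 = A := by rw [hit]; rfl
    have i1 : ∀ j, it (j + 1) = s.eval x (it j :: j :: ρ.map reg) := fun j => by rw [hit]; rfl
    have i2 : ∀ j, (iter j A fun i acc => s.eval x (acc :: i :: ρ.map reg)) = it j := fun j => by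
      rw [hit]
    simp only [i2] at b3 h5 ⊢
    have z1 := h0 (m + 1) (by omega)
    have z2 := h0 (m + 2) (by omega)
    have z3 := h0 (m + 3) (by omega)
    have h4 := exec_loop (x := x) (B := B) m (.seq ps (.seq (.loop (m + 2) .skip)
      (.seq (.loop (m + 3) (.inc (m + 2))) (.inc (m + 1))))) N
      (fun j i => if i = m then N - j else if i = m + 1 then j else if i = m + 2 then it j
        else reg i) (fun _ => 0) (by simp) fun j hj => ⟨by simp; omega, by
        obtain ⟨R, hR⟩ : ∃ R : ℕ → ℕ, R = fun i => if i = m then N - j - 1 else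
          if i = m + 1 then j else if i = m + 2 then it j else reg i := ⟨_, rfl⟩
        have e2 : ((m + 2) :: (m + 1) :: ρ).map R = it j :: j :: ρ.map reg := by
          rw [List.map_cons, List.map_cons, map_eq hρ (reg := reg) (by grind)]
          grind
        have h6 := hs x B R (by grind) (e2 ▸ b3 j hj)
        have h7 := eval_le _ _ (b3 j hj)
        rw [e2, ← i1] at h6
        rw [← i1] at h7
        refine .seq _ _ _ _ _ (cast h6 (by grind) (fun _ => rfl) rfl rfl)
          (.seq _ _ _ _ _ (exec_clear (m + 2) _ 0) (.seq _ _ _ _ _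
            (exec_move (by omega) _ 0 (by grind))
            (cast (exec_inc (m + 1) _ 0 (by grind)) (fun _ => rfl) (by grind) rfl rfl)))⟩
    exact .seq _ _ _ _ _ h1 (.seq _ _ _ _ _ h2 (.seq _ _ _ _ _
      (cast h4 (by grind) (fun _ => rfl) rfl rfl) (.seq _ _ _ _ _ (exec_clear (m + 1) _ 0)
      (cast (exec_move (by omega) _ 0 (by grind)) (fun _ => rfl) (by grind) rfl rfl))))
  | test P e ih =>
    obtain ⟨p, hp⟩ := ih ρ m hρ
    refine ⟨.seq p (.seq (.loop m (.seq .mvR (.inc (m + 1)))) (.seq (.ifsym P (.inc m) .skip)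
      (.loop (m + 1) .mvL))), fun x B reg h0 hB => ?_⟩
    simp only [Exp.eval, Exp.Bnd] at hB ⊢
    have h1 := hp x B reg h0 hB.1
    have h3 := eval_le e _ hB.1
    have h4 := hB.2
    generalize e.eval x (ρ.map reg) = v at *
    have z1 := h0 (m + 1) (by omega)
    refine .seq _ _ _ _ _ h1 (.seq _ _ _ _ _ (exec_fwd (by omega) _ (by grind)) ?_)
    rw [Function.update_self]
    cases hP : P (readIn x v) with
    | true =>
      exact .seq _ _ _ _ _ (.ifT _ _ _ _ _ (by rw [← hP, ← readIn_min x v])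
        (exec_inc m _ _ (by grind)))
        (cast (exec_back (m + 1) _ _) (fun _ => rfl) (by grind) rfl (by grind))
    | false =>
      exact .seq _ _ _ _ _ (.ifF _ _ _ _ _ (by rw [← hP, ← readIn_min x v]) (.skip _))
        (cast (exec_back (m + 1) _ _) (fun _ => rfl) (by grind) rfl (by grind))

open CP in
theorem CP.exec_tail {Sym : Type} (x : List Sym) (B : ℕ) (reg : ℕ → ℕ) :
    Exec x B (.loop 2 (.seq (.loop 0 .skip) (.loop 2 (.seq .mvR (.loop 2 .mvL))))) ⟨reg, 0⟩
      ⟨fun i => if i = 2 then 0 else if i = 0 ∧ reg 2 ≠ 0 then 0 else reg i,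
        if reg 2 = 2 then 1 else 0⟩ := by
  by_cases h0 : reg 2 = 0
  · exact cast (.loop0 _ _ ⟨reg, 0⟩ h0) (fun _ => rfl) (by grind) rfl (by grind)
  refine .loopS _ _ _ _ _ h0 (.seq _ _ _ _ _ (exec_clear 0 _ 0) ?_) (.loop0 _ _ _ (by simp))
  by_cases h1 : reg 2 = 1
  · exact cast (.loop0 _ _ ⟨_, 0⟩ (by grind)) (fun _ => rfl) (by grind) rfl (by grind)
  refine .loopS _ _ _ _ _ (by grind) (.seq _ _ _ _ _ (.mvR _) ?_) (.loop0 _ _ _ (by simp))
  exact cast (exec_back 2 _ _) (fun _ => rfl) (by grind) rfl (by grind)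

open CP in
/-- Search over `N = 1, 2, …` until `F (x, N) ≠ 0`; accept iff the value is `2`. -/
theorem machine_of_LS {Sym : Type} [Finite Sym] (F : List Sym × ℕ → ℕ) (hF : LS Sym F)
    (L : Set (List Sym)) (N₀ : List Sym → ℕ)
    (hsound : ∀ x N, F (x, N) ≠ 0 → (F (x, N) = 2 ↔ x ∈ L))
    (hcomp : ∀ x, 1 ≤ N₀ x ∧ F (x, N₀ x) ≠ 0) :
    ∃ (k : ℕ) (Γ Q : Type) (_ : Finite Γ) (_ : Finite Q) (M : Offline Sym Γ Q k) (C : ℕ),
      ∀ x : List Sym,
        (∃ τ : ℕ, (x ∈ L → M.out (M.run x τ).state = some true) ∧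
          (x ∉ L → M.out (M.run x τ).state = some false)) ∧
        ∀ τ, M.cells x τ ≤ C * Nat.log 2 (N₀ x + 2) + C := by
  obtain ⟨e, c, he⟩ := hF.2 0 Nat.one_pos
  obtain ⟨p, hp⟩ := exists_compile e [1] 2 (by simp)
  obtain ⟨k, Γ, Q, i1, i2, M, hM⟩ := tm_of_prog (.seq (.inc 0) (.loop 0 (.seq (.inc 1) (.seq p
    (.seq (.inc 0) (.loop 2 (.seq (.loop 0 .skip) (.loop 2 (.seq .mvR (.loop 2 .mvL))))))))))
  refine ⟨k, Γ, Q, i1, i2, M, k * (c + 4), fun x => ?_⟩
  have hex : ∃ n, F (x, n + 1) ≠ 0 := ⟨N₀ x - 1, by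
    rw [Nat.sub_add_cancel (hcomp x).1]; exact (hcomp x).2⟩
  obtain ⟨n, hn1, hn2⟩ : ∃ n, F (x, n + 1) ≠ 0 ∧ ∀ j < n, F (x, j + 1) = 0 :=
    ⟨Nat.find hex, Nat.find_spec hex, fun j hj => not_not.1 (Nat.find_min hex hj)⟩
  have hn3 : n + 1 ≤ N₀ x := by
    by_contra h
    have h1 := (hcomp x).1
    have h2 := hn2 (N₀ x - 1) (by omega)
    rw [Nat.sub_add_cancel h1] at h2
    exact (hcomp x).2 h2
  obtain ⟨B, hB⟩ : ∃ B, B = (N₀ x + 2) ^ (c + 1) := ⟨_, rfl⟩
  have b1 : (N₀ x + 2) ^ c ≤ B := hB ▸ Nat.pow_le_pow_right (by omega) (by omega)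
  have b2 : N₀ x + 2 ≤ B := hB ▸ Nat.le_self_pow (by omega) _
  have h1 := exec_loop (x := x) (B := B) 0 (.seq (.inc 1) (.seq p (.seq (.inc 0)
    (.loop 2 (.seq (.loop 0 .skip) (.loop 2 (.seq .mvR (.loop 2 .mvL)))))))) (n + 1)
    (fun j i => if i = 0 then (if j ≤ n then 1 else 0) else if i = 1 then j else 0)
    (fun j => if j ≤ n then 0 else if F (x, n + 1) = 2 then 1 else 0) (by simp)
    fun j hj => ⟨by grind, by
      obtain ⟨R, hR⟩ : ∃ R : ℕ → ℕ, R = fun i => if i = 1 then j + 1 else 0 := ⟨_, rfl⟩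
      have e2 : [1].map R = [j + 1] := by simp [hR]
      obtain ⟨h2, h3⟩ : e.eval x [j + 1] = F (x, j + 1) ∧ e.Bnd x ((N₀ x + 2) ^ c) [j + 1] :=
        he (x, j + 1) x [] (N₀ x) ⟨rfl, trivial⟩ fun v hv => by
          have : v = j + 1 := List.mem_singleton.1 hv
          omega
      have h4 := mono (hp x _ R (by grind) (e2 ▸ h3)) b1
      rw [e2, h2] at h4
      have h5 : j < n → F (x, j + 1) = 0 := hn2 j
      have h6 : j = n → F (x, j + 1) = F (x, n + 1) := fun h => by rw [h]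
      generalize F (x, j + 1) = v at *
      generalize F (x, n + 1) = w at *
      clear e2 h2 h3 hn2 hex hM hp he hcomp hsound b1 hB
      simp only [if_pos (by omega : j ≤ n)]
      exact .seq _ _ _ _ _ (exec_inc 1 _ 0 (by grind)) (.seq _ _ _ _ _
        (cast h4 (by grind) (fun _ => rfl) rfl rfl) (.seq _ _ _ _ _ (exec_inc 0 _ 0 (by grind))
        (cast (exec_tail x B _) (fun _ => rfl) (by grind) rfl (by grind))))⟩
  obtain ⟨⟨τ, h2⟩, h3⟩ := hM x B _ (.seq _ _ _ _ _ (exec_inc 0 _ 0 (by omega))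
    (cast h1 (by grind) (fun _ => rfl) (by simp) rfl))
  have h4 := hsound x _ hn1
  refine ⟨⟨τ, fun hx => by rw [h2]; simp [h4.2 hx], fun hx => by rw [h2]; simp [mt h4.1 hx]⟩,
    fun τ => (h3 τ).trans ?_⟩
  have h5 : Nat.log 2 B < (Nat.log 2 (N₀ x + 2) + 1) * (c + 1) := by
    refine Nat.log_lt_of_lt_pow (by omega) ?_
    rw [hB, pow_mul]
    exact Nat.pow_lt_pow_left (Nat.lt_pow_succ_log_self one_lt_two _) (by omega)
  rw [mul_assoc, ← mul_add]
  exact Nat.mul_le_mul_left _ (by nlinarith)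

end Vale.Agent.P312
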