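import Mathlib

/-! Machine models for P312: one-tape time and multitape (offline) space. -/

namespace Vale.Agent.P312

/-- A deterministic one-tape Turing machine with input alphabet `Sym`, tape alphabet `Γ`
and state set `Q`. A state `q` is halting when `out q = some b`; then `b` is the verdict. -/
structure OneTape (Sym Γ Q : Type) where
  blank : Γ
  enc : Sym → Γ
  enc_injective : Function.Injective enc
  enc_ne_blank : ∀ a, enc a ≠ blank
  start : Q
  out : Q → Option Bool
  δ : Q → Γ → Q × Γ × SignType

/-- A configuration of a one-tape machine: state, head position, two-way infinite tape. -/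
structure OneCfg (Γ Q : Type) where
  state : Q
  head : ℤ
  tape : ℤ → Γ

/-- Initial configuration: the input is written on cells `0, …, n-1`, all other cells are
blank, the head is on cell `0`. -/
def OneTape.init {Sym Γ Q : Type} (M : OneTape Sym Γ Q) (x : List Sym) : OneCfg Γ Q where
  state := M.start
  head := 0
  tape := fun p => if 0 ≤ p then (x[p.toNat]?).elim M.blank M.enc else M.blank

/-- One step: write a symbol, change state, move the head by `-1`, `0` or `1`.
A halted machine does not change. -/
def OneTape.step {Sym Γ Q : Type} (M : OneTape Sym Γ Q) (c : OneCfg Γ Q) : OneCfg Γ Q :=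
  match M.out c.state with
  | some _ => c
  | none =>
    { state := (M.δ c.state (c.tape c.head)).1
      head := c.head + ((M.δ c.state (c.tape c.head)).2.2 : ℤ)
      tape := Function.update c.tape c.head (M.δ c.state (c.tape c.head)).2.1 }

/-- `TIME₁[t]`: languages decided by a one-tape machine that halts within `t n` steps on every
input of length `n`. -/
def TIME₁ (Sym : Type) (t : ℕ → ℕ) : Set (Set (List Sym)) :=
  {L | ∃ (Γ Q : Type) (_ : Finite Γ) (_ : Finite Q) (M : OneTape Sym Γ Q), ∀ x : List Sym,
    (x ∈ L → M.out (M.step^[t x.length] (M.init x)).state = some true) ∧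
    (x ∉ L → M.out (M.step^[t x.length] (M.init x)).state = some false)}

/-- What the head of the read-only input tape sees: left end marker, right end marker,
or an input symbol. -/
inductive InSym (Sym : Type) where
  | lend : InSym Sym
  | rend : InSym Sym
  | sym : Sym → InSym Sym

/-- The read-only input tape holding `x`: cell `0` is the left marker, cells `1, …, n` hold
`x`, cell `n+1` is the right marker. -/
def readIn {Sym : Type} (x : List Sym) (i : ℕ) : InSym Sym :=
  if i = 0 then InSym.lend else (x[i - 1]?).elim InSym.rend InSym.sym

/-- A deterministic Turing machine with a read-only input tape and `k` work tapes. -/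
structure Offline (Sym Γ Q : Type) (k : ℕ) where
  blank : Γ
  start : Q
  out : Q → Option Bool
  δ : Q → InSym Sym → (Fin k → Γ) → Q × SignType × (Fin k → Γ × SignType)

/-- A configuration: state, input head position, work head positions, work tapes. -/
structure OffCfg (Γ Q : Type) (k : ℕ) where
  state : Q
  inHead : ℕ
  head : Fin k → ℤ
  tape : Fin k → ℤ → Γ

/-- Initial configuration: all work tapes blank, all heads on cell `0`. -/
def Offline.init {Sym Γ Q : Type} {k : ℕ} (M : Offline Sym Γ Q k) : OffCfg Γ Q k where
  state := M.start
  inHead := 0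
  head := fun _ => 0
  tape := fun _ _ => M.blank

/-- One step on input `x`. The input head cannot leave the cells `0, …, n+1`.
A halted machine does not change. -/
def Offline.step {Sym Γ Q : Type} {k : ℕ} (M : Offline Sym Γ Q k) (x : List Sym)
    (c : OffCfg Γ Q k) : OffCfg Γ Q k :=
  match M.out c.state with
  | some _ => c
  | none =>
    let r := M.δ c.state (readIn x c.inHead) (fun i => c.tape i (c.head i))
    { state := r.1
      inHead := min (x.length + 1) ((c.inHead : ℤ) + (r.2.1 : ℤ)).toNat
      head := fun i => c.head i + ((r.2.2 i).2 : ℤ)
      tape := fun i => Function.update (c.tape i) (c.head i) (r.2.2 i).1 }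

/-- The configuration after `τ` steps on input `x`. -/
def Offline.run {Sym Γ Q : Type} {k : ℕ} (M : Offline Sym Γ Q k) (x : List Sym) (τ : ℕ) :
    OffCfg Γ Q k :=
  (M.step x)^[τ] M.init

/-- The number of work-tape cells visited during the first `τ` steps on input `x`. -/
def Offline.cells {Sym Γ Q : Type} {k : ℕ} (M : Offline Sym Γ Q k) (x : List Sym) (τ : ℕ) : ℕ :=
  ∑ i : Fin k, ((Finset.range (τ + 1)).image fun σ => (M.run x σ).head i).card

/-- `SPACE[s]`: languages decided by a multitape machine with a read-only input tape that halts
on every input and visits `O(s n)` work-tape cells on inputs of length `n`. -/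
def SPACE (Sym : Type) (s : ℕ → ℝ) : Set (Set (List Sym)) :=
  {L | ∃ (k : ℕ) (Γ Q : Type) (_ : Finite Γ) (_ : Finite Q) (M : Offline Sym Γ Q k),
    (∀ x : List Sym, ∃ τ : ℕ,
      (x ∈ L → M.out (M.run x τ).state = some true) ∧
      (x ∉ L → M.out (M.run x τ).state = some false)) ∧
    ∃ (C : ℝ) (n₀ : ℕ), ∀ x : List Sym, n₀ ≤ x.length →
      ∀ τ : ℕ, (M.cells x τ : ℝ) ≤ C * s x.length}

end Vale.Agent.P312
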