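import Vale.Agent.P312.Prog

/-! Abstract visit dynamics and the number-coded one-tape machine. -/

namespace Vale.Agent.P312

/-- Digit `i` of `y` in base `B`. -/
def digit (B y i : ℕ) : ℕ := y / B ^ i % B

/-- Replace digit `i` of `y` in base `B` by `a`. -/
def setDigit (B y i a : ℕ) : ℕ := y - digit B y i * B ^ i + a * B ^ i

/-- Abstract dynamics of block visits. An event `e` enters block `blk e`; if the block holds `y`
then after the visit it holds `vy y e` and the next event is `ve y e`. -/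
structure Dyn where
  blk : ℕ → ℕ
  vy : ℕ → ℕ → ℕ
  ve : ℕ → ℕ → ℕ
  X0 : ℕ → ℕ
  e0 : ℕ

/-- Event number `j` together with the block contents before visit `j`. -/
def Dyn.st (D : Dyn) : ℕ → ℕ × (ℕ → ℕ)
  | 0 => (D.e0, D.X0)
  | j + 1 =>
    (D.ve ((D.st j).2 (D.blk (D.st j).1)) (D.st j).1,
      fun k => if D.blk (D.st j).1 = k then D.vy ((D.st j).2 k) (D.st j).1 else (D.st j).2 k)

/-- Event number `j`. -/
def Dyn.ev (D : Dyn) (j : ℕ) : ℕ := (D.st j).1

/-- Content of block `k` before visit `j`. -/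
def Dyn.Y (D : Dyn) (j k : ℕ) : ℕ := (D.st j).2 k

/-- A one-tape machine coded by numbers: `g` symbols, `q` states, transition tables
`dq` (state), `dg` (symbol), `dm` (move: 0 left, 1 stay, 2 right), `ou` (0 running, 1 reject,
2 accept), start state `q0`, blank `bl`, and `h` the code of the cell holding an input symbol. -/
structure NM (Sym : Type) where
  g : ℕ
  q : ℕ
  dq : ℕ → ℕ → ℕ
  dg : ℕ → ℕ → ℕ
  dm : ℕ → ℕ → ℕ
  ou : ℕ → ℕ
  q0 : ℕ
  bl : ℕ
  h : InSym Sym → ℕ
  g_pos : 2 ≤ g
  q0_lt : q0 < q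
  bl_lt : bl < g
  h_lt : ∀ a, h a < g
  dq_lt : ∀ s a, dq s a < q
  dg_lt : ∀ s a, dg s a < g
  dm_le : ∀ s a, dm s a ≤ 2
  ou_le : ∀ s, ou s ≤ 2
  fin_dq : ∀ s a, q + g ≤ s ∨ q + g ≤ a → dq s a = 0
  fin_dg : ∀ s a, q + g ≤ s ∨ q + g ≤ a → dg s a = 0
  fin_dm : ∀ s a, q + g ≤ s ∨ q + g ≤ a → dm s a = 0
  fin_ou : ∀ s, q + g ≤ s → ou s = 0

variable {Sym : Type}

/-- Initial configuration of the coded machine. -/
def NM.init (m : NM Sym) (x : List Sym) : OneCfg ℕ ℕ where
  state := m.q0
  head := 0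
  tape := fun p => if 0 ≤ p then m.h (readIn x (p.toNat + 1)) else m.bl

/-- One step of the coded machine. -/
def NM.step (m : NM Sym) (c : OneCfg ℕ ℕ) : OneCfg ℕ ℕ :=
  if m.ou c.state ≠ 0 then c else
    { state := m.dq c.state (c.tape c.head)
      head := c.head + (m.dm c.state (c.tape c.head) : ℤ) - 1
      tape := Function.update c.tape c.head (m.dg c.state (c.tape c.head)) }

/-- Verdict code after `τ` steps. -/
def NM.res (m : NM Sym) (x : List Sym) (τ : ℕ) : ℕ := m.ou (m.step^[τ] (m.init x)).state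

/-- Packing of a local configuration: state `s`, position code `π` (0 = left of the block,
`1..w` inside, `w+1` = right of the block), block content `y`. -/
def NM.pack (m : NM Sym) (w s π y : ℕ) : ℕ := (y * (w + 2) + π) * m.q + s

/-- One step inside a block of width `w`, on packed local configurations. -/
def NM.lstep (m : NM Sym) (w c : ℕ) : ℕ :=
  if m.ou (c % m.q) ≠ 0 ∨ c / m.q % (w + 2) = 0 ∨ c / m.q % (w + 2) = w + 1 then c else
    m.pack w (m.dq (c % m.q) (digit m.g (c / m.q / (w + 2)) (c / m.q % (w + 2) - 1)))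
      (c / m.q % (w + 2) + m.dm (c % m.q) (digit m.g (c / m.q / (w + 2)) (c / m.q % (w + 2) - 1)) - 1)
      (setDigit m.g (c / m.q / (w + 2)) (c / m.q % (w + 2) - 1)
        (m.dg (c % m.q) (digit m.g (c / m.q / (w + 2)) (c / m.q % (w + 2) - 1))))

/-- Code of an event: block `k`, side `d` (0 enter at the left end, 1 enter at the right end,
2 initial position, 3 dead), state `s`. -/
def NM.evc (m : NM Sym) (k d s : ℕ) : ℕ := (k * 4 + d) * m.q + s

/-- Position code at which event `e` enters its block (`o` is the initial offset). -/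
def NM.entry (m : NM Sym) (w o e : ℕ) : ℕ :=
  if e / m.q % 4 = 0 then 1 else if e / m.q % 4 = 1 then w else o + 1

/-- Packed local configuration after running `T` local steps. -/
def NM.visit (m : NM Sym) (w o T y e : ℕ) : ℕ :=
  iter T (m.pack w (e % m.q) (m.entry w o e) y) (fun _ c => m.lstep w c)

/-- The next event. -/
def NM.nextEv (m : NM Sym) (w E e c : ℕ) : ℕ :=
  if e / m.q % 4 = 3 then m.evc 0 3 0
  else if m.ou (c % m.q) ≠ 0 then m.evc (min (e / m.q / 4) (2 * E)) 0 (c % m.q)
  else if c / m.q % (w + 2) = 0 then m.evc (min (e / m.q / 4 - 1) (2 * E)) 1 (c % m.q)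
  else if c / m.q % (w + 2) = w + 1 then m.evc (min (e / m.q / 4 + 1) (2 * E)) 0 (c % m.q)
  else m.evc 0 3 0

/-- Initial content of block `k`: cell `u` of block `k` is tape cell `k*w + u - (E*w + o)`. -/
def NM.block0 (m : NM Sym) (x : List Sym) (w o E k : ℕ) : ℕ :=
  iter w 0 (fun u y => y + (if E * w + o ≤ k * w + u then
    m.h (readIn x (k * w + u - (E * w + o) + 1)) else m.bl) * m.g ^ u)

/-- The visit dynamics with block width `w`, offset `o`, time cutoff `T`, `E` visits. -/
def NM.dyn (m : NM Sym) (x : List Sym) (w o T E : ℕ) : Dyn where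
  blk := fun e => e / m.q / 4
  vy := fun y e => m.visit w o T y e / m.q / (w + 2)
  ve := fun y e => m.nextEv w E e (m.visit w o T y e)
  X0 := fun k => m.block0 x w o E k
  e0 := m.evc E 2 m.q0

/-- Verdict carried by an event. -/
def NM.verdict (m : NM Sym) (e : ℕ) : ℕ := if e / m.q % 4 = 3 then 0 else m.ou (e % m.q)

end Vale.Agent.P312
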