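import Vale.Agent.P312.LSDef

/-! Closure properties of `LS`, set up for `fun_prop`. -/

namespace Vale.Agent.P312

section ExpFacts

variable {Sym : Type}

theorem Exp.Bnd_mono (x : List Sym) {B B' : ℕ} (h : B ≤ B') (e : Exp Sym) :
    ∀ env, e.Bnd x B env → e.Bnd x B' env := by
  induction e with
  | hd => intro env h1; exact le_trans h1 h
  | drop e ih => intro env h1; exact ih _ h1
  | zero => intro _ _; trivial
  | succ e ih => intro env h1; exact ⟨ih _ h1.1, h1.2.trans h⟩
  | lett e b ih1 ih2 => intro env h1; exact ⟨ih1 _ h1.1, ih2 _ h1.2⟩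
  | loop n a s ih1 ih2 ih3 =>
    intro env h1; exact ⟨ih1 _ h1.1, ih2 _ h1.2.1, fun j hj => ih3 _ (h1.2.2 j hj)⟩
  | test P e ih => intro env h1; exact ⟨ih _ h1.1, h1.2.trans h⟩

theorem Exp.eval_le (x : List Sym) {B : ℕ} (e : Exp Sym) :
    ∀ env, e.Bnd x B env → e.eval x env ≤ B := by
  induction e with
  | hd => intro env h1; exact h1
  | drop e ih => intro env h1; exact ih _ h1
  | zero => intro _ _; exact Nat.zero_le _
  | succ e ih => intro env h1; exact h1.2
  | lett e b ih1 ih2 => intro env h1; exact ih2 _ h1.2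
  | loop n a s ih1 ih2 ih3 =>
    intro env h1
    obtain ⟨-, h2, h3⟩ := h1
    simp only [Exp.eval]
    generalize n.eval x env = k at h3
    cases k with
    | zero => exact ih2 _ h2
    | succ k => rw [iter_succ]; exact ih3 _ (h3 k (by omega))
  | test P e ih =>
    intro env h1
    simp only [Exp.eval]
    split_ifs
    · exact h1.2
    · exact Nat.zero_le _

def Exp.dropN : ℕ → Exp Sym → Exp Sym
  | 0, e => e
  | j + 1, e => .drop (Exp.dropN j e)

theorem Exp.eval_dropN (x : List Sym) (e : Exp Sym) (j : ℕ) :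
    ∀ env, (Exp.dropN j e).eval x env = e.eval x (env.drop j) := by
  induction j with
  | zero => intro env; rfl
  | succ j ih => intro env; simp only [Exp.dropN, Exp.eval, ih, List.drop_tail]

theorem Exp.Bnd_dropN (x : List Sym) (B : ℕ) (e : Exp Sym) (j : ℕ) :
    ∀ env, (Exp.dropN j e).Bnd x B env ↔ e.Bnd x B (env.drop j) := by
  induction j with
  | zero => intro env; rfl
  | succ j ih => intro env; simp only [Exp.dropN, Exp.Bnd, ih, List.drop_tail]

theorem pow_step (B c : ℕ) : (B + 2) ^ c + 2 ≤ (B + 2) ^ (c + 2) := by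
  have h1 : 1 ≤ (B + 2) ^ c := Nat.one_le_pow _ _ (by omega)
  have h2 : 2 ^ 2 ≤ (B + 2) ^ 2 := Nat.pow_le_pow_left (by omega) 2
  rw [pow_add]; nlinarith

theorem pow_mono' (B : ℕ) {c d : ℕ} (h : c ≤ d) : (B + 2) ^ c ≤ (B + 2) ^ d :=
  Nat.pow_le_pow_right (by omega) h

theorem pow_comp (B c d : ℕ) : ((B + 2) ^ c + 2) ^ d ≤ (B + 2) ^ ((c + 2) * d) := by
  rw [pow_mul]; exact Nat.pow_le_pow_left (pow_step B c) _

end ExpFacts

variable {Sym : Type} {α β γ : Type} [Ctx Sym α] [Ctx Sym β] [Ctx Sym γ]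

theorem LS_nat_iff {f : α → ℕ} : LS Sym f ↔ LS0 Sym f := by
  constructor
  · intro h; exact h.2 0 Nat.one_pos
  · intro h
    refine ⟨fun _ _ _ => trivial, fun i hi => ?_⟩
    obtain rfl : i = 0 := Nat.lt_one_iff.1 hi
    exact h

open Classical in
theorem LS_prop_iff {p : α → Prop} : LS Sym p ↔ LS Sym (fun a => if p a then 1 else 0) := by
  rw [LS_nat_iff]
  constructor
  · intro h; exact h.2 0 Nat.one_pos
  · intro h
    refine ⟨fun _ _ _ => trivial, fun i hi => ?_⟩
    obtain rfl : i = 0 := Nat.lt_one_iff.1 hi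
    exact h

theorem LS0_var {i : ℕ} (hi : i < Ctx.len Sym α) :
    LS0 Sym (fun a : α => (Ctx.vars Sym a).getD i 0) := by
  refine ⟨Exp.dropN i .hd, 1, fun a x rest B _ hB => ?_⟩
  have hi' : i < (Ctx.vars Sym a).length := by rw [Ctx.vars_len]; exact hi
  have e : ((Ctx.vars Sym a ++ rest).drop i).headD 0 = (Ctx.vars Sym a).getD i 0 := by
    simp [List.getD_eq_getElem?_getD, List.getElem?_append_left hi']
  rw [Exp.eval_dropN, Exp.Bnd_dropN]
  refine ⟨e, ?_⟩
  show _ ≤ _
  rw [e, List.getD_eq_getElem _ _ hi']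
  have := hB _ (List.getElem_mem hi')
  simp; omega

theorem push_all (fs : List (α → ℕ)) (hfs : ∀ f ∈ fs, LS0 Sym f) : ∀ eb : Exp Sym,
    ∃ (e : Exp Sym) (c : ℕ), ∀ (a : α) (x : List Sym) (rest : List ℕ) (B B' : ℕ),
      Ctx.compat a x → (∀ v ∈ Ctx.vars Sym a, v ≤ B) → (B + 2) ^ c ≤ B' →
      e.eval x (Ctx.vars Sym a ++ rest) = eb.eval x (fs.map (· a) ++ (Ctx.vars Sym a ++ rest)) ∧
      (eb.Bnd x B' (fs.map (· a) ++ (Ctx.vars Sym a ++ rest)) →
        e.Bnd x B' (Ctx.vars Sym a ++ rest)) ∧ ∀ v ∈ fs.map (· a), v ≤ (B + 2) ^ c := by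
  induction fs with
  | nil => intro eb; exact ⟨eb, 0, fun a x rest B B' _ _ _ => ⟨rfl, id, by simp⟩⟩
  | cons f fs ih =>
    intro eb
    obtain ⟨ef, cf, hf⟩ := hfs f (by simp)
    obtain ⟨e, c, he⟩ := ih (fun g hg => hfs g (by simp [hg])) (.lett (Exp.dropN fs.length ef) eb)
    refine ⟨e, max c cf, fun a x rest B B' h1 h2 h3 => ?_⟩
    obtain ⟨g1, g2, g3⟩ := he a x rest B B' h1 h2 ((pow_mono' B (le_max_left _ _)).trans h3)
    obtain ⟨g4, g5⟩ := hf a x rest B h1 h2
    have e1 : (fs.map (· a) ++ (Ctx.vars Sym a ++ rest)).drop fs.length =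
        Ctx.vars Sym a ++ rest := List.drop_left' (by simp)
    refine ⟨?_, fun h4 => g2 ⟨?_, ?_⟩, ?_⟩
    · rw [g1]; simp only [Exp.eval, Exp.eval_dropN, e1, g4]; rfl
    · rw [Exp.Bnd_dropN, e1]
      exact Exp.Bnd_mono x ((pow_mono' B (le_max_right _ _)).trans h3) _ _ g5
    · rw [Exp.eval_dropN, e1, g4]; exact h4
    · intro v hv
      rcases List.mem_cons.1 hv with rfl | hv
      · show f a ≤ _
        rw [← g4]
        exact (Exp.eval_le x _ _ g5).trans (pow_mono' B (le_max_right _ _))
      · exact (g3 v hv).trans (pow_mono' B (le_max_left _ _))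

theorem LS0.comp {f : β → ℕ} {g : α → β} (hf : LS0 Sym f) (hg : LS Sym g) :
    LS0 Sym (fun a => f (g a)) := by
  obtain ⟨ef, cf, hf⟩ := hf
  obtain ⟨e, c, he⟩ := push_all (Sym := Sym) ((List.range (Ctx.len Sym β)).map
    (fun i a => (Ctx.vars Sym (g a)).getD i 0)) (by
      intro f' hf'
      obtain ⟨i, hi, rfl⟩ := List.mem_map.1 hf'
      exact hg.2 i (List.mem_range.1 hi)) ef
  refine ⟨e, (c + 2) * cf + c, fun a x rest B h1 h2 => ?_⟩
  have e1 : ((List.range (Ctx.len Sym β)).map
      (fun i a => (Ctx.vars Sym (g a)).getD i 0)).map (· a) = Ctx.vars Sym (g a) := by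
    apply List.ext_getElem
    · simp [Ctx.vars_len]
    · intro i h3 h4
      simp [List.getD_eq_getElem?_getD, List.getElem?_eq_getElem h4]
  obtain ⟨g1, g2, g3⟩ := he a x rest B ((B + 2) ^ ((c + 2) * cf + c)) h1 h2
    (pow_mono' B (by omega))
  rw [e1] at g1 g2 g3
  obtain ⟨g4, g5⟩ := hf (g a) x (Ctx.vars Sym a ++ rest) ((B + 2) ^ c) (hg.1 a x h1) g3
  refine ⟨g1.trans g4, g2 (Exp.Bnd_mono x ?_ _ _ g5)⟩
  exact (pow_comp B c cf).trans (pow_mono' B (by omega))

@[fun_prop] theorem LS.id' : LS Sym (fun a : α => a) :=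
  ⟨fun _ _ h => h, fun _ hi => LS0_var hi⟩

theorem LS0.succ {f : α → ℕ} (hf : LS0 Sym f) : LS0 Sym (fun a => f a + 1) := by
  obtain ⟨e, c, h⟩ := hf
  refine ⟨.succ e, c + 2, fun a x rest B h1 h2 => ?_⟩
  obtain ⟨g1, g2⟩ := h a x rest B h1 h2
  refine ⟨by simp only [Exp.eval, g1], Exp.Bnd_mono x (pow_mono' B (by omega)) _ _ g2, ?_⟩
  have := Exp.eval_le x _ _ g2
  have := pow_step B c
  omega

@[fun_prop] theorem LS.const_nat (n : ℕ) : LS Sym (fun _ : α => n) := by
  rw [LS_nat_iff]
  induction n with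
  | zero => exact ⟨.zero, 0, fun _ _ _ _ _ _ => ⟨rfl, trivial⟩⟩
  | succ n ih => exact ih.succ

@[fun_prop] theorem LS.const_prop (p : Prop) : LS Sym (fun _ : α => p) :=
  LS_prop_iff.2 (LS.const_nat _)

@[fun_prop] theorem LS.comp' {f : β → γ} {g : α → β} (hf : LS Sym f) (hg : LS Sym g) :
    LS Sym (fun a => f (g a)) :=
  ⟨fun a x h => hf.1 _ x (hg.1 a x h), fun i hi => (hf.2 i hi).comp hg⟩

theorem LS.fst' : LS Sym (fun p : β × γ => p.1) := by
  refine ⟨fun _ _ h => h.1, fun i hi => ?_⟩
  have := LS0_var (Sym := Sym) (α := β × γ) (i := i) (lt_of_lt_of_le hi (Nat.le_add_right _ _))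
  convert this using 2 with p
  exact (List.getD_append _ _ _ _ (by rw [Ctx.vars_len]; exact hi)).symm

theorem LS.snd' : LS Sym (fun p : β × γ => p.2) := by
  refine ⟨fun _ _ h => h.2, fun i hi => ?_⟩
  have := LS0_var (Sym := Sym) (α := β × γ) (i := Ctx.len Sym β + i) (Nat.add_lt_add_left hi _)
  convert this using 2 with p
  have := List.getD_append_right (Ctx.vars Sym p.1) (Ctx.vars Sym p.2) 0 (Ctx.len Sym β + i)
    (by rw [Ctx.vars_len]; omega)
  rw [Ctx.vars_len, Nat.add_sub_cancel_left] at this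
  exact this.symm

@[fun_prop] theorem LS.fst {f : α → β × γ} (hf : LS Sym f) : LS Sym (fun a => (f a).1) :=
  LS.comp' LS.fst' hf

@[fun_prop] theorem LS.snd {f : α → β × γ} (hf : LS Sym f) : LS Sym (fun a => (f a).2) :=
  LS.comp' LS.snd' hf

@[fun_prop] theorem LS.mk {f : α → β} {g : α → γ} (hf : LS Sym f) (hg : LS Sym g) :
    LS Sym (fun a => (f a, g a)) := by
  refine ⟨fun a x h => ⟨hf.1 a x h, hg.1 a x h⟩, fun i hi => ?_⟩
  rcases Nat.lt_or_ge i (Ctx.len Sym β) with h | h
  · convert hf.2 i h using 2 with a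
    exact List.getD_append _ _ _ _ (by rw [Ctx.vars_len]; exact h)
  · have hi' : i < Ctx.len Sym β + Ctx.len Sym γ := hi
    convert hg.2 (i - Ctx.len Sym β) (by omega) using 2 with a
    have := List.getD_append_right (Ctx.vars Sym (f a)) (Ctx.vars Sym (g a)) 0 i
      (by rw [Ctx.vars_len]; omega)
    rw [Ctx.vars_len] at this
    exact this

theorem LS.succ {f : α → ℕ} (hf : LS Sym f) : LS Sym (fun a => f a + 1) :=
  LS_nat_iff.2 (LS_nat_iff.1 hf).succ

/-- Iteration with a polynomial bound on all intermediate values. -/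
theorem LS.iter_of_poly {n a : α → ℕ} {f : α → ℕ → ℕ → ℕ} (hn : LS Sym n)
    (ha : LS Sym a) (hf : LS Sym (fun p : α × ℕ × ℕ => f p.1 p.2.1 p.2.2)) (c : ℕ)
    (hb : ∀ y x B, Ctx.compat (Sym := Sym) y x → (∀ v ∈ Ctx.vars Sym y, v ≤ B) →
      ∀ j ≤ n y, iter j (a y) (f y) ≤ (B + 2) ^ c) :
    LS Sym (fun y => iter (n y) (a y) (f y)) := by
  have hf' : LS Sym (fun p : ℕ × ℕ × α => f p.2.2 p.2.1 p.1) :=
    LS.comp' (g := fun p : ℕ × ℕ × α => (p.2.2, p.2.1, p.1)) hf (by fun_prop)
  rw [LS_nat_iff] at *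
  obtain ⟨en, cn, hn⟩ := hn
  obtain ⟨ea, ca, ha⟩ := ha
  obtain ⟨es, cs, hs⟩ := hf'
  refine ⟨.loop en ea es, (c + cn + 1 + 2) * cs + cn + ca, fun y x rest B h1 h2 => ?_⟩
  obtain ⟨g1, g2⟩ := hn y x rest B h1 h2
  obtain ⟨g3, g4⟩ := ha y x rest B h1 h2
  have g5 : (fun i acc => es.eval x (acc :: i :: (Ctx.vars Sym y ++ rest))) = f y := by
    funext i acc
    exact (hs (acc, i, y) x rest (acc + i + B) ⟨trivial, trivial, h1⟩ (by
      intro v hv
      rcases List.mem_cons.1 hv with rfl | hv
      · omega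
      · rcases List.mem_cons.1 hv with rfl | hv
        · omega
        · have := h2 v hv; omega)).1
  refine ⟨by simp only [Exp.eval, g1, g3, g5], Exp.Bnd_mono x (pow_mono' B (by omega)) _ _ g2,
    Exp.Bnd_mono x (pow_mono' B (by omega)) _ _ g4, fun j hj => ?_⟩
  rw [g1] at hj
  rw [g3, g5]
  have g6 := hb y x B h1 h2 j hj.le
  have g7 : n y ≤ (B + 2) ^ cn := by rw [← g1]; exact Exp.eval_le x _ _ g2
  have g8 := (hs (iter j (a y) (f y), j, y) x rest ((B + 2) ^ (c + cn + 1)) ⟨trivial, trivial, h1⟩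
    (by
      intro v hv
      rcases List.mem_cons.1 hv with rfl | hv
      · exact g6.trans (pow_mono' B (by omega))
      · rcases List.mem_cons.1 hv with rfl | hv
        · exact (hj.le.trans g7).trans (pow_mono' B (by omega))
        · have h3 := h2 v hv
          have h4 := pow_mono' B (show 1 ≤ c + cn + 1 by omega)
          rw [pow_one] at h4; omega)).2
  exact Exp.Bnd_mono x ((pow_comp B _ _).trans (pow_mono' B (by omega))) _ _ g8

theorem LS.poly {f : α → ℕ} (hf : LS Sym f) : ∃ c, ∀ y x B, Ctx.compat (Sym := Sym) y x →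
    (∀ v ∈ Ctx.vars Sym y, v ≤ B) → f y ≤ (B + 2) ^ c := by
  obtain ⟨e, c, h⟩ := LS_nat_iff.1 hf
  refine ⟨c, fun y x B h1 h2 => ?_⟩
  obtain ⟨g1, g2⟩ := h y x [] B h1 h2
  rw [← g1]; exact Exp.eval_le x _ _ g2

/-- Iteration with a semantic bound on all intermediate values. -/
theorem LS.iter_of_bound {B n a : α → ℕ} {f : α → ℕ → ℕ → ℕ} (hB : LS Sym B) (hn : LS Sym n)
    (ha : LS Sym a) (hf : LS Sym (fun p : α × ℕ × ℕ => f p.1 p.2.1 p.2.2))
    (hb : ∀ y, ∀ j ≤ n y, iter j (a y) (f y) ≤ B y) :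
    LS Sym (fun y => iter (n y) (a y) (f y)) := by
  obtain ⟨c, hc⟩ := hB.poly
  exact LS.iter_of_poly hn ha hf c (fun y x B' h1 h2 j hj => (hb y j hj).trans (hc y x B' h1 h2))

theorem iter_succ_eq (n a : ℕ) : iter n a (fun _ acc => acc + 1) = a + n := by
  induction n with
  | zero => rfl
  | succ n ih => rw [iter_succ, ih]; rfl

@[fun_prop] theorem LS.add {f g : α → ℕ} (hf : LS Sym f) (hg : LS Sym g) :
    LS Sym (fun a => f a + g a) := by
  obtain ⟨c, hc⟩ := hf.poly
  obtain ⟨d, hd⟩ := hg.poly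
  have := LS.iter_of_poly (f := fun _ _ acc => acc + 1) hg hf (LS.succ (by fun_prop)) (c + d + 1)
    (fun y x B h1 h2 j hj => by
      rw [iter_succ_eq]
      have h3 := (hc y x B h1 h2).trans (pow_mono' B (show c ≤ c + d by omega))
      have h4 := (hd y x B h1 h2).trans (pow_mono' B (show d ≤ c + d by omega))
      rw [pow_succ]; nlinarith)
  simpa only [iter_succ_eq] using this

theorem iter_add_eq (n a : ℕ) : iter n 0 (fun _ acc => acc + a) = a * n := by
  induction n with
  | zero => rfl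
  | succ n ih => rw [iter_succ, ih]; rfl

@[fun_prop] theorem LS.mul {f g : α → ℕ} (hf : LS Sym f) (hg : LS Sym g) :
    LS Sym (fun a => f a * g a) := by
  obtain ⟨c, hc⟩ := hf.poly
  obtain ⟨d, hd⟩ := hg.poly
  have := LS.iter_of_poly (a := fun _ => 0) (f := fun y _ acc => acc + f y) hg (by fun_prop)
    (by fun_prop) (c + d) (fun y x B h1 h2 j hj => by
      rw [iter_add_eq, pow_add]
      exact Nat.mul_le_mul (hc y x B h1 h2) (hj.trans (hd y x B h1 h2)))
  simpa only [iter_add_eq] using this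

theorem iter_pred_eq (n : ℕ) : iter n 0 (fun i _ => i) = n - 1 := by
  cases n <;> rfl

theorem LS.pred {f : α → ℕ} (hf : LS Sym f) : LS Sym (fun a => f a - 1) := by
  have := LS.iter_of_bound (a := fun _ => 0) (f := fun _ i _ => i) hf hf (by fun_prop)
    (by fun_prop) (fun y j hj => by rw [iter_pred_eq]; omega)
  simpa only [iter_pred_eq] using this

theorem iter_sub_eq (n a : ℕ) : iter n a (fun _ acc => acc - 1) = a - n := by
  induction n with
  | zero => rfl
  | succ n ih => rw [iter_succ, ih]; rfl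

@[fun_prop] theorem LS.sub {f g : α → ℕ} (hf : LS Sym f) (hg : LS Sym g) :
    LS Sym (fun a => f a - g a) := by
  have := LS.iter_of_bound (f := fun _ _ acc => acc - 1) hf hg hf (LS.pred (by fun_prop))
    (fun y j hj => by rw [iter_sub_eq]; omega)
  simpa only [iter_sub_eq] using this

@[fun_prop] theorem LS.min {f g : α → ℕ} (hf : LS Sym f) (hg : LS Sym g) :
    LS Sym (fun a => min (f a) (g a)) := by
  have : LS Sym (fun a => f a - (f a - g a)) := by fun_prop
  convert this using 2 with a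
  omega

@[fun_prop] theorem LS.max {f g : α → ℕ} (hf : LS Sym f) (hg : LS Sym g) :
    LS Sym (fun a => max (f a) (g a)) := by
  have : LS Sym (fun a => f a + (g a - f a)) := by fun_prop
  convert this using 2 with a
  omega

@[fun_prop] theorem LS.lt {f g : α → ℕ} (hf : LS Sym f) (hg : LS Sym g) :
    LS Sym (fun a => f a < g a) := by
  rw [LS_prop_iff]
  have : LS Sym (fun a => 1 - (1 - (g a - f a))) := by fun_prop
  convert this using 2 with a
  split_ifs <;> omega

@[fun_prop] theorem LS.le {f g : α → ℕ} (hf : LS Sym f) (hg : LS Sym g) :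
    LS Sym (fun a => f a ≤ g a) := by
  rw [LS_prop_iff]
  have : LS Sym (fun a => 1 - (f a - g a)) := by fun_prop
  convert this using 2 with a
  split_ifs <;> omega

@[fun_prop] theorem LS.eq {f g : α → ℕ} (hf : LS Sym f) (hg : LS Sym g) :
    LS Sym (fun a => f a = g a) := by
  rw [LS_prop_iff]
  have : LS Sym (fun a => 1 - ((f a - g a) + (g a - f a))) := by fun_prop
  convert this using 2 with a
  split_ifs <;> omega

@[fun_prop] theorem LS.and {f g : α → Prop} (hf : LS Sym f) (hg : LS Sym g) :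
    LS Sym (fun a => f a ∧ g a) := by
  rw [LS_prop_iff] at *
  convert LS.mul hf hg using 2 with a
  by_cases h1 : f a <;> by_cases h2 : g a <;> simp [h1, h2]

@[fun_prop] theorem LS.or {f g : α → Prop} (hf : LS Sym f) (hg : LS Sym g) :
    LS Sym (fun a => f a ∨ g a) := by
  rw [LS_prop_iff] at *
  convert LS.max hf hg using 2 with a
  by_cases h1 : f a <;> by_cases h2 : g a <;> simp [h1, h2]

@[fun_prop] theorem LS.not {f : α → Prop} (hf : LS Sym f) : LS Sym (fun a => ¬ f a) := by
  rw [LS_prop_iff] at *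
  convert LS.sub (LS.const_nat 1) hf using 2 with a
  by_cases h1 : f a <;> simp [h1]

@[fun_prop] theorem LS.ne {f g : α → ℕ} (hf : LS Sym f) (hg : LS Sym g) :
    LS Sym (fun a => f a ≠ g a) := LS.not (LS.eq hf hg)

@[fun_prop] theorem LS.ite {p : α → Prop} {inst : ∀ a, Decidable (p a)} {f g : α → ℕ}
    (hp : LS Sym p) (hf : LS Sym f) (hg : LS Sym g) :
    LS Sym (fun a => @ite ℕ (p a) (inst a) (f a) (g a)) := by
  rw [LS_prop_iff] at hp
  convert LS.add (LS.mul hp hf) (LS.mul (LS.sub (LS.const_nat 1) hp) hg) using 2 with a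
  by_cases h1 : p a <;> simp [h1]

/-- Clamped iteration. -/
def citer (B n a : ℕ) (f : ℕ → ℕ → ℕ) : ℕ := iter n a (fun i acc => min B (f i acc))

@[fun_prop] theorem LS.citer {B n a : α → ℕ} {f : α → ℕ → ℕ → ℕ} (hB : LS Sym B) (hn : LS Sym n)
    (ha : LS Sym a) (hf : LS Sym (fun p : α × ℕ × ℕ => f p.1 p.2.1 p.2.2)) :
    LS Sym (fun y => citer (B y) (n y) (a y) (f y)) := by
  apply LS.iter_of_bound (B := fun y => a y + B y) (f := fun y i acc => Min.min (B y) (f y i acc))
    (by fun_prop) hn ha (by fun_prop)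
  intro y j _
  cases j with
  | zero => simp
  | succ j => rw [iter_succ]; omega

theorem citer_div (a b n : ℕ) (hn : n ≤ a) :
    citer a n 0 (fun i acc => if (i + 1) * b ≤ a then i + 1 else acc) =
      if b = 0 then n else min n (a / b) := by
  induction n with
  | zero => simp [citer]
  | succ n ih =>
    have h1 := ih (by omega)
    unfold citer at *
    rw [iter_succ, h1]
    by_cases hb : b = 0
    · subst hb; simp; omega
    · have h2 : (n + 1) * b ≤ a ↔ n + 1 ≤ a / b := (Nat.le_div_iff_mul_le (by omega)).symm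
      simp only [hb, if_false, h2]
      split_ifs <;> omega

@[fun_prop] theorem LS.div {f g : α → ℕ} (hf : LS Sym f) (hg : LS Sym g) :
    LS Sym (fun a => f a / g a) := by
  have : LS Sym (fun a => if g a = 0 then 0 else Vale.Agent.P312.citer (f a) (f a) 0
      (fun i acc => if (i + 1) * g a ≤ f a then i + 1 else acc)) := by fun_prop
  convert this using 2 with a
  rw [citer_div _ _ _ le_rfl]
  split_ifs with h
  · simp [h]
  · exact (min_eq_right (Nat.div_le_self _ _)).symm

@[fun_prop] theorem LS.mod {f g : α → ℕ} (hf : LS Sym f) (hg : LS Sym g) :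
    LS Sym (fun a => f a % g a) := by
  have : LS Sym (fun a => f a - g a * (f a / g a)) := by fun_prop
  convert this using 2 with a
  exact Nat.mod_def _ _

/-- Clamped power. -/
def cpow (N a i : ℕ) : ℕ := min N (a ^ i)

theorem citer_pow (N a i : ℕ) : min N (citer N i 1 (fun _ acc => acc * a)) = cpow N a i := by
  unfold cpow citer
  induction i with
  | zero => rfl
  | succ i ih =>
    rw [iter_succ, pow_succ, ← min_assoc, min_self]
    generalize iter i 1 (fun _ acc => Min.min N (acc * a)) = u at *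
    rcases Nat.eq_zero_or_pos a with h | h
    · simp [h]
    · rcases le_total N u with h1 | h1
      · have h2 : N ≤ a ^ i := by omega
        rw [min_eq_left (h1.trans (Nat.le_mul_of_pos_right _ h)),
          min_eq_left (h2.trans (Nat.le_mul_of_pos_right _ h))]
      · rcases le_total N (a ^ i) with h2 | h2
        · have h3 : u = N := by omega
          rw [h3, min_eq_left (Nat.le_mul_of_pos_right _ h),
            min_eq_left (h2.trans (Nat.le_mul_of_pos_right _ h))]
        · have h3 : u = a ^ i := by omega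
          rw [h3]

@[fun_prop] theorem LS.cpow {N a i : α → ℕ} (hN : LS Sym N) (ha : LS Sym a) (hi : LS Sym i) :
    LS Sym (fun y => cpow (N y) (a y) (i y)) := by
  simp only [← citer_pow]
  fun_prop

@[fun_prop] theorem LS.pair {f g : α → ℕ} (hf : LS Sym f) (hg : LS Sym g) :
    LS Sym (fun a => Nat.pair (f a) (g a)) := by
  unfold Nat.pair
  fun_prop

theorem citer_sqrt (a n : ℕ) (hn : n ≤ a) :
    citer a n 0 (fun i acc => if (i + 1) * (i + 1) ≤ a then i + 1 else acc) =
      min n (Nat.sqrt a) := by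
  induction n with
  | zero => simp [citer]
  | succ n ih =>
    have h1 := ih (by omega)
    unfold citer at *
    rw [iter_succ, h1]
    simp only [← Nat.le_sqrt]
    split_ifs <;> omega

@[fun_prop] theorem LS.sqrt {f : α → ℕ} (hf : LS Sym f) : LS Sym (fun a => Nat.sqrt (f a)) := by
  have : LS Sym (fun a => Vale.Agent.P312.citer (f a) (f a) 0
      (fun i acc => if (i + 1) * (i + 1) ≤ f a then i + 1 else acc)) := by fun_prop
  convert this using 2 with a
  rw [citer_sqrt _ _ le_rfl, min_eq_right (Nat.sqrt_le_self _)]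

@[fun_prop] theorem LS.unpair {f : α → ℕ} (hf : LS Sym f) :
    LS Sym (fun a => Nat.unpair (f a)) := by
  have : LS Sym (fun a =>
      ((if f a - Nat.sqrt (f a) * Nat.sqrt (f a) < Nat.sqrt (f a) then
        f a - Nat.sqrt (f a) * Nat.sqrt (f a) else Nat.sqrt (f a)),
      (if f a - Nat.sqrt (f a) * Nat.sqrt (f a) < Nat.sqrt (f a) then Nat.sqrt (f a)
        else f a - Nat.sqrt (f a) * Nat.sqrt (f a) - Nat.sqrt (f a)))) := by fun_prop
  convert this using 2 with a
  unfold Nat.unpair
  simp only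
  split_ifs <;> rfl

theorem citer_div_test (a n : ℕ) :
    citer 1 n 0 (fun i acc => if 2 ≤ i ∧ a % i = 0 then 1 else acc) = 0 ↔
      ∀ m, 2 ≤ m → m < n → ¬ m ∣ a := by
  induction n with
  | zero => simp [citer]
  | succ n ih =>
    unfold citer at *
    rw [iter_succ]
    by_cases h : 2 ≤ n ∧ a % n = 0
    · simp only [h, and_self, if_true]
      constructor
      · intro h1; simp at h1
      · intro h1; exact absurd (Nat.dvd_of_mod_eq_zero h.2) (h1 n h.1 (by omega))
    · simp only [h, if_false]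
      constructor
      · intro h1 m h2 h3
        rcases Nat.lt_or_ge m n with h4 | h4
        · refine ih.1 ?_ m h2 h4
          rcases min_eq_iff.1 h1 with h5 | h5
          · omega
          · exact h5.1
        · obtain rfl : m = n := by omega
          intro h5
          exact h ⟨h2, Nat.mod_eq_zero_of_dvd h5⟩
      · intro h1
        rw [ih.2 (fun m h2 h3 => h1 m h2 (by omega))]; rfl

@[fun_prop] theorem LS.prime {f : α → ℕ} (hf : LS Sym f) :
    LS Sym (fun a => Nat.Prime (f a)) := by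
  have : LS Sym (fun a => 2 ≤ f a ∧ Vale.Agent.P312.citer 1 (f a) 0
      (fun i acc => if 2 ≤ i ∧ f a % i = 0 then 1 else acc) = 0) := by fun_prop
  convert this using 2 with a
  rw [citer_div_test, Nat.prime_def_lt']

/-- A function with finite support. -/
theorem LS.table (g : ℕ → ℕ) (K : ℕ) (hg : ∀ n, K ≤ n → g n = 0) : LS Sym g := by
  have key : ∀ K, LS Sym (fun n => if n < K then g n else 0) := by
    intro K
    induction K with
    | zero => simpa using LS.const_nat (Sym := Sym) (α := ℕ) 0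
    | succ K ih =>
      have : LS Sym (fun n => if n = K then g K else (fun n => if n < K then g n else 0) n) :=
        LS.ite (by fun_prop) (by fun_prop) ih
      convert this using 2 with n
      by_cases h : n = K
      · simp [h]
      · simp only [h, if_false]
        split_ifs <;> first | rfl | omega
  convert key K using 2 with n
  split_ifs with h
  · rfl
  · exact hg n (by omega)

/-- A binary function with finite support. -/
theorem LS.table₂ (g : ℕ → ℕ → ℕ) (K : ℕ) (hg : ∀ m n, K ≤ m ∨ K ≤ n → g m n = 0) :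
    LS Sym (fun p : ℕ × ℕ => g p.1 p.2) := by
  have key : ∀ L, LS Sym (fun p : ℕ × ℕ => if p.1 < L then g p.1 p.2 else 0) := by
    intro L
    induction L with
    | zero => simpa using LS.const_nat (Sym := Sym) (α := ℕ × ℕ) 0
    | succ L ih =>
      have h1 := LS.table (Sym := Sym) (g L) K (fun n hn => hg L n (Or.inr hn))
      have : LS Sym (fun p : ℕ × ℕ => if p.1 = L then g L p.2 else
          (fun p : ℕ × ℕ => if p.1 < L then g p.1 p.2 else 0) p) :=
        LS.ite (by fun_prop) (LS.comp' h1 LS.snd') ih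
      convert this using 2 with p
      by_cases h : p.1 = L
      · simp [h]
      · simp only [h, if_false]
        split_ifs <;> first | rfl | omega
  convert key K using 2 with p
  split_ifs with h
  · rfl
  · exact hg _ _ (Or.inl (by omega))

/-- Reading the input tape. -/
def rd (h : InSym Sym → ℕ) (x : List Sym) (i : ℕ) : ℕ := h (readIn x i)

theorem LS.test (P : InSym Sym → Bool) :
    LS Sym (fun p : List Sym × ℕ => if P (readIn p.1 p.2) then 1 else 0) := by
  rw [LS_nat_iff]
  refine ⟨.test P .hd, 1, fun a x rest B h1 h2 => ?_⟩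
  obtain ⟨y, i⟩ := a
  obtain rfl : y = x := h1.1
  have : i ≤ B := h2 i (by simp [Ctx.vars])
  refine ⟨rfl, ?_, by simp⟩
  show i ≤ _
  rw [pow_one]; omega

theorem finite_InSym [Finite Sym] : Finite (InSym Sym) := by
  apply Finite.of_surjective (fun o : Option (Option Sym) =>
    match o with
    | none => InSym.lend
    | some none => InSym.rend
    | some (some a) => InSym.sym a)
  intro s
  cases s with
  | lend => exact ⟨none, rfl⟩
  | rend => exact ⟨some none, rfl⟩
  | sym a => exact ⟨some (some a), rfl⟩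

@[fun_prop] theorem LS.rd [Finite Sym] (h : InSym Sym → ℕ) {f : α → List Sym} {g : α → ℕ}
    (hf : LS Sym f) (hg : LS Sym g) : LS Sym (fun a => rd h (f a) (g a)) := by
  classical
  have := finite_InSym (Sym := Sym)
  have := Fintype.ofFinite (InSym Sym)
  have key : ∀ S : Finset (InSym Sym), LS Sym (fun p : List Sym × ℕ =>
      ∑ s ∈ S, h s * (if decide (readIn p.1 p.2 = s) then 1 else 0)) := by
    intro S
    induction S using Finset.induction_on with
    | empty => simpa using LS.const_nat (Sym := Sym) (α := List Sym × ℕ) 0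
    | insert s S hs ih =>
      simp only [Finset.sum_insert hs]
      exact LS.add (LS.mul (LS.const_nat _) (LS.test (fun u => decide (u = s)))) ih
  have h2 : LS Sym (fun p : List Sym × ℕ => Vale.Agent.P312.rd h p.1 p.2) := by
    convert key Finset.univ using 2 with p
    simp [Vale.Agent.P312.rd]
  exact LS.comp' (g := fun a => (f a, g a)) h2 (LS.mk hf hg)

end Vale.Agent.P312
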