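import Vale.Agent.P312.Tree
import Vale.Agent.P312.LSLib

/-! Flattening the call tree into bounded loops. -/

namespace Vale.Agent.P312

open Finset

section Flat

variable {A S : Type}

def faddr (δ : A → ℕ → A) (J d : ℕ) (a : A) (n e : ℕ) : A :=
  iter e a (fun i a => δ a (digit J n (d - 1 - i)))

def flat (J : ℕ) (δ : A → ℕ → A) (act : A → ℕ → S → S) (d : ℕ) (a : A) (R : S) : S :=
  iter (J ^ d) R (fun n R => iter d R (fun e R =>
    if n % J ^ (d - 1 - e) = 0 then act (faddr δ J d a n e) (digit J n (d - 1 - e)) R else R))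

theorem iter_succ' {β : Type} (n : ℕ) (a : β) (f : ℕ → β → β) :
    iter (n + 1) a f = iter n (f 0 a) (fun i => f (i + 1)) := by
  rw [add_comm, iter_add]
  simp only [add_comm 1]
  rfl

theorem iter_pre {β : Type} {n : ℕ} (hn : 0 < n) (a : β) (g : β → β) (f : ℕ → β → β) :
    iter n a (fun i R => f i (if i = 0 then g R else R)) = iter n (g a) f := by
  obtain ⟨m, rfl⟩ : ∃ m, n = m + 1 := ⟨n - 1, by omega⟩
  rw [iter_succ', iter_succ']
  simp

theorem flat_eq_run {J : ℕ} (hJ : 0 < J) (δ : A → ℕ → A) (act : A → ℕ → S → S) (d : ℕ) :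
    ∀ (a : A) (R : S), flat J δ act d a R = run J δ act d a R := by
  induction d with
  | zero => intro a R; rfl
  | succ d ih =>
    intro a R
    unfold flat
    rw [pow_succ', iter_mul]
    show _ = iter J R _
    apply iter_congr
    intro t ht R
    rw [← ih]
    unfold flat
    rw [← iter_pre (pow_pos hJ d)]
    apply iter_congr
    intro n hn R
    have e0 : digit J (t * J ^ d + n) d = t := by
      have := digit_add_mul_ge (B := J) (z := t) (i := 0) hn
      rw [add_comm n, add_zero] at this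
      rw [this, digit_zero, Nat.mod_eq_of_lt ht]
    have e1 : ∀ e < d, digit J (t * J ^ d + n) (d - 1 - e) = digit J n (d - 1 - e) := by
      intro e he
      rw [add_comm, digit_add_mul_lt (by omega)]
    rw [iter_succ']
    have e2 : (t * J ^ d + n) % J ^ d = n := by
      rw [add_comm, Nat.add_mul_mod_self_right, Nat.mod_eq_of_lt hn]
    simp only [Nat.add_sub_cancel, Nat.sub_zero, e0, e2]
    apply iter_congr
    intro e he R
    have e3 : d - (e + 1) = d - 1 - e := by omega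
    have e4 : (t * J ^ d + n) % J ^ (d - 1 - e) = n % J ^ (d - 1 - e) := by
      obtain ⟨k, hk⟩ : ∃ k, d = (d - 1 - e) + k := ⟨e + 1, by omega⟩
      have : t * J ^ d = t * J ^ k * J ^ (d - 1 - e) := by
        conv_lhs => rw [hk]
        ring
      rw [this, add_comm, Nat.add_mul_mod_self_right]
    have e5 : faddr δ J (d + 1) a (t * J ^ d + n) (e + 1) = faddr δ J d (δ a t) n e := by
      unfold faddr
      rw [iter_succ']
      simp only [Nat.add_sub_cancel, Nat.sub_zero, e0]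
      apply iter_congr
      intro i hi a'
      rw [show d - (i + 1) = d - 1 - i by omega, e1 i (by omega)]
    rw [e3, e4, e5, e1 e he]

/-- Simulation of one call tree by another. -/
theorem run_sim {A' S' : Type} (J : ℕ) (δ : A → ℕ → A) (act : A → ℕ → S → S)
    (δ' : A' → ℕ → A') (act' : A' → ℕ → S' → S') (enc : A → A') (dec : S' → S)
    (IA : A → Prop) (IS : S' → Prop)
    (h1 : ∀ a t, t < J → IA a → IA (δ a t) ∧ δ' (enc a) t = enc (δ a t))
    (h2 : ∀ a t R, t < J → IA a → IS R →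
      IS (act' (enc a) t R) ∧ dec (act' (enc a) t R) = act a t (dec R)) (d : ℕ) :
    ∀ a R, IA a → IS R →
      IS (run J δ' act' d (enc a) R) ∧ dec (run J δ' act' d (enc a) R) = run J δ act d a (dec R) := by
  induction d with
  | zero => intro a R _ hR; exact ⟨hR, rfl⟩
  | succ d ih =>
    intro a R ha hR
    have key : ∀ n ≤ J,
        IS (iter n R (fun t R => run J δ' act' d (δ' (enc a) t) (act' (enc a) t R))) ∧
        dec (iter n R (fun t R => run J δ' act' d (δ' (enc a) t) (act' (enc a) t R))) =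
          iter n (dec R) (fun t R => run J δ act d (δ a t) (act a t R)) := by
      intro n
      induction n with
      | zero => intro _; exact ⟨hR, rfl⟩
      | succ n ihn =>
        intro hn
        obtain ⟨g1, g2⟩ := ihn (by omega)
        rw [iter_succ, iter_succ]
        obtain ⟨g3, g4⟩ := h1 a n (by omega) ha
        obtain ⟨g5, g6⟩ := h2 a n _ (by omega) ha g1
        rw [g4]
        obtain ⟨g7, g8⟩ := ih _ _ g3 g5
        exact ⟨g7, by rw [g8, g6, g2]⟩
    exact key J le_rfl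

end Flat

section Clamped

theorem cpow_eq {N a i : ℕ} (h : a ^ i ≤ N) : cpow N a i = a ^ i := min_eq_right h

theorem citer_eq {N n a : ℕ} {f g : ℕ → ℕ → ℕ} (P : ℕ → Prop) (h0 : P a)
    (hN : ∀ R, P R → R ≤ N) (hP : ∀ i < n, ∀ R, P R → P (g i R))
    (h : ∀ i < n, ∀ R, P R → f i R = g i R) : citer N n a f = iter n a g := by
  unfold citer
  apply iter_congr_inv P h0 hP
  intro i hi R hR
  rw [h i hi R hR]
  exact min_eq_right (hN _ (hP i hi R hR))

/-- Clamped digit. -/
def cdig (N B y i : ℕ) : ℕ := y / cpow N B i % B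

theorem cdig_eq {N B y : ℕ} (i : ℕ) (hy : y < N) : cdig N B y i = digit B y i := by
  unfold cdig digit cpow
  rcases le_total N (B ^ i) with h | h
  · rw [min_eq_left h, Nat.div_eq_of_lt hy, Nat.div_eq_of_lt (by omega)]
  · rw [min_eq_right h]

/-- Clamped digit update. -/
def cset (N B y i a : ℕ) : ℕ := y - cdig N B y i * cpow N B i + a * cpow N B i

theorem cset_eq {N B y i : ℕ} (a : ℕ) (hy : y < N) (hi : B ^ i ≤ N) :
    cset N B y i a = setDigit B y i a := by
  unfold cset setDigit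
  rw [cdig_eq i hy, cpow_eq hi]

def caddr (N : ℕ) (δ : ℕ → ℕ → ℕ) (J d a n e : ℕ) : ℕ :=
  citer N e a (fun i a => δ a (cdig N J n (d - 1 - i)))

def cflat (N J : ℕ) (δ : ℕ → ℕ → ℕ) (act : ℕ → ℕ → ℕ → ℕ) (d a R : ℕ) : ℕ :=
  citer N (cpow N J d) R (fun n R => citer N d R (fun e R =>
    if n % cpow N J (d - 1 - e) = 0 then act (caddr N δ J d a n e) (cdig N J n (d - 1 - e)) R
    else R))

theorem cflat_eq {N J : ℕ} (hJ : 0 < J) (δ : ℕ → ℕ → ℕ) (act : ℕ → ℕ → ℕ → ℕ) (d a R : ℕ)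
    (IA IS : ℕ → Prop) (hd : J ^ d ≤ N) (hA : ∀ a, IA a → a ≤ N) (hS : ∀ R, IS R → R ≤ N)
    (h1 : ∀ a t, t < J → IA a → IA (δ a t))
    (h2 : ∀ a t R, t < J → IA a → IS R → IS (act a t R)) (ha : IA a) (hR : IS R) :
    cflat N J δ act d a R = run J δ act d a R := by
  rw [← flat_eq_run hJ]
  unfold cflat flat
  rw [cpow_eq hd]
  have hf : ∀ n e, IA (faddr δ J d a n e) := fun n e =>
    iter_inv IA ha (fun i _ a' ha' => h1 _ _ (digit_lt hJ _ _) ha')
  have hstep : ∀ n, ∀ e, ∀ R, IS R → IS (if n % J ^ (d - 1 - e) = 0 then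
      act (faddr δ J d a n e) (digit J n (d - 1 - e)) R else R) := by
    intro n e R hR
    split_ifs
    · exact h2 _ _ _ (digit_lt hJ _ _) (hf n e) hR
    · exact hR
  apply citer_eq IS hR hS
  · intro n _ R hR
    exact iter_inv IS hR (fun e _ R hR => hstep n e R hR)
  · intro n hn R hR
    apply citer_eq IS hR hS (fun e _ R hR => hstep n e R hR)
    intro e _ R _
    have e1 : cpow N J (d - 1 - e) = J ^ (d - 1 - e) :=
      cpow_eq ((Nat.pow_le_pow_right hJ (by omega)).trans hd)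
    have e2 : caddr N δ J d a n e = faddr δ J d a n e := by
      unfold caddr faddr
      apply citer_eq IA ha hA
      · intro i _ a' ha'; exact h1 _ _ (digit_lt hJ _ _) ha'
      · intro i _ a' _; rw [cdig_eq _ (by omega)]
    rw [e1, e2, cdig_eq _ (by omega)]

/-- Sum modulo `p`. -/
def csum (p n : ℕ) (f : ℕ → ℕ) : ℕ := citer p n 0 (fun i acc => (acc + f i) % p)

/-- Product modulo `p`. -/
def cprod (p n : ℕ) (f : ℕ → ℕ) : ℕ := citer p n 1 (fun i acc => acc * f i % p)

theorem csum_cast {p : ℕ} (hp : 0 < p) (n : ℕ) (f : ℕ → ℕ) :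
    ((csum p n f : ℕ) : ZMod p) = ∑ i ∈ range n, (f i : ZMod p) := by
  unfold csum citer
  induction n with
  | zero => simp
  | succ n ih =>
    rw [iter_succ, min_eq_right (Nat.mod_lt _ hp).le, ZMod.natCast_mod, Nat.cast_add, ih,
      sum_range_succ]

theorem cprod_cast {p : ℕ} (hp : 0 < p) (n : ℕ) (f : ℕ → ℕ) :
    ((cprod p n f : ℕ) : ZMod p) = ∏ i ∈ range n, (f i : ZMod p) := by
  unfold cprod citer
  induction n with
  | zero => simp
  | succ n ih =>
    rw [iter_succ, min_eq_right (Nat.mod_lt _ hp).le, ZMod.natCast_mod, Nat.cast_mul, ih,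
      prod_range_succ]

/-- Negation modulo `p`. -/
def cneg (p a : ℕ) : ℕ := p - a % p

theorem cneg_cast {p : ℕ} (hp : 0 < p) (a : ℕ) : ((cneg p a : ℕ) : ZMod p) = - (a : ZMod p) := by
  unfold cneg
  rw [Nat.cast_sub (Nat.mod_lt _ hp).le, ZMod.natCast_self, ZMod.natCast_mod, zero_sub]

/-- Inverse modulo a prime `p > 2`. -/
def cinv (p a : ℕ) : ℕ := cprod p (p - 2) (fun _ => a)

theorem cinv_cast {p : ℕ} [hp : Fact p.Prime] (h2 : 2 < p) (a : ℕ) :
    ((cinv p a : ℕ) : ZMod p) = (a : ZMod p)⁻¹ := by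
  unfold cinv
  rw [cprod_cast hp.out.pos, prod_const, card_range]
  by_cases h : (a : ZMod p) = 0
  · rw [h, inv_zero, zero_pow (by omega)]
  · have := ZMod.pow_card_sub_one_eq_one h
    rw [show p - 1 = (p - 2) + 1 by omega, pow_succ] at this
    exact eq_inv_of_mul_eq_one_left this

def clag (p V z y : ℕ) : ℕ :=
  cprod p V (fun z' => if z' = z then 1 else (y + cneg p z') * cinv p (z + cneg p z'))

theorem clag_cast {p : ℕ} [hp : Fact p.Prime] (h2 : 2 < p) (V z y : ℕ) :
    ((clag p V z y : ℕ) : ZMod p) = lag V z (y : ZMod p) := by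
  unfold clag lag
  rw [cprod_cast hp.out.pos]
  refine prod_congr rfl (fun z' _ => ?_)
  split_ifs
  · simp
  · rw [Nat.cast_mul, cinv_cast h2, Nat.cast_add, Nat.cast_add, cneg_cast hp.out.pos,
      sub_eq_add_neg, sub_eq_add_neg]

def clde (N p V n : ℕ) (reg φ : ℕ → ℕ) : ℕ :=
  csum p (cpow N V n) (fun z => φ z * cprod p n (fun i => clag p V (cdig N V z i) (reg i)))

theorem clde_cast {p : ℕ} [hp : Fact p.Prime] (h2 : 2 < p) {N V n : ℕ} (hN : V ^ n ≤ N)
    (reg φ φ' : ℕ → ℕ) (reg' : ℕ → ZMod p) (hφ : ∀ z < V ^ n, φ z = φ' z)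
    (hr : ∀ i < n, (reg i : ZMod p) = reg' i) :
    ((clde N p V n reg φ : ℕ) : ZMod p) = lde V n reg' φ' := by
  unfold clde lde
  rw [csum_cast hp.out.pos, cpow_eq hN]
  refine sum_congr rfl (fun z hz => ?_)
  have hz := mem_range.1 hz
  rw [Nat.cast_mul, hφ z hz, cprod_cast hp.out.pos]
  congr 1
  refine prod_congr rfl (fun i hi => ?_)
  rw [clag_cast h2, cdig_eq _ (by omega), hr i (mem_range.1 hi)]

end Clamped

section LSfacts

variable {Sym : Type} {α : Type} [Ctx Sym α]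

@[fun_prop] theorem LS.cdig {N B y i : α → ℕ} (hN : LS Sym N) (hB : LS Sym B) (hy : LS Sym y)
    (hi : LS Sym i) : LS Sym (fun a => cdig (N a) (B a) (y a) (i a)) := by
  unfold Vale.Agent.P312.cdig; fun_prop

@[fun_prop] theorem LS.cset {N B y i v : α → ℕ} (hN : LS Sym N) (hB : LS Sym B) (hy : LS Sym y)
    (hi : LS Sym i) (hv : LS Sym v) : LS Sym (fun a => cset (N a) (B a) (y a) (i a) (v a)) := by
  unfold Vale.Agent.P312.cset; fun_prop

@[fun_prop] theorem LS.caddr {N J d a n e : α → ℕ} {δ : α → ℕ → ℕ → ℕ} (hN : LS Sym N)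
    (hδ : LS Sym (fun q : α × ℕ × ℕ => δ q.1 q.2.1 q.2.2)) (hJ : LS Sym J) (hd : LS Sym d)
    (ha : LS Sym a) (hn : LS Sym n) (he : LS Sym e) :
    LS Sym (fun y => caddr (N y) (δ y) (J y) (d y) (a y) (n y) (e y)) := by
  unfold Vale.Agent.P312.caddr; fun_prop

@[fun_prop] theorem LS.cflat {N J d a R : α → ℕ} {δ : α → ℕ → ℕ → ℕ} {act : α → ℕ → ℕ → ℕ → ℕ}
    (hN : LS Sym N) (hJ : LS Sym J)
    (hδ : LS Sym (fun q : α × ℕ × ℕ => δ q.1 q.2.1 q.2.2))
    (hact : LS Sym (fun q : α × ℕ × ℕ × ℕ => act q.1 q.2.1 q.2.2.1 q.2.2.2)) (hd : LS Sym d)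
    (ha : LS Sym a) (hR : LS Sym R) :
    LS Sym (fun y => cflat (N y) (J y) (δ y) (act y) (d y) (a y) (R y)) := by
  unfold Vale.Agent.P312.cflat; fun_prop

@[fun_prop] theorem LS.csum {p n : α → ℕ} {f : α → ℕ → ℕ} (hp : LS Sym p) (hn : LS Sym n)
    (hf : LS Sym (fun q : α × ℕ => f q.1 q.2)) : LS Sym (fun y => csum (p y) (n y) (f y)) := by
  unfold Vale.Agent.P312.csum; fun_prop

@[fun_prop] theorem LS.cprod {p n : α → ℕ} {f : α → ℕ → ℕ} (hp : LS Sym p) (hn : LS Sym n)
    (hf : LS Sym (fun q : α × ℕ => f q.1 q.2)) : LS Sym (fun y => cprod (p y) (n y) (f y)) := by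
  unfold Vale.Agent.P312.cprod; fun_prop

@[fun_prop] theorem LS.cneg {p a : α → ℕ} (hp : LS Sym p) (ha : LS Sym a) :
    LS Sym (fun y => cneg (p y) (a y)) := by
  unfold Vale.Agent.P312.cneg; fun_prop

@[fun_prop] theorem LS.cinv {p a : α → ℕ} (hp : LS Sym p) (ha : LS Sym a) :
    LS Sym (fun y => cinv (p y) (a y)) := by
  unfold Vale.Agent.P312.cinv; fun_prop

@[fun_prop] theorem LS.clag {p V z u : α → ℕ} (hp : LS Sym p) (hV : LS Sym V) (hz : LS Sym z)
    (hu : LS Sym u) : LS Sym (fun y => clag (p y) (V y) (z y) (u y)) := by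
  unfold Vale.Agent.P312.clag; fun_prop

@[fun_prop] theorem LS.clde {N p V n : α → ℕ} {reg φ : α → ℕ → ℕ} (hN : LS Sym N) (hp : LS Sym p)
    (hV : LS Sym V) (hn : LS Sym n) (hr : LS Sym (fun q : α × ℕ => reg q.1 q.2))
    (hφ : LS Sym (fun q : α × ℕ => φ q.1 q.2)) :
    LS Sym (fun y => clde (N y) (p y) (V y) (n y) (reg y) (φ y)) := by
  unfold Vale.Agent.P312.clde; fun_prop

end LSfacts

end Vale.Agent.P312
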