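import Vale.Agent.P312.Prog

/-! The class `LS` of functions computable with polynomially bounded intermediate values
(that is, in linear space). -/

namespace Vale.Agent.P312

/-- A type whose elements are tuples of naturals (of fixed length), possibly together with
the input word. -/
class Ctx (Sym : Type) (α : Type) where
  len : ℕ
  vars : α → List ℕ
  vars_len : ∀ a, (vars a).length = len
  compat : α → List Sym → Prop

instance ctxNat (Sym : Type) : Ctx Sym ℕ where
  len := 1
  vars := fun n => [n]
  vars_len := fun _ => rfl
  compat := fun _ _ => True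

open Classical in
noncomputable instance ctxProp (Sym : Type) : Ctx Sym Prop where
  len := 1
  vars := fun p => [if p then 1 else 0]
  vars_len := fun _ => rfl
  compat := fun _ _ => True

instance ctxInp (Sym : Type) : Ctx Sym (List Sym) where
  len := 0
  vars := fun _ => []
  vars_len := fun _ => rfl
  compat := fun a x => a = x

instance ctxProd (Sym : Type) (α β : Type) [Ctx Sym α] [Ctx Sym β] : Ctx Sym (α × β) where
  len := Ctx.len Sym α + Ctx.len Sym β
  vars := fun p => Ctx.vars Sym p.1 ++ Ctx.vars Sym p.2
  vars_len := fun p => by simp [Ctx.vars_len]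
  compat := fun p x => Ctx.compat p.1 x ∧ Ctx.compat p.2 x

/-- `f : α → ℕ` is computed by an expression whose intermediate values are polynomially
bounded in the variables. -/
def LS0 (Sym : Type) {α : Type} [Ctx Sym α] (f : α → ℕ) : Prop :=
  ∃ (e : Exp Sym) (c : ℕ), ∀ (a : α) (x : List Sym) (rest : List ℕ) (B : ℕ),
    Ctx.compat a x → (∀ v ∈ Ctx.vars Sym a, v ≤ B) →
      e.eval x (Ctx.vars Sym a ++ rest) = f a ∧ e.Bnd x ((B + 2) ^ c) (Ctx.vars Sym a ++ rest)

/-- `f : α → β` keeps the input word and every variable of `f a` is `LS0`. -/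
@[fun_prop]
def LS (Sym : Type) {α β : Type} [Ctx Sym α] [Ctx Sym β] (f : α → β) : Prop :=
  (∀ (a : α) (x : List Sym), Ctx.compat a x → Ctx.compat (f a) x) ∧
    ∀ i < Ctx.len Sym β, LS0 Sym (fun a => (Ctx.vars Sym (f a)).getD i 0)

end Vale.Agent.P312
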