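import Vale.Agent.P312.Top

/-! Choice of parameters and the asymptotic bound. -/

namespace Vale.Agent.P312

variable {Sym : Type}

theorem exists_l (m : NM Sym) (t : ℕ) : ∃ l, t < l * (l * l) * m.wid l := by
  refine ⟨t + 1, ?_⟩
  have h1 : 1 ≤ (t + 1) * (t + 1) := Nat.mul_pos (by omega) (by omega)
  have h2 : 1 ≤ m.wid (t + 1) := Nat.mul_pos h1 (by omega)
  calc t < (t + 1) * 1 * 1 := by omega
    _ ≤ _ := Nat.mul_le_mul (Nat.mul_le_mul_left _ h1) h2

/-- The size of the search bound. -/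
theorem log_N_le (m : NM Sym) : ∃ c : ℕ, ∀ l, 1 ≤ l →
    Nat.log 2 (m.PP l ^ (16 * (2 * (l * l) + (l * l + 1) + l)) + 1 + 2) + 1 ≤
      c * (l * l * (Nat.log 2 l + 1)) := by
  refine ⟨80 * (6 + (Nat.log 2 (80 * m.q * m.g) + 1)) + 3, fun l hl => ?_⟩
  obtain ⟨f1, -, f3, -⟩ := m.param_facts hl
  set a := Nat.log 2 l + 1 with ha
  set c := Nat.log 2 (80 * m.q * m.g) + 1 with hc
  have h1 : l < 2 ^ a := Nat.lt_pow_succ_log_self (by omega) l
  have h2 : 80 * m.q * m.g < 2 ^ c := Nat.lt_pow_succ_log_self (by omega) _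
  have hq := m.q_pos
  have hg := m.g_pos
  have hll : 1 ≤ l * l := Nat.mul_pos hl hl
  have hlll : 1 ≤ l * (l * l) := Nat.mul_pos hl hll
  have h3 : m.PP l ≤ 80 * m.q * m.g * l ^ 6 := by
    have e1 : m.VV l ≤ 12 * (l * (l * l)) * m.q * m.g := by
      unfold NM.VV
      exact Nat.mul_le_mul_right _ (Nat.mul_le_mul_right _ (by omega))
    have e2 : l * ((l * l + l * l + 1) * m.VV l) ≤
        l * ((3 * (l * l)) * (12 * (l * (l * l)) * m.q * m.g)) :=
      Nat.mul_le_mul_left _ (Nat.mul_le_mul (by omega) e1)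
    have e3 : l * ((3 * (l * l)) * (12 * (l * (l * l)) * m.q * m.g)) = 36 * (m.q * m.g * l ^ 6) := by
      ring
    have e4 : 1 ≤ m.q * m.g * l ^ 6 := Nat.mul_pos (Nat.mul_pos hq (by omega)) (pow_pos hl _)
    have e5 : 80 * m.q * m.g * l ^ 6 = 80 * (m.q * m.g * l ^ 6) := by ring
    omega
  have h4 : m.PP l ≤ 2 ^ (c + 6 * a) := by
    calc _ ≤ 80 * m.q * m.g * l ^ 6 := h3
      _ ≤ 2 ^ c * (2 ^ a) ^ 6 := Nat.mul_le_mul h2.le (Nat.pow_le_pow_left h1.le _)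
      _ = _ := by rw [← pow_mul, ← pow_add, mul_comm a]
  set e := 16 * (2 * (l * l) + (l * l + 1) + l) with he
  have hl2 : l ≤ l * l := Nat.le_mul_self l
  have h5 : e ≤ 80 * (l * l) := by omega
  have h6 : m.PP l ^ e + 1 + 2 < 2 ^ ((c + 6 * a) * e + 3) := by
    have : m.PP l ^ e ≤ 2 ^ ((c + 6 * a) * e) := by
      rw [pow_mul 2]; exact Nat.pow_le_pow_left h4 _
    have h7 : 1 ≤ 2 ^ ((c + 6 * a) * e) := Nat.one_le_two_pow
    rw [pow_add]; omega
  have h7 := Nat.log_lt_of_lt_pow (by omega) h6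
  have ha1 : 1 ≤ a := by omega
  have h8 : (c + 6 * a) * e ≤ (c * a + 6 * a) * (80 * (l * l)) :=
    Nat.mul_le_mul (by have := Nat.le_mul_of_pos_right c ha1; omega) h5
  have h9 : 1 ≤ l * l * a := Nat.mul_pos hll ha1
  have h10 : (80 * (6 + c) + 3) * (l * l * a) = (c * a + 6 * a) * (80 * (l * l)) + 3 * (l * l * a) := by
    ring
  omega

theorem log2_le_log (g l : ℕ) (hg : 2 ≤ g) :
    Nat.log 2 (l + 1) + 1 ≤ (Nat.log 2 g + 2) * (Nat.log g l + 1) := by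
  set u := Nat.log g l + 1 with hu
  have h1 : l < g ^ u := Nat.lt_pow_succ_log_self (by omega) l
  have h2 : g < 2 ^ (Nat.log 2 g + 1) := Nat.lt_pow_succ_log_self (by omega) g
  have h3 : l + 1 ≤ 2 ^ ((Nat.log 2 g + 1) * u) := by
    rw [pow_mul]; exact (Nat.succ_le_of_lt h1).trans (Nat.pow_le_pow_left h2.le _)
  have h4 : Nat.log 2 (l + 1) ≤ (Nat.log 2 g + 1) * u := by
    calc _ ≤ Nat.log 2 (2 ^ ((Nat.log 2 g + 1) * u)) := Nat.log_mono_right h3
      _ = _ := Nat.log_pow (by omega) _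
  have h5 : (Nat.log 2 g + 2) * u = (Nat.log 2 g + 1) * u + u := by ring
  omega

theorem real_bound {l u t : ℕ} (ht : 2 ≤ t) (h1 : l * (l * l) * (l * l * u) ≤ t)
    (h2 : u ≤ Nat.log 2 t + 1) :
    ((l * l * u : ℕ) : ℝ) ≤ 2 * ((t : ℝ) ^ (2 / 5 : ℝ) * Real.log t ^ (3 / 5 : ℝ)) := by
  have ht0 : (0 : ℝ) < t := by exact_mod_cast (by omega : 0 < t)
  have hlog2 : (0.69 : ℝ) < Real.log 2 := by have := Real.log_two_gt_d9; linarith
  have hlt : Real.log 2 ≤ Real.log t := Real.log_le_log (by norm_num) (by exact_mod_cast ht)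
  have hl0 : 0 ≤ Real.log t := by linarith
  have h3 : (Nat.log 2 t : ℝ) * Real.log 2 ≤ Real.log t := by
    rw [← Real.log_pow]
    apply Real.log_le_log (by positivity)
    exact_mod_cast Nat.pow_log_le_self 2 (show t ≠ 0 by omega)
  have h4 : (u : ℝ) ≤ 3 * Real.log t := by
    have : (u : ℝ) ≤ Nat.log 2 t + 1 := by exact_mod_cast h2
    have h5 : (0 : ℝ) ≤ Nat.log 2 t := Nat.cast_nonneg _
    nlinarith
  apply le_of_pow_le_pow_left₀ (n := 5) (by omega) (by positivity)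
  rw [mul_pow, mul_pow, ← Real.rpow_natCast ((t : ℝ) ^ (2 / 5 : ℝ)), ← Real.rpow_mul ht0.le,
    ← Real.rpow_natCast (Real.log t ^ (3 / 5 : ℝ)), ← Real.rpow_mul hl0]
  norm_num
  have h6 : ((l : ℝ) * (l * l) * (l * l * u)) ≤ t := by exact_mod_cast h1
  have hu0 : (0 : ℝ) ≤ u := Nat.cast_nonneg _
  calc ((l : ℝ) * l * u) ^ 5 = ((l : ℝ) * (l * l) * (l * l * u)) ^ 2 * u ^ 3 := by ring
    _ ≤ (t : ℝ) ^ 2 * (3 * Real.log t) ^ 3 := by gcongr
    _ = 27 * ((t : ℝ) ^ 2 * Real.log t ^ 3) := by ring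
    _ ≤ 32 * ((t : ℝ) ^ 2 * Real.log t ^ 3) := by gcongr; norm_num

theorem main_log [Finite Sym] (t : ℕ → ℕ) (ht : ∀ n, n ≤ t n) :
    TIME₁ Sym t ⊆ SPACE Sym (fun n => (t n : ℝ) ^ (2 / 5 : ℝ) * Real.log (t n) ^ (3 / 5 : ℝ)) := by
  rintro L ⟨Γ, Q, _, _, M, hM⟩
  obtain ⟨m, hm⟩ := exists_NM M
  have hres : ∀ x : List Sym, m.res x (t x.length) ≠ 0 ∧ (m.res x (t x.length) = 2 ↔ x ∈ L) := by
    intro x
    by_cases hx : x ∈ L
    · have := (hm x _).1.1 ((hM x).1 hx)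
      simp [this, hx]
    · have := (hm x _).2.1 ((hM x).2 hx)
      simp [this, hx]
  classical
  set ll : ℕ → ℕ := fun n => Nat.find (exists_l m (t n)) with hll
  obtain ⟨k, Γ', Q', i1, i2, M', C, hM'⟩ := machine_of_LS (fun a : List Sym × ℕ => m.FF a.1 a.2)
    (LS.FF m) L
    (fun x => m.PP (ll x.length) ^ (16 * (2 * (ll x.length * ll x.length) +
      (ll x.length * ll x.length + 1) + ll x.length)) + 1)
    (fun x N h => by
      obtain ⟨τ, hτ⟩ := m.FF_sound x h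
      have := m.res_stable x (τ := τ) (τ' := t x.length) (by rw [hτ]; exact h) (hres x).1
      show m.FF x N = 2 ↔ _
      rw [← hτ, this]; exact (hres x).2)
    (fun x => ⟨by omega, m.FF_complete x (hres x).1 (Nat.find_spec (exists_l m (t x.length)))⟩)
  obtain ⟨c, hc⟩ := log_N_le m
  refine ⟨k, Γ', Q', i1, i2, M', fun x => (hM' x).1,
    ((C * c * 4 * (Nat.log 2 m.g + 2) : ℕ) : ℝ) * 2, 2, fun x hx τ => ?_⟩
  have h2t : 2 ≤ t x.length := hx.trans (ht _)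
  have hspec : t x.length < ll x.length * (ll x.length * ll x.length) * m.wid (ll x.length) :=
    Nat.find_spec (exists_l m (t x.length))
  have hmin : ∀ l < ll x.length, l * (l * l) * m.wid l ≤ t x.length := fun l hl =>
    not_lt.1 (Nat.find_min (exists_l m (t x.length)) hl)
  have hcells := (hM' x).2 τ
  generalize ll x.length = l at *
  have hl2 : 2 ≤ l := by
    by_contra hc'
    obtain rfl | rfl : l = 0 ∨ l = 1 := by omega
    · simp at hspec
    · simp [NM.wid, clog_eq m.g_pos] at hspec; omega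
  obtain ⟨l', rfl⟩ : ∃ l', l = l' + 1 := ⟨l - 1, by omega⟩
  have h1 := hmin l' (by omega)
  unfold NM.wid at h1
  rw [clog_eq m.g_pos] at h1
  set u := Nat.log m.g l' + 1 with hu
  have hl1 : 1 ≤ l' := by omega
  have hl't : l' ≤ t x.length := by
    calc l' = l' * 1 * 1 := by ring
      _ ≤ _ := (Nat.mul_le_mul (Nat.mul_le_mul_left _ (Nat.mul_pos hl1 hl1))
          (Nat.mul_pos (Nat.mul_pos hl1 hl1) (by omega))).trans h1
  have h2 : u ≤ Nat.log 2 (t x.length) + 1 := by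
    have := Nat.log_anti_left (n := l') (by omega : 1 < 2) m.g_pos
    have := Nat.log_mono_right (b := 2) hl't
    omega
  have h3 := real_bound h2t h1 h2
  have h4 := hc (l' + 1) (by omega)
  have h5 := log2_le_log m.g l' m.g_pos
  have h6 : (l' + 1) * (l' + 1) ≤ 4 * (l' * l') := by nlinarith
  have h7 : M'.cells x τ ≤ C * c * 4 * (Nat.log 2 m.g + 2) * (l' * l' * u) := by
    calc M'.cells x τ ≤ C * (_ + 1) := by rw [Nat.mul_succ]; exact hcells
      _ ≤ C * (c * ((l' + 1) * (l' + 1) * (Nat.log 2 (l' + 1) + 1))) := Nat.mul_le_mul_left _ h4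
      _ ≤ C * (c * ((4 * (l' * l')) * ((Nat.log 2 m.g + 2) * u))) :=
          Nat.mul_le_mul_left _ (Nat.mul_le_mul_left _ (Nat.mul_le_mul h6 h5))
      _ = _ := by ring
  calc (M'.cells x τ : ℝ) ≤ ((C * c * 4 * (Nat.log 2 m.g + 2) * (l' * l' * u) : ℕ) : ℝ) := by
        exact_mod_cast h7
    _ = ((C * c * 4 * (Nat.log 2 m.g + 2) : ℕ) : ℝ) * ((l' * l' * u : ℕ) : ℝ) := by
        rw [Nat.cast_mul]
    _ ≤ ((C * c * 4 * (Nat.log 2 m.g + 2) : ℕ) : ℝ) * (2 * _) := by gcongr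
    _ = _ := by ring

theorem SPACE_mono {s s' : ℕ → ℝ} (c : ℝ) (n₁ : ℕ) (h0 : ∀ n, 0 ≤ s n)
    (h : ∀ n, n₁ ≤ n → s n ≤ c * s' n) : SPACE Sym s ⊆ SPACE Sym s' := by
  rintro L ⟨k, Γ, Q, i1, i2, M, h1, C, n₀, h2⟩
  refine ⟨k, Γ, Q, i1, i2, M, h1, |C| * c, max n₀ n₁, fun x hx τ => ?_⟩
  calc (M.cells x τ : ℝ) ≤ C * s x.length := h2 x (le_of_max_le_left hx) τ
    _ ≤ |C| * s x.length := mul_le_mul_of_nonneg_right (le_abs_self C) (h0 _)
    _ ≤ |C| * (c * s' x.length) :=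
        mul_le_mul_of_nonneg_left (h _ (le_of_max_le_right hx)) (abs_nonneg C)
    _ = _ := by ring

theorem main_pow [Finite Sym] {e : ℝ} (he : 2 / 5 < e) (t : ℕ → ℕ) (ht : ∀ n, n ≤ t n) :
    TIME₁ Sym t ⊆ SPACE Sym (fun n => (t n : ℝ) ^ e) := by
  refine (main_log t ht).trans (SPACE_mono (1 / (e - 2 / 5)) 3 (fun n => ?_) (fun n hn => ?_))
  · have := Real.log_natCast_nonneg (t n)
    positivity
  · have h3 : (3 : ℝ) ≤ t n := by exact_mod_cast hn.trans (ht n)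
    have h0 : (0 : ℝ) < t n := by linarith
    have h1 : 1 ≤ Real.log (t n) := by
      rw [Real.le_log_iff_exp_le h0]
      have := Real.exp_one_lt_d9
      linarith
    have h2 : Real.log (t n) ^ (3 / 5 : ℝ) ≤ Real.log (t n) := by
      conv_rhs => rw [← Real.rpow_one (Real.log (t n))]
      exact Real.rpow_le_rpow_of_exponent_le h1 (by norm_num)
    have h4 := Real.log_le_rpow_div h0.le (show 0 < e - 2 / 5 by linarith)
    have h5 : (t n : ℝ) ^ e = (t n : ℝ) ^ (2 / 5 : ℝ) * (t n : ℝ) ^ (e - 2 / 5) := by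
      rw [← Real.rpow_add h0]; congr 1; ring
    rw [h5]
    calc _ ≤ (t n : ℝ) ^ (2 / 5 : ℝ) * ((t n : ℝ) ^ (e - 2 / 5) / (e - 2 / 5)) :=
          mul_le_mul_of_nonneg_left (h2.trans h4) (by positivity)
      _ = _ := by ring

end Vale.Agent.P312
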