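import Vale.Agent.P312.Defs

/-! Structured counter programs with a read-only input head, and a small expression language. -/

namespace Vale.Agent.P312

/-- Structured counter programs. `loop r b` is: while register `r` is nonzero, decrement it and
run `b`. -/
inductive Prog (Sym : Type) : Type where
  | skip : Prog Sym
  | inc (r : ℕ) : Prog Sym
  | loop (r : ℕ) (body : Prog Sym) : Prog Sym
  | seq (p q : Prog Sym) : Prog Sym
  | mvL : Prog Sym
  | mvR : Prog Sym
  | ifsym (P : InSym Sym → Bool) (p q : Prog Sym) : Prog Sym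

/-- State of a counter program: registers and input head position. -/
structure PState where
  reg : ℕ → ℕ
  hd : ℕ

/-- Big-step semantics; every value produced by an increment is at most `B`. -/
inductive Exec {Sym : Type} (x : List Sym) (B : ℕ) : Prog Sym → PState → PState → Prop where
  | skip (s : PState) : Exec x B .skip s s
  | inc (r : ℕ) (s : PState) (h : s.reg r + 1 ≤ B) :
      Exec x B (.inc r) s ⟨Function.update s.reg r (s.reg r + 1), s.hd⟩
  | loop0 (r : ℕ) (b : Prog Sym) (s : PState) (h : s.reg r = 0) : Exec x B (.loop r b) s s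
  | loopS (r : ℕ) (b : Prog Sym) (s s₁ s₂ : PState) (h : s.reg r ≠ 0)
      (h₁ : Exec x B b ⟨Function.update s.reg r (s.reg r - 1), s.hd⟩ s₁)
      (h₂ : Exec x B (.loop r b) s₁ s₂) : Exec x B (.loop r b) s s₂
  | seq (p q : Prog Sym) (s s₁ s₂ : PState) (h₁ : Exec x B p s s₁) (h₂ : Exec x B q s₁ s₂) :
      Exec x B (.seq p q) s s₂
  | mvL (s : PState) : Exec x B .mvL s ⟨s.reg, s.hd - 1⟩
  | mvR (s : PState) : Exec x B .mvR s ⟨s.reg, min (x.length + 1) (s.hd + 1)⟩
  | ifT (P : InSym Sym → Bool) (p q : Prog Sym) (s s' : PState)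
      (h : P (readIn x s.hd) = true) (h₁ : Exec x B p s s') : Exec x B (.ifsym P p q) s s'
  | ifF (P : InSym Sym → Bool) (p q : Prog Sym) (s s' : PState)
      (h : P (readIn x s.hd) = false) (h₁ : Exec x B q s s') : Exec x B (.ifsym P p q) s s'

/-- Bounded iteration: `iter n a f` is `f (n-1) (… (f 1 (f 0 a)))`. -/
def iter {β : Type} (n : ℕ) (a : β) (f : ℕ → β → β) : β :=
  Nat.rec a (fun i acc => f i acc) n

@[simp] theorem iter_zero {β : Type} (a : β) (f : ℕ → β → β) : iter 0 a f = a := rfl

theorem iter_succ {β : Type} (n : ℕ) (a : β) (f : ℕ → β → β) :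
    iter (n + 1) a f = f n (iter n a f) := rfl

/-- Expressions over an environment (a list of naturals) and the input tape. -/
inductive Exp (Sym : Type) : Type where
  | hd : Exp Sym
  | drop (e : Exp Sym) : Exp Sym
  | zero : Exp Sym
  | succ (e : Exp Sym) : Exp Sym
  | lett (e body : Exp Sym) : Exp Sym
  | loop (n a step : Exp Sym) : Exp Sym
  | test (P : InSym Sym → Bool) (e : Exp Sym) : Exp Sym

/-- Value of an expression. In `loop n a step` the environment of `step` is
`acc :: i :: env`. -/
def Exp.eval {Sym : Type} (x : List Sym) : Exp Sym → List ℕ → ℕ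
  | .hd, env => env.headD 0
  | .drop e, env => e.eval x env.tail
  | .zero, _ => 0
  | .succ e, env => e.eval x env + 1
  | .lett e b, env => b.eval x (e.eval x env :: env)
  | .loop n a s, env => iter (n.eval x env) (a.eval x env) (fun i acc => s.eval x (acc :: i :: env))
  | .test P e, env => if P (readIn x (e.eval x env)) then 1 else 0

/-- All intermediate values in the evaluation are at most `B`. -/
def Exp.Bnd {Sym : Type} (x : List Sym) (B : ℕ) : Exp Sym → List ℕ → Prop
  | .hd, env => env.headD 0 ≤ B
  | .drop e, env => e.Bnd x B env.tail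
  | .zero, _ => True
  | .succ e, env => e.Bnd x B env ∧ e.eval x env + 1 ≤ B
  | .lett e b, env => e.Bnd x B env ∧ b.Bnd x B (e.eval x env :: env)
  | .loop n a s, env => n.Bnd x B env ∧ a.Bnd x B env ∧ ∀ j < n.eval x env,
      s.Bnd x B (iter j (a.eval x env) (fun i acc => s.eval x (acc :: i :: env)) :: j :: env)
  | .test _ e, env => e.Bnd x B env ∧ 1 ≤ B

end Vale.Agent.P312
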