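import Vale.Agent.P312.Alg

/-! The visit dynamics simulates the one-tape machine. -/

namespace Vale.Agent.P312

variable {Sym : Type}

section Coding

variable {Γ Q : Type} [Finite Γ] [Finite Q]

noncomputable def cd (A : Type) [Finite A] (a : A) : ℕ := (Finite.equivFin A a : ℕ)

theorem cd_lt {A : Type} [Finite A] (a : A) : cd A a < Nat.card A := (Finite.equivFin A a).isLt

noncomputable def tab (f : Q → Γ → ℕ) (s a : ℕ) : ℕ :=
  if h : s < Nat.card Q ∧ a < Nat.card Γ then
    f ((Finite.equivFin Q).symm ⟨s, h.1⟩) ((Finite.equivFin Γ).symm ⟨a, h.2⟩) else 0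

theorem tab_cd (f : Q → Γ → ℕ) (s : Q) (a : Γ) : tab f (cd Q s) (cd Γ a) = f s a := by
  unfold tab
  rw [dif_pos ⟨cd_lt s, cd_lt a⟩]
  simp [cd]

theorem tab_lt (f : Q → Γ → ℕ) {n : ℕ} (hn : 0 < n) (hf : ∀ s a, f s a < n) (s a : ℕ) :
    tab f s a < n := by
  unfold tab; split_ifs
  · exact hf _ _
  · exact hn

theorem tab_fin (f : Q → Γ → ℕ) (s a : ℕ)
    (h : Nat.card Q + (Nat.card Γ + 2) ≤ s ∨ Nat.card Q + (Nat.card Γ + 2) ≤ a) : tab f s a = 0 := by
  unfold tab; rw [dif_neg (by omega)]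

def signCode : SignType → ℕ
  | .neg => 0
  | .zero => 1
  | .pos => 2

def outCode : Option Bool → ℕ
  | none => 0
  | some false => 1
  | some true => 2

noncomputable def toNM (M : OneTape Sym Γ Q) : NM Sym where
  g := Nat.card Γ + 2
  q := Nat.card Q
  dq := tab (fun s a => cd Q (M.δ s a).1)
  dg := tab (fun s a => cd Γ (M.δ s a).2.1)
  dm := tab (fun s a => signCode (M.δ s a).2.2)
  ou := fun s => if h : s < Nat.card Q then outCode (M.out ((Finite.equivFin Q).symm ⟨s, h⟩)) else 0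
  q0 := cd Q M.start
  bl := cd Γ M.blank
  h := fun s => match s with
    | .sym a => cd Γ (M.enc a)
    | _ => cd Γ M.blank
  g_pos := by omega
  q0_lt := cd_lt _
  bl_lt := (cd_lt _).trans (by omega)
  h_lt := fun s => by cases s <;> exact (cd_lt _).trans (by omega)
  dq_lt := tab_lt _ (by have := cd_lt M.start; omega) (fun _ _ => cd_lt _)
  dg_lt := tab_lt _ (by omega) (fun _ _ => (cd_lt _).trans (by omega))
  dm_le := fun s a => Nat.lt_succ_iff.1 (tab_lt _ (by omega) (fun s a => by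
    cases (M.δ s a).2.2 <;> simp [signCode]) s a)
  ou_le := fun s => by
    split_ifs
    · rcases M.out _ with _ | _ | _ <;> simp [outCode]
    · omega
  fin_dq := tab_fin _
  fin_dg := tab_fin _
  fin_dm := tab_fin _
  fin_ou := fun s h => dif_neg (by omega)

noncomputable def cdCfg (c : OneCfg Γ Q) : OneCfg ℕ ℕ :=
  ⟨cd Q c.state, c.head, fun p => cd Γ (c.tape p)⟩

theorem toNM_ou (M : OneTape Sym Γ Q) (s : Q) : (toNM M).ou (cd Q s) = outCode (M.out s) := by
  show dite _ _ _ = _
  rw [dif_pos (cd_lt s)]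
  simp [cd]

theorem toNM_step (M : OneTape Sym Γ Q) (c : OneCfg Γ Q) :
    (toNM M).step (cdCfg c) = cdCfg (M.step c) := by
  unfold NM.step OneTape.step
  have h1 := toNM_ou M c.state
  show ite ((toNM M).ou (cd Q c.state) ≠ 0) _ _ = _
  rw [h1]
  rcases h : M.out c.state with _ | _ | _
  · simp only [outCode, ne_eq, not_true, if_false, cdCfg, toNM, tab_cd]
    congr 1
    · cases (M.δ c.state (c.tape c.head)).2.2 <;> simp [signCode] <;> ring
    · funext p
      by_cases hp : p = c.head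
      · subst hp; simp
      · simp [Function.update_of_ne hp]
  · simp [outCode]
  · simp [outCode]

theorem toNM_init (M : OneTape Sym Γ Q) (x : List Sym) : (toNM M).init x = cdCfg (M.init x) := by
  unfold NM.init OneTape.init cdCfg
  congr 1
  funext p
  dsimp only
  split_ifs with h
  · simp only [readIn, Nat.succ_ne_zero, if_false, Nat.add_sub_cancel]
    cases x[p.toNat]? <;> rfl
  · rfl

/-- Every one-tape machine has a number-coded form. -/
theorem exists_NM (M : OneTape Sym Γ Q) :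
    ∃ m : NM Sym, ∀ (x : List Sym) (τ : ℕ),
      (M.out (M.step^[τ] (M.init x)).state = some true ↔ m.res x τ = 2) ∧
      (M.out (M.step^[τ] (M.init x)).state = some false ↔ m.res x τ = 1) := by
  refine ⟨toNM M, fun x τ => ?_⟩
  have : (toNM M).step^[τ] ((toNM M).init x) = cdCfg (M.step^[τ] (M.init x)) := by
    induction τ with
    | zero => exact toNM_init M x
    | succ τ ih => rw [Function.iterate_succ_apply', Function.iterate_succ_apply', ih, toNM_step]
  unfold NM.res
  rw [this]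
  show (_ ↔ (toNM M).ou (cd Q _) = 2) ∧ (_ ↔ (toNM M).ou (cd Q _) = 1)
  rw [toNM_ou]
  rcases M.out _ with _ | _ | _ <;> simp [outCode]

end Coding

namespace NM

variable (m : NM Sym)

/-- Configuration after `τ` steps. -/
def cfg (x : List Sym) (τ : ℕ) : OneCfg ℕ ℕ := m.step^[τ] (m.init x)

theorem cfg_succ (x : List Sym) (τ : ℕ) : m.cfg x (τ + 1) = m.step (m.cfg x τ) :=
  Function.iterate_succ_apply' _ _ _

theorem res_mono (x : List Sym) {τ τ' : ℕ} (h : m.res x τ ≠ 0)
    (h' : τ ≤ τ') : m.res x τ' = m.res x τ := by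
  obtain ⟨k, rfl⟩ : ∃ k, τ' = τ + k := ⟨τ' - τ, by omega⟩
  have : m.cfg x (τ + k) = m.cfg x τ := by
    induction k with
    | zero => rfl
    | succ k ih =>
      rw [← Nat.add_assoc, cfg_succ, ih (by omega)]
      unfold step
      exact if_pos h
  show m.ou (m.cfg x (τ + k)).state = _
  rw [this]; rfl

theorem res_stable (x : List Sym) {τ τ' : ℕ} (h : m.res x τ ≠ 0)
    (h' : m.res x τ' ≠ 0) : m.res x τ = m.res x τ' := by
  rcases le_total τ τ' with h1 | h1
  · exact (m.res_mono x h h1).symm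
  · exact m.res_mono x h' h1

theorem q_pos' : 0 < m.q := by have := m.q0_lt; omega

theorem pack_mod {w s π y : ℕ} (hs : s < m.q) : m.pack w s π y % m.q = s := by
  unfold pack; rw [add_comm, Nat.add_mul_mod_self_right, Nat.mod_eq_of_lt hs]

theorem pack_div {w s π y : ℕ} (hs : s < m.q) : m.pack w s π y / m.q = y * (w + 2) + π := by
  unfold pack
  rw [add_comm, Nat.add_mul_div_right _ _ m.q_pos', Nat.div_eq_of_lt hs, zero_add]

theorem pack_pos {w s π y : ℕ} (hs : s < m.q) (hπ : π ≤ w + 1) :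
    m.pack w s π y / m.q % (w + 2) = π := by
  rw [m.pack_div hs, add_comm, Nat.add_mul_mod_self_right, Nat.mod_eq_of_lt (by omega)]

theorem pack_y {w s π y : ℕ} (hs : s < m.q) (hπ : π ≤ w + 1) :
    m.pack w s π y / m.q / (w + 2) = y := by
  rw [m.pack_div hs, add_comm, Nat.add_mul_div_right _ _ (by omega), Nat.div_eq_of_lt (by omega),
    zero_add]

theorem pack_lt {w s π y : ℕ} (hs : s < m.q) (hπ : π ≤ w + 1) (hy : y < m.g ^ w) :
    m.pack w s π y < m.g ^ w * (w + 2) * m.q := by
  unfold pack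
  have h1 : y * (w + 2) + π + 1 ≤ m.g ^ w * (w + 2) := by nlinarith
  nlinarith

theorem evc_mod {k d s : ℕ} (hs : s < m.q) : m.evc k d s % m.q = s := by
  unfold evc; rw [add_comm, Nat.add_mul_mod_self_right, Nat.mod_eq_of_lt hs]

theorem evc_div {k d s : ℕ} (hs : s < m.q) : m.evc k d s / m.q = k * 4 + d := by
  unfold evc
  rw [add_comm, Nat.add_mul_div_right _ _ m.q_pos', Nat.div_eq_of_lt hs, zero_add]

theorem evc_lt {k d s E : ℕ} (hk : k ≤ 2 * E) (hd : d ≤ 3) (hs : s < m.q) :
    m.evc k d s < (2 * E + 1) * 4 * m.q := by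
  unfold evc
  have h1 : k * 4 + d + 1 ≤ (2 * E + 1) * 4 := by omega
  nlinarith

theorem lstep_lt {w c : ℕ} (hc : c < m.g ^ w * (w + 2) * m.q) :
    m.lstep w c < m.g ^ w * (w + 2) * m.q := by
  unfold lstep
  split_ifs with h
  · exact hc
  · have h2 : c / m.q % (w + 2) < w + 2 := Nat.mod_lt _ (by omega)
    have h3 : c / m.q / (w + 2) < m.g ^ w := by
      apply Nat.div_lt_of_lt_mul
      apply Nat.div_lt_of_lt_mul
      calc c < _ := hc
        _ = _ := by ring
    apply m.pack_lt (m.dq_lt _ _)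
    · have := m.dm_le (c % m.q) (digit m.g (c / m.q / (w + 2)) (c / m.q % (w + 2) - 1))
      omega
    · exact setDigit_lt (m.dg_lt _ _) (by omega) h3

theorem entry_bounds {w o : ℕ} (ho : o < w) (e : ℕ) : 1 ≤ m.entry w o e ∧ m.entry w o e ≤ w := by
  unfold entry; split_ifs <;> omega

theorem visit_lt {w o T y e : ℕ} (ho : o < w) (hy : y < m.g ^ w) :
    m.visit w o T y e < m.g ^ w * (w + 2) * m.q := by
  unfold visit
  apply iter_inv (fun c => c < m.g ^ w * (w + 2) * m.q)
  · exact m.pack_lt (Nat.mod_lt _ m.q_pos') (by have := m.entry_bounds ho e; omega) hy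
  · intro _ _ R hR; exact m.lstep_lt hR

theorem vy_lt (x : List Sym) {w o T E y e : ℕ} (ho : o < w) (hy : y < m.g ^ w) :
    (m.dyn x w o T E).vy y e < m.g ^ w := by
  apply Nat.div_lt_of_lt_mul
  apply Nat.div_lt_of_lt_mul
  calc _ < _ := m.visit_lt (T := T) (e := e) ho hy
    _ = _ := by ring

theorem ve_lt (x : List Sym) (w o T E y e : ℕ) :
    (m.dyn x w o T E).ve y e < (2 * E + 1) * 4 * m.q := by
  show m.nextEv _ _ _ _ < _
  unfold nextEv
  have h := Nat.mod_lt (m.visit w o T y e) m.q_pos'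
  split_ifs
  · exact m.evc_lt (by omega) (by omega) m.q_pos'
  · exact m.evc_lt (min_le_right _ _) (by omega) h
  · exact m.evc_lt (min_le_right _ _) (by omega) h
  · exact m.evc_lt (min_le_right _ _) (by omega) h
  · exact m.evc_lt (by omega) (by omega) m.q_pos'

theorem cell_lt (x : List Sym) (w o E k u : ℕ) : (if E * w + o ≤ k * w + u then
    m.h (readIn x (k * w + u - (E * w + o) + 1)) else m.bl) < m.g := by
  split_ifs
  · exact m.h_lt _
  · exact m.bl_lt

theorem X0_lt (x : List Sym) (w o T E k : ℕ) : (m.dyn x w o T E).X0 k < m.g ^ w :=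
  ofDig_lt w (fun u _ => m.cell_lt x w o E k u)

theorem e0_lt (x : List Sym) (w o T E : ℕ) :
    (m.dyn x w o T E).e0 < (2 * E + 1) * 4 * m.q :=
  m.evc_lt (by omega) (by omega) m.q0_lt

/-- Tape position of cell `u` of block `k`. -/
def pos (w o E k u : ℕ) : ℤ := (k : ℤ) * w + u - ((E : ℤ) * w + o)

theorem pos_inj {w o E k k' u u' : ℕ} (hu : u < w) (hu' : u' < w)
    (h : pos w o E k u = pos w o E k' u') : k = k' ∧ u = u' := by
  unfold pos at h
  have h1 : k * w + u = k' * w + u' := by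
    have : ((k * w + u : ℕ) : ℤ) = ((k' * w + u' : ℕ) : ℤ) := by push_cast; linarith
    exact_mod_cast this
  have h2 : (k * w + u) / w = (k' * w + u') / w := by rw [h1]
  rw [add_comm, Nat.add_mul_div_right _ _ (by omega), Nat.div_eq_of_lt hu, add_comm (k' * w),
    Nat.add_mul_div_right _ _ (by omega), Nat.div_eq_of_lt hu'] at h2
  have h3 : k = k' := by omega
  subst h3
  exact ⟨rfl, by omega⟩

/-- A local configuration represents a global one. -/
def LRep (w o E k : ℕ) (Y : ℕ → ℕ) (c : OneCfg ℕ ℕ) (π y : ℕ) : Prop :=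
  π ≤ w + 1 ∧ c.state < m.q ∧ c.head = pos w o E k π - 1 ∧
    (∀ u < w, digit m.g y u = c.tape (pos w o E k u)) ∧
    ∀ k', k' ≠ k → ∀ u < w, digit m.g (Y k') u = c.tape (pos w o E k' u)

theorem lstep_sim {w o E k : ℕ} {Y : ℕ → ℕ} {c : OneCfg ℕ ℕ} {π y : ℕ}
    (h : m.LRep w o E k Y c π y) (h1 : m.ou c.state = 0) (h2 : π ≠ 0) (h3 : π ≠ w + 1) :
    ∃ π' y', m.lstep w (m.pack w c.state π y) = m.pack w (m.step c).state π' y' ∧
      m.LRep w o E k Y (m.step c) π' y' ∧ π' ≤ π + 1 ∧ π ≤ π' + 1 := by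
  obtain ⟨g1, g2, g3, g4, g5⟩ := h
  have e1 : c.head = pos w o E k (π - 1) := by
    rw [g3]; unfold pos
    obtain ⟨π', rfl⟩ : ∃ π', π = π' + 1 := ⟨π - 1, by omega⟩
    rw [Nat.add_sub_cancel]; push_cast; ring
  have e2 : digit m.g y (π - 1) = c.tape c.head := by rw [e1]; exact g4 _ (by omega)
  have e3 := m.dm_le c.state (c.tape c.head)
  refine ⟨π + m.dm c.state (c.tape c.head) - 1,
    setDigit m.g y (π - 1) (m.dg c.state (c.tape c.head)), ?_, ?_, by omega, by omega⟩
  · unfold lstep step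
    rw [m.pack_mod g2, m.pack_pos g2 g1, m.pack_y g2 g1, if_neg (by omega), if_neg (by omega), e2]
  · unfold step
    rw [if_neg (by omega)]
    refine ⟨by omega, m.dq_lt _ _, ?_, ?_, ?_⟩
    · show c.head + _ - 1 = _
      rw [g3]; unfold pos
      rw [Nat.cast_sub (by omega)]; push_cast; ring
    · intro u hu
      rw [digit_setDigit _ _ _ (m.dg_lt _ _)]
      dsimp only
      split_ifs with h4
      · rw [h4, ← e1, Function.update_self]
      · rw [Function.update_of_ne, g4 u hu]
        rw [e1]; intro h5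
        exact h4 (pos_inj hu (by omega) h5).2
    · intro k' hk' u hu
      dsimp only
      rw [Function.update_of_ne, g5 k' hk' u hu]
      rw [e1]; intro h5
      exact hk' (pos_inj hu (by omega) h5).1

theorem visit_sim (x : List Sym) {w o E k τ : ℕ} {Y : ℕ → ℕ} {π y : ℕ}
    (h : m.LRep w o E k Y (m.cfg x τ) π y) (h2 : π ≠ 0) (h3 : π ≠ w + 1) (T : ℕ) :
    ∃ τ' π' y', τ ≤ τ' ∧
      iter T (m.pack w (m.cfg x τ).state π y) (fun _ c => m.lstep w c) =
        m.pack w (m.cfg x τ').state π' y' ∧ m.LRep w o E k Y (m.cfg x τ') π' y' ∧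
      (m.ou (m.cfg x τ').state ≠ 0 ∨ π' = 0 ∨ π' = w + 1 ∨ τ' = τ + T) ∧
      (π' = 0 → ∃ σ, τ ≤ σ ∧ τ' = σ + 1 ∧ (m.cfg x σ).head = pos w o E k 1 - 1) ∧
      (π' = w + 1 → ∃ σ, τ ≤ σ ∧ τ' = σ + 1 ∧ (m.cfg x σ).head = pos w o E k w - 1) := by
  induction T with
  | zero =>
    exact ⟨τ, π, y, le_rfl, rfl, h, by simp, fun h => absurd h h2, fun h => absurd h h3⟩
  | succ T ih =>
    obtain ⟨τ', π', y', g1, g2, g3, g4, g5, g6⟩ := ih
    rw [iter_succ, g2]
    by_cases hs : m.ou (m.cfg x τ').state ≠ 0 ∨ π' = 0 ∨ π' = w + 1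
    · refine ⟨τ', π', y', g1, ?_, g3, by omega, g5, g6⟩
      unfold lstep
      rw [m.pack_mod g3.2.1, m.pack_pos g3.2.1 g3.1, if_pos hs]
    · obtain ⟨π'', y'', f1, f2, f3, f4⟩ := m.lstep_sim g3 (by omega) (by omega) (by omega)
      rw [← cfg_succ] at f1 f2
      have := g3.1
      clear g5 g6
      refine ⟨τ' + 1, π'', y'', by omega, f1, f2, by omega, fun h => ⟨τ', g1, rfl, ?_⟩,
        fun h => ⟨τ', g1, rfl, ?_⟩⟩
      · rw [g3.2.2.1, show π' = 1 by omega]
      · rw [g3.2.2.1, show π' = w by omega]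

/-- The offset for which step `σ` may cross a boundary. -/
def res_off (x : List Sym) (w σ : ℕ) : ℕ :=
  ((-(max (m.cfg x σ).head (m.cfg x (σ + 1)).head)) % (w : ℤ)).toNat

def cnt (x : List Sym) (w o τ : ℕ) : ℕ := ((Finset.range τ).filter (fun σ => m.res_off x w σ = o)).card

theorem cnt_mono (x : List Sym) (w o : ℕ) {τ τ' : ℕ} (h : τ ≤ τ') : m.cnt x w o τ ≤ m.cnt x w o τ' :=
  Finset.card_le_card (Finset.filter_subset_filter _ (Finset.range_mono h))

theorem cnt_succ (x : List Sym) {w o σ : ℕ} (h : m.res_off x w σ = o) :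
    m.cnt x w o (σ + 1) = m.cnt x w o σ + 1 := by
  unfold cnt
  rw [Finset.range_add_one, Finset.filter_insert, if_pos h, Finset.card_insert_of_notMem]
  simp

theorem off_eq {w o : ℕ} (ho : o < w) (a : ℤ) : ((a * w + o) % (w : ℤ)).toNat = o := by
  rw [add_comm, Int.add_mul_emod_self_right, Int.emod_eq_of_lt (by omega) (by omega)]
  simp

/-- The invariant after `j` visits. -/
def Inv (x : List Sym) (w o T E j e : ℕ) (Y : ℕ → ℕ) : Prop :=
  (e / m.q % 4 = 3 ∧ m.res x T = 0) ∨
  (e / m.q % 4 ≠ 3 ∧ ∃ τ, e % m.q = (m.cfg x τ).state ∧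
    (m.ou (m.cfg x τ).state ≠ 0 ∨
      ((∀ k, ∀ u < w, digit m.g (Y k) u = (m.cfg x τ).tape (pos w o E k u)) ∧
        E ≤ e / m.q / 4 + j ∧ e / m.q / 4 ≤ E + j ∧
        (m.cfg x τ).head = pos w o E (e / m.q / 4) (m.entry w o e) - 1 ∧ j ≤ m.cnt x w o τ)))

theorem inv_all (x : List Sym) {w o T E : ℕ} (ho : o < w) : ∀ j ≤ E,
    m.Inv x w o T E j ((m.dyn x w o T E).st j).1 ((m.dyn x w o T E).st j).2 := by
  intro j
  induction j with
  | zero =>
    intro _
    right
    show m.evc E 2 m.q0 / m.q % 4 ≠ 3 ∧ ∃ τ, m.evc E 2 m.q0 % m.q = _ ∧ (_ ∨ (_ ∧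
      E ≤ m.evc E 2 m.q0 / m.q / 4 + 0 ∧ m.evc E 2 m.q0 / m.q / 4 ≤ E + 0 ∧
      _ = pos w o E (m.evc E 2 m.q0 / m.q / 4) (m.entry w o (m.evc E 2 m.q0)) - 1 ∧ _))
    unfold entry
    rw [m.evc_div m.q0_lt, m.evc_mod m.q0_lt, show (E * 4 + 2) % 4 = 2 by omega,
      show (E * 4 + 2) / 4 = E by omega]
    refine ⟨by omega, 0, rfl, Or.inr ⟨?_, by omega, by omega, ?_, Nat.zero_le _⟩⟩
    · intro k u hu
      have := digit_ofDig (B := m.g) w (fun u _ => m.cell_lt x w o E k u) u hu
      refine this.trans ?_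
      show _ = ite _ _ _
      unfold pos
      by_cases h : E * w + o ≤ k * w + u
      · have h1 : ((k : ℤ) * w + u - ((E : ℤ) * w + o)) = ((k * w + u - (E * w + o) : ℕ) : ℤ) := by
          rw [Nat.cast_sub h]; push_cast; ring
        rw [if_pos h, h1, if_pos (by omega), Int.toNat_natCast]
      · have h1 : ((k * w + u : ℕ) : ℤ) < ((E * w + o : ℕ) : ℤ) := by exact_mod_cast not_le.1 h
        push_cast at h1
        rw [if_neg h, if_neg (by omega)]
    · show (0 : ℤ) = _
      simp [pos]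
  | succ j ih =>
    intro hj
    have ih := ih (by omega)
    simp only [Dyn.st]
    generalize ((m.dyn x w o T E).st j).1 = e at *
    generalize ((m.dyn x w o T E).st j).2 = Y at *
    simp only [dyn]
    have hq := m.q_pos'
    rcases ih with ⟨h1, h2⟩ | ⟨h1, τ, h2, h3 | ⟨h3, h4, h5, h6, h7⟩⟩
    · left
      unfold nextEv
      rw [if_pos h1, m.evc_div hq]
      exact ⟨rfl, h2⟩
    · right
      have hs : e % m.q < m.q := Nat.mod_lt _ hq
      have e1 : m.visit w o T (Y (e / m.q / 4)) e =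
          m.pack w (e % m.q) (m.entry w o e) (Y (e / m.q / 4)) := by
        unfold visit
        apply iter_inv (fun c => c = m.pack w (e % m.q) (m.entry w o e) (Y (e / m.q / 4))) rfl
        intro _ _ R hR
        unfold lstep
        rw [hR, m.pack_mod hs, if_pos (Or.inl (by rw [h2]; exact h3))]
      unfold nextEv
      rw [if_neg h1, e1, m.pack_mod hs, if_pos (by rw [h2]; exact h3), m.evc_div hs, m.evc_mod hs]
      exact ⟨by omega, τ, h2, Or.inl h3⟩
    · set k := e / m.q / 4 with hk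
      have hs : (m.cfg x τ).state < m.q := by rw [← h2]; exact Nat.mod_lt _ hq
      obtain ⟨b1, b2⟩ := m.entry_bounds ho e
      obtain ⟨τ', π', y', g1, g2, g3, g4, g5, g6⟩ := m.visit_sim x (k := k) (Y := Y) (E := E) (o := o)
        (π := m.entry w o e) (y := Y k) ⟨by omega, hs, h6, h3 k, fun k' _ => h3 k'⟩ (by omega)
        (by omega) T
      obtain ⟨l1, l2, l3, l4, l5⟩ := g3
      have e1 : m.visit w o T (Y k) e = m.pack w (m.cfg x τ').state π' y' := by
        unfold visit; rw [h2, g2]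
      have e2 : ∀ k', ∀ u < w, digit m.g (if k = k' then m.visit w o T (Y k') e / m.q / (w + 2)
          else Y k') u = (m.cfg x τ').tape (pos w o E k' u) := by
        intro k' u hu
        split_ifs with h8
        · subst h8; rw [e1, m.pack_y l2 l1]; exact l4 u hu
        · exact l5 k' (Ne.symm h8) u hu
      unfold Inv nextEv
      rw [if_neg h1, e1, m.pack_mod l2, m.pack_pos l2 l1]
      split_ifs with c1 c2 c3
      · right
        rw [m.evc_div l2, m.evc_mod l2]
        exact ⟨by omega, τ', rfl, Or.inl c1⟩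
      · right
        unfold entry
        rw [m.evc_div l2, m.evc_mod l2, min_eq_left (by omega),
          show ((k - 1) * 4 + 1) % 4 = 1 by omega, show ((k - 1) * 4 + 1) / 4 = k - 1 by omega]
        obtain ⟨σ, s1, s2, s3⟩ := g5 c2
        refine ⟨by omega, τ', rfl, Or.inr ⟨e2, by omega, by omega, ?_, ?_⟩⟩
        · rw [l3, c2]; unfold pos
          rw [Nat.cast_sub (by omega)]; simp; ring
        · rw [s2, m.cnt_succ x]
          · have := m.cnt_mono x w o s1; omega
          · unfold res_off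
            rw [← s2, l3, s3, c2, max_eq_left (by unfold pos; push_cast; omega)]
            refine Eq.trans ?_ (off_eq ho ((E : ℤ) - k))
            congr 2; unfold pos; push_cast; ring
      · right
        unfold entry
        rw [m.evc_div l2, m.evc_mod l2, min_eq_left (by omega),
          show ((k + 1) * 4 + 0) % 4 = 0 by omega, show ((k + 1) * 4 + 0) / 4 = k + 1 by omega]
        obtain ⟨σ, s1, s2, s3⟩ := g6 c3
        refine ⟨by omega, τ', rfl, Or.inr ⟨e2, by omega, by omega, ?_, ?_⟩⟩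
        · rw [l3, c3]; unfold pos
          simp; ring
        · rw [s2, m.cnt_succ x]
          · have := m.cnt_mono x w o s1; omega
          · unfold res_off
            rw [← s2, l3, s3, c3, max_eq_right (by unfold pos; push_cast; omega)]
            refine Eq.trans ?_ (off_eq ho ((E : ℤ) - k - 1))
            congr 2; unfold pos; push_cast; ring
      · left
        rw [m.evc_div hq]
        refine ⟨rfl, ?_⟩
        by_contra h8
        clear g5 g6
        have := m.res_mono x h8 (show T ≤ τ' by omega)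
        exact c1 (by rw [← this] at h8; exact h8)

theorem visits_sound (x : List Sym) {w o T E : ℕ} (ho : o < w)
    (h : m.verdict ((m.dyn x w o T E).ev E) ≠ 0) :
    ∃ τ, m.res x τ = m.verdict ((m.dyn x w o T E).ev E) := by
  unfold verdict Dyn.ev at *
  rcases m.inv_all x (T := T) ho E le_rfl with ⟨h1, -⟩ | ⟨h1, τ, h2, -⟩
  · rw [if_pos h1] at h; exact absurd rfl h
  · rw [if_neg h1, h2]; exact ⟨τ, rfl⟩

theorem visits_complete (x : List Sym) {w T E : ℕ} (hT : m.res x T ≠ 0)
    (hE : T < E * w) : ∃ o < w, m.verdict ((m.dyn x w o T E).ev E) ≠ 0 := by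
  obtain ⟨o, ho, h1⟩ := Finset.exists_card_fiber_lt_of_card_lt_mul (s := Finset.range T)
    (t := Finset.range w) (f := fun σ => m.res_off x w σ) (n := E)
    (by simpa [mul_comm] using hE)
  have ho := Finset.mem_range.1 ho
  refine ⟨o, ho, ?_⟩
  unfold verdict Dyn.ev
  rcases m.inv_all x (T := T) ho E le_rfl with ⟨-, h2⟩ | ⟨h2, τ, h3, h4 | ⟨-, -, -, -, h4⟩⟩
  · exact absurd h2 hT
  · rw [if_neg h2, h3]; exact h4
  · rw [if_neg h2, h3]
    rcases le_total τ T with h5 | h5
    · have := m.cnt_mono x w o h5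
      have h6 : m.cnt x w o T < E := h1
      omega
    · have := m.res_mono x hT h5
      rw [← this] at hT; exact hT

end NM

end Vale.Agent.P312
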