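import Vale.Agent.P312.CodedCorrect
import Vale.Agent.P312.Visits
import Vale.Agent.P312.Compile

/-! The search function and its correctness. -/

namespace Vale.Agent.P312

open Finset

variable {Sym : Type}

theorem citer_succ (B n a : ℕ) (f : ℕ → ℕ → ℕ) :
    citer B (n + 1) a f = min B (f n (citer B n a f)) := rfl

namespace NM

def clstep (m : NM Sym) (N w c : ℕ) : ℕ :=
  if m.ou (c % m.q) ≠ 0 ∨ c / m.q % (w + 2) = 0 ∨ c / m.q % (w + 2) = w + 1 then c else
    m.pack w (m.dq (c % m.q) (cdig N m.g (c / m.q / (w + 2)) (c / m.q % (w + 2) - 1)))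
      (c / m.q % (w + 2) +
        m.dm (c % m.q) (cdig N m.g (c / m.q / (w + 2)) (c / m.q % (w + 2) - 1)) - 1)
      (cset N m.g (c / m.q / (w + 2)) (c / m.q % (w + 2) - 1)
        (m.dg (c % m.q) (cdig N m.g (c / m.q / (w + 2)) (c / m.q % (w + 2) - 1))))

def cvisit (m : NM Sym) (N w o T y e : ℕ) : ℕ :=
  citer N T (m.pack w (e % m.q) (m.entry w o e) y) (fun _ c => m.clstep N w c)

def cblock0 (m : NM Sym) (x : List Sym) (N w o E k : ℕ) : ℕ :=
  citer N w 0 (fun u y => y + (if E * w + o ≤ k * w + u then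
    rd m.h x (k * w + u - (E * w + o) + 1) else m.bl) * cpow N m.g u)

def cdyn (m : NM Sym) (x : List Sym) (N w o T E : ℕ) : Dyn where
  blk := fun e => e / m.q / 4
  vy := fun y e => m.cvisit N w o T y e / m.q / (w + 2) % N
  ve := fun y e => m.nextEv w E e (m.cvisit N w o T y e)
  X0 := fun k => m.cblock0 x N w o E k
  e0 := m.evc E 2 m.q0

theorem q_pos (m : NM Sym) : 0 < m.q := by have := m.q0_lt; omega

theorem pow_le_of (m : NM Sym) {N w : ℕ} (hN : m.g ^ w * (w + 2) * m.q ≤ N) : m.g ^ w < N := by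
  have h1 := m.q_pos
  have h2 : 0 < m.g ^ w := pow_pos (by have := m.g_pos; omega) _
  have h3 : m.g ^ w * 2 ≤ m.g ^ w * (w + 2) * m.q :=
    (Nat.mul_le_mul_left _ (by omega)).trans (Nat.le_mul_of_pos_right _ h1)
  omega

theorem clstep_eq (m : NM Sym) {N w c : ℕ} (hN : m.g ^ w * (w + 2) * m.q ≤ N)
    (hc : c < m.g ^ w * (w + 2) * m.q) : m.clstep N w c = m.lstep w c := by
  unfold clstep lstep
  split_ifs with h
  · rfl
  · have h1 : c / m.q / (w + 2) < N :=
      ((Nat.div_le_self _ _).trans (Nat.div_le_self _ _)).trans_lt (by omega)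
    have h2 : c / m.q % (w + 2) < w + 2 := Nat.mod_lt _ (by omega)
    have h3 : m.g ^ (c / m.q % (w + 2) - 1) ≤ N :=
      (Nat.pow_le_pow_right (by have := m.g_pos; omega) (by omega)).trans (m.pow_le_of hN).le
    rw [cdig_eq _ h1, cset_eq _ h1 h3]

theorem cvisit_eq (m : NM Sym) {N w o T y e : ℕ} (hN : m.g ^ w * (w + 2) * m.q ≤ N) (ho : o < w)
    (hy : y < m.g ^ w) : m.cvisit N w o T y e = m.visit w o T y e := by
  unfold cvisit visit
  apply citer_eq (fun c => c < m.g ^ w * (w + 2) * m.q) (m.visit_lt (T := 0) ho hy)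
  · intro R hR; omega
  · intro i _ R hR; exact m.lstep_lt hR
  · intro i _ R hR; exact m.clstep_eq hN hR

theorem cblock0_eq (m : NM Sym) (x : List Sym) {N w o E k : ℕ}
    (hN : m.g ^ w * (w + 2) * m.q ≤ N) : m.cblock0 x N w o E k = m.block0 x w o E k := by
  have hg : 0 < m.g := by have := m.g_pos; omega
  have hw := m.pow_le_of hN
  set f : ℕ → ℕ := fun u => if E * w + o ≤ k * w + u then
    m.h (readIn x (k * w + u - (E * w + o) + 1)) else m.bl with hf
  have hlt : ∀ u, f u < m.g := by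
    intro u; simp only [hf]; split_ifs
    · exact m.h_lt _
    · exact m.bl_lt
  have key : ∀ n ≤ w, citer N n 0 (fun u y => y + f u * cpow N m.g u) = ofDig m.g f n := by
    intro n
    induction n with
    | zero => intro _; rfl
    | succ n ih =>
      intro hn
      have h1 := ih (by omega)
      have h2 := ofDig_lt (B := m.g) (f := f) (n + 1) (fun i _ => hlt i)
      have h3 : m.g ^ (n + 1) ≤ m.g ^ w := Nat.pow_le_pow_right hg hn
      have h4 : m.g ^ n ≤ m.g ^ w := Nat.pow_le_pow_right hg (by omega)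
      rw [citer_succ, h1, cpow_eq (by omega)]
      exact min_eq_right (le_of_lt (h2.trans_le (by omega)))
  exact key w le_rfl

theorem cdyn_st (m : NM Sym) (x : List Sym) {N w o T E : ℕ} (hN : m.g ^ w * (w + 2) * m.q ≤ N)
    (ho : o < w) (j : ℕ) : (m.cdyn x N w o T E).st j = (m.dyn x w o T E).st j ∧
      (∀ k, ((m.dyn x w o T E).st j).2 k < m.g ^ w) ∧
      ((m.dyn x w o T E).st j).1 < (2 * E + 1) * 4 * m.q := by
  induction j with
  | zero =>
    refine ⟨?_, m.X0_lt x w o T E, m.e0_lt x w o T E⟩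
    simp only [Dyn.st, cdyn, dyn, m.cblock0_eq x hN]
  | succ j ih =>
    obtain ⟨h1, h2, h3⟩ := ih
    refine ⟨?_, ?_, m.ve_lt x w o T E _ _⟩
    · simp only [Dyn.st, h1]
      congr 1
      · simp only [cdyn, dyn] at h2 ⊢
        rw [m.cvisit_eq hN ho (h2 _)]
      · funext k
        have h4 := m.vy_lt x (T := T) (E := E) (e := ((m.dyn x w o T E).st j).1) ho (h2 k)
        have h5 := m.pow_le_of hN
        simp only [cdyn, dyn] at h2 h4 ⊢
        rw [m.cvisit_eq hN ho (h2 _), Nat.mod_eq_of_lt (by omega)]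
        rfl
    · intro k
      simp only [Dyn.st]
      split_ifs
      · exact m.vy_lt x ho (h2 k)
      · exact h2 k

end NM

/-- A prime in `(A, 2A]`. -/
def pp (A : ℕ) : ℕ := citer (2 * A) (2 * A + 1) 0 (fun i acc => if A < i ∧ Nat.Prime i then i else acc)

theorem pp_spec {A : ℕ} (hA : A ≠ 0) : (pp A).Prime ∧ A < pp A ∧ pp A ≤ 2 * A := by
  obtain ⟨p, hp, h1, h2⟩ := Nat.exists_prime_lt_and_le_two_mul A hA
  have key : ∀ n ≤ 2 * A + 1, p < n → (citer (2 * A) n 0
      (fun i acc => if A < i ∧ Nat.Prime i then i else acc)).Prime ∧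
      A < citer (2 * A) n 0 (fun i acc => if A < i ∧ Nat.Prime i then i else acc) ∧
      citer (2 * A) n 0 (fun i acc => if A < i ∧ Nat.Prime i then i else acc) ≤ 2 * A := by
    intro n
    induction n with
    | zero => intro _ h; omega
    | succ n ih =>
      intro hn hpn
      rw [citer_succ]
      split_ifs with h
      · rw [min_eq_right (by omega)]; exact ⟨h.2, h.1, by omega⟩
      · have : p < n := by
          rcases Nat.lt_or_ge p n with h3 | h3
          · exact h3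
          · obtain rfl : p = n := by omega
            exact absurd ⟨h1, hp⟩ h
        obtain ⟨g1, g2, g3⟩ := ih (by omega) this
        rw [min_eq_right g3]; exact ⟨g1, g2, g3⟩
  exact key _ le_rfl (by omega)

/-- The logarithm as a bounded loop. -/
def clog (g l : ℕ) : ℕ := citer l l 0 (fun i acc => if cpow (l + 1) g (i + 1) ≤ l then i + 1 else acc)

theorem clog_eq {g : ℕ} (hg : 2 ≤ g) (l : ℕ) : clog g l = Nat.log g l := by
  rcases Nat.eq_zero_or_pos l with h0 | hl
  · subst h0; simp [clog, citer]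
  have key : ∀ n ≤ l, citer l n 0 (fun i acc => if cpow (l + 1) g (i + 1) ≤ l then i + 1 else acc)
      = min n (Nat.log g l) := by
    intro n
    induction n with
    | zero => intro _; simp [citer]
    | succ n ih =>
      intro hn
      have h1 := ih (by omega)
      rw [citer_succ, h1]
      have h2 : cpow (l + 1) g (n + 1) ≤ l ↔ n + 1 ≤ Nat.log g l := by
        rw [Nat.le_log_iff_pow_le (by omega) (by omega)]
        unfold cpow; omega
      split_ifs with h3
      · rw [h2] at h3; omega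
      · rw [h2] at h3; omega
  unfold clog
  rw [key l le_rfl]
  exact min_eq_right (Nat.log_le_self _ _)

/-- Bounded maximum of values at most `2`. -/
def bmax (n : ℕ) (f : ℕ → ℕ) : ℕ := citer 2 n 0 (fun i acc => max acc (f i))

theorem bmax_spec (n : ℕ) (f : ℕ → ℕ) (hf : ∀ i, f i ≤ 2) :
    bmax n f ≤ 2 ∧ (bmax n f = 0 ∨ ∃ i, bmax n f = f i) ∧ ∀ i < n, f i ≤ bmax n f := by
  unfold bmax
  induction n with
  | zero => simp [citer]
  | succ n ih =>
    obtain ⟨h1, h2, h3⟩ := ih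
    rw [citer_succ, min_eq_right (max_le h1 (hf n))]
    refine ⟨max_le h1 (hf n), ?_, ?_⟩
    · rcases le_total (f n) (citer 2 n 0 fun i acc => max acc (f i)) with h | h
      · rw [max_eq_left h]; exact h2
      · rw [max_eq_right h]; exact Or.inr ⟨n, rfl⟩
    · intro i hi
      rcases Nat.lt_or_ge i n with h | h
      · exact (h3 i h).trans (le_max_left _ _)
      · obtain rfl : i = n := by omega
        exact le_max_right _ _

namespace NM

def wid (m : NM Sym) (l : ℕ) : ℕ := l * l * (clog m.g l + 1)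
def VV (m : NM Sym) (l : ℕ) : ℕ := (2 * (l * (l * l)) + 1) * 4 * m.q * m.g
def PP (m : NM Sym) (l : ℕ) : ℕ := pp (l * ((l * l + l * l + 1) * m.VV l) + 1)

def par (m : NM Sym) (x : List Sym) (N l o : ℕ) : Par where
  p := m.PP l
  V := m.VV l
  b := l * l
  l := l
  D := m.cdyn x N (m.wid l) o (l * (l * l) * m.wid l - 1) (l * (l * l))

def GG (m : NM Sym) (x : List Sym) (N l o : ℕ) : ℕ :=
  if 1 ≤ l ∧ o < m.wid l ∧ cpow N (m.PP l) (16 * (2 * (l * l) + (l * l + 1) + l)) < N then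
    m.verdict (cev N (m.PP l) (m.VV l) (l * l) l (fun e => e / m.q / 4)
      (fun y e => m.cvisit N (m.wid l) o (l * (l * l) * m.wid l - 1) y e / m.q / (m.wid l + 2) % N)
      (fun y e => m.nextEv (m.wid l) (l * (l * l)) e
        (m.cvisit N (m.wid l) o (l * (l * l) * m.wid l - 1) y e))
      (fun k => m.cblock0 x N (m.wid l) o (l * (l * l)) k) (m.evc (l * (l * l)) 2 m.q0) l)
  else 0

def FF (m : NM Sym) (x : List Sym) (N : ℕ) : ℕ :=
  bmax (N + 1) (fun l => bmax (N + 1) (fun o => m.GG x N l o))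

theorem verdict_le (m : NM Sym) (e : ℕ) : m.verdict e ≤ 2 := by
  unfold verdict; split_ifs
  · omega
  · exact m.ou_le _

theorem GG_le (m : NM Sym) (x : List Sym) (N l o : ℕ) : m.GG x N l o ≤ 2 := by
  unfold GG; split_ifs
  · exact m.verdict_le _
  · omega

theorem param_facts (m : NM Sym) {l : ℕ} (hl : 1 ≤ l) :
    (m.PP l).Prime ∧ l * ((l * l + l * l + 1) * m.VV l) + 1 < m.PP l ∧
    m.PP l ≤ 2 * (l * ((l * l + l * l + 1) * m.VV l) + 1) ∧
    (2 * (l * (l * l)) + 1) * 4 * m.q ≤ m.VV l ∧ m.g ^ m.wid l ≤ m.VV l ^ (l * l) ∧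
    m.wid l + 2 ≤ m.VV l ∧ m.q ≤ m.VV l ∧ m.VV l < m.PP l ∧ l * l + l * l + 2 < m.PP l := by
  obtain ⟨h1, h2, h3⟩ := pp_spec (A := l * ((l * l + l * l + 1) * m.VV l) + 1) (by omega)
  have hq := m.q_pos
  have hg := m.g_pos
  have hll : l ≤ l * l := Nat.le_mul_self l
  have hlll : l * l ≤ l * (l * l) := Nat.le_mul_of_pos_left _ hl
  have h4 : (2 * (l * (l * l)) + 1) * 4 * m.q ≤ m.VV l := Nat.le_mul_of_pos_right _ (by omega)
  have h5 : (2 * (l * (l * l)) + 1) * 4 ≤ (2 * (l * (l * l)) + 1) * 4 * m.q :=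
    Nat.le_mul_of_pos_right _ hq
  have h6 : m.g ^ (clog m.g l + 1) ≤ m.VV l := by
    rw [clog_eq hg, pow_succ]
    have := Nat.pow_log_le_self m.g (show l ≠ 0 by omega)
    exact Nat.mul_le_mul_right _ (by omega)
  have h7 : m.wid l ≤ l * l * (l + 1) := by
    unfold wid
    rw [clog_eq hg]
    exact Nat.mul_le_mul_left _ (by have := Nat.log_le_self m.g l; omega)
  have h8 : l * l * (l + 1) = l * (l * l) + l * l := by ring
  have h9 : m.q ≤ (2 * (l * (l * l)) + 1) * 4 * m.q := Nat.le_mul_of_pos_left _ (by omega)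
  have h10 : m.VV l ≤ l * ((l * l + l * l + 1) * m.VV l) :=
    le_trans (Nat.le_mul_of_pos_left _ (by omega)) (Nat.le_mul_of_pos_left _ hl)
  have h11 : l * l + l * l + 1 ≤ l * ((l * l + l * l + 1) * m.VV l) :=
    le_trans (Nat.le_mul_of_pos_right _ (by omega)) (Nat.le_mul_of_pos_left _ hl)
  refine ⟨h1, h2, h3, h4, ?_, by omega, by omega, ?_, ?_⟩
  · unfold wid
    rw [mul_comm, pow_mul]
    exact Nat.pow_le_pow_left h6 _
  · unfold PP; omega
  · unfold PP; omega

theorem GG_eq (m : NM Sym) (x : List Sym) {N l o : ℕ} (hl : 1 ≤ l) (ho : o < m.wid l)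
    (hN : m.PP l ^ (16 * (2 * (l * l) + (l * l + 1) + l)) < N) :
    m.GG x N l o = m.verdict ((m.dyn x (m.wid l) o (l * (l * l) * m.wid l - 1) (l * (l * l))).ev
      (l * (l * l))) := by
  obtain ⟨f1, f2, f3, f4, f5, f6, f7, f8, f9⟩ := m.param_facts hl
  have hp0 : 0 < m.PP l := f1.pos
  have hN1 : m.g ^ m.wid l * (m.wid l + 2) * m.q ≤ N := by
    calc _ ≤ m.PP l ^ (l * l) * m.PP l * m.PP l :=
          Nat.mul_le_mul (Nat.mul_le_mul (f5.trans (Nat.pow_le_pow_left f8.le _)) (by omega))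
            (by omega)
      _ = m.PP l ^ (l * l + 2) := by ring
      _ ≤ m.PP l ^ (16 * (2 * (l * l) + (l * l + 1) + l)) := Nat.pow_le_pow_right hp0 (by omega)
      _ ≤ N := hN.le
  have hst := m.cdyn_st x (T := l * (l * l) * m.wid l - 1) (E := l * (l * l)) hN1 ho
  have : Fact (m.par x N l o).p.Prime := ⟨f1⟩
  have hG : (m.par x N l o).Good :=
    { l_pos := hl
      V_pos := by have := m.q_pos; show 1 ≤ m.VV l; omega
      deg := f2
      Y_lt' := fun j k => by
        show ((m.cdyn x N _ o _ _).st j).2 k < m.VV l ^ (l * l)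
        rw [(hst j).1]; exact ((hst j).2.1 k).trans_le f5
      ev_lt' := fun j => by
        show ((m.cdyn x N _ o _ _).st j).1 < m.VV l
        rw [(hst j).1]; exact (hst j).2.2.trans_le f4 }
  have hF : (m.par x N l o).Fit N (m.PP l ^ (2 * (l * l) + (l * l + 1) + l)) l :=
    { K16 := by rw [← pow_mul, mul_comm]; exact hN.le
      reg := le_rfl
      tree := by
        show (m.PP l * (l * l + l * l + 1 + 1)) ^ (l * (2 * l + 4) + 1) ≤ N
        calc _ ≤ (m.PP l * m.PP l) ^ (l * (2 * l + 4) + 1) :=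
              Nat.pow_le_pow_left (Nat.mul_le_mul_left _ (by omega)) _
          _ = m.PP l ^ (2 * (l * (2 * l + 4) + 1)) := by rw [← pow_two, ← pow_mul]
          _ ≤ m.PP l ^ (16 * (2 * (l * l) + (l * l + 1) + l)) :=
              Nat.pow_le_pow_right hp0 (by nlinarith)
          _ ≤ N := hN.le
      root := by
        show l * (l * l) < _
        have h1 : (2 * (l * (l * l)) + 1) * 4 ≤ (2 * (l * (l * l)) + 1) * 4 * m.q :=
          Nat.le_mul_of_pos_right _ m.q_pos
        have h2 : m.PP l ≤ m.PP l ^ (2 * (l * l) + (l * l + 1) + l) :=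
          Nat.le_self_pow (by omega) _
        omega
      blk_le := fun e => (Nat.div_le_self _ _).trans (Nat.div_le_self _ _)
      vy_lt := fun y e => Nat.mod_lt _ (by omega) }
  have := Par.cev_eq hG hF
  unfold GG
  rw [if_pos ⟨hl, ho, by rw [cpow_eq hN.le]; exact hN⟩]
  congr 1
  refine this.trans ?_
  show ((m.cdyn x N _ o _ _).st (l * (l * l))).1 = _
  rw [(hst _).1]; rfl

theorem GG_sound (m : NM Sym) (x : List Sym) {N l o : ℕ} (h : m.GG x N l o ≠ 0) :
    ∃ τ, m.res x τ = m.GG x N l o := by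
  have hc : 1 ≤ l ∧ o < m.wid l ∧
      cpow N (m.PP l) (16 * (2 * (l * l) + (l * l + 1) + l)) < N := by
    by_contra hc
    exact h (by unfold GG; rw [if_neg hc])
  obtain ⟨h1, h2, h3⟩ := hc
  have h4 : m.PP l ^ (16 * (2 * (l * l) + (l * l + 1) + l)) < N := by
    unfold cpow at h3; omega
  rw [m.GG_eq x h1 h2 h4] at h ⊢
  exact m.visits_sound x h2 h

theorem FF_sound (m : NM Sym) (x : List Sym) {N : ℕ} (h : m.FF x N ≠ 0) :
    ∃ τ, m.res x τ = m.FF x N := by
  unfold FF at *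
  obtain ⟨-, h1 | ⟨l, h1⟩, -⟩ := bmax_spec (N + 1) (fun l => bmax (N + 1) (fun o => m.GG x N l o))
    (fun l => (bmax_spec _ _ (fun o => m.GG_le x N l o)).1)
  · exact absurd h1 h
  rw [h1] at h ⊢
  obtain ⟨-, h2 | ⟨o, h2⟩, -⟩ := bmax_spec (N + 1) (fun o => m.GG x N l o) (fun o => m.GG_le x N l o)
  · exact absurd h2 h
  rw [h2] at h ⊢
  exact m.GG_sound x h

theorem FF_complete (m : NM Sym) (x : List Sym) {l t : ℕ} (ht : m.res x t ≠ 0)
    (hl : t < l * (l * l) * m.wid l) :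
    m.FF x (m.PP l ^ (16 * (2 * (l * l) + (l * l + 1) + l)) + 1) ≠ 0 := by
  have hl1 : 1 ≤ l := by
    rcases Nat.eq_zero_or_pos l with h | h
    · subst h; simp at hl
    · exact h
  obtain ⟨f1, f2, f3, f4, f5, f6, f7, f8, f9⟩ := m.param_facts hl1
  set N := m.PP l ^ (16 * (2 * (l * l) + (l * l + 1) + l)) + 1 with hN
  have hpN : m.PP l ≤ m.PP l ^ (16 * (2 * (l * l) + (l * l + 1) + l)) :=
    Nat.le_self_pow (by omega) _
  have hll : l ≤ l * l := Nat.le_mul_self l
  obtain ⟨o, ho, h1⟩ := m.visits_complete x (w := m.wid l) (T := l * (l * l) * m.wid l - 1)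
    (E := l * (l * l)) (by rw [m.res_mono x ht (by omega)]; exact ht) (by omega)
  rw [← m.GG_eq x (N := N) hl1 ho (by omega)] at h1
  have h2 := (bmax_spec (N + 1) (fun o => m.GG x N l o) (fun o => m.GG_le x N l o)).2.2 o
    (by omega)
  have h3 := (bmax_spec (N + 1) (fun l => bmax (N + 1) (fun o => m.GG x N l o))
    (fun l => (bmax_spec _ _ (fun o => m.GG_le x N l o)).1)).2.2 l (by omega)
  unfold FF
  omega

end NM

section LSfacts

variable {α : Type} [Ctx Sym α]

@[fun_prop] theorem LS.dq (m : NM Sym) {f g : α → ℕ} (hf : LS Sym f) (hg : LS Sym g) :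
    LS Sym (fun a => m.dq (f a) (g a)) :=
  LS.comp' (LS.table₂ m.dq _ m.fin_dq) (LS.mk hf hg)
@[fun_prop] theorem LS.dg (m : NM Sym) {f g : α → ℕ} (hf : LS Sym f) (hg : LS Sym g) :
    LS Sym (fun a => m.dg (f a) (g a)) :=
  LS.comp' (LS.table₂ m.dg _ m.fin_dg) (LS.mk hf hg)
@[fun_prop] theorem LS.dm (m : NM Sym) {f g : α → ℕ} (hf : LS Sym f) (hg : LS Sym g) :
    LS Sym (fun a => m.dm (f a) (g a)) :=
  LS.comp' (LS.table₂ m.dm _ m.fin_dm) (LS.mk hf hg)
@[fun_prop] theorem LS.ou (m : NM Sym) {f : α → ℕ} (hf : LS Sym f) :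
    LS Sym (fun a => m.ou (f a)) :=
  LS.comp' (LS.table m.ou _ m.fin_ou) hf

@[fun_prop] theorem LS.pack (m : NM Sym) {w s π y : α → ℕ} (hw : LS Sym w) (hs : LS Sym s)
    (hπ : LS Sym π) (hy : LS Sym y) : LS Sym (fun a => m.pack (w a) (s a) (π a) (y a)) := by
  unfold NM.pack; fun_prop
@[fun_prop] theorem LS.evc (m : NM Sym) {k d s : α → ℕ} (hk : LS Sym k) (hd : LS Sym d)
    (hs : LS Sym s) : LS Sym (fun a => m.evc (k a) (d a) (s a)) := by
  unfold NM.evc; fun_prop
@[fun_prop] theorem LS.entry (m : NM Sym) {w o e : α → ℕ} (hw : LS Sym w) (ho : LS Sym o)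
    (he : LS Sym e) : LS Sym (fun a => m.entry (w a) (o a) (e a)) := by
  unfold NM.entry; fun_prop
@[fun_prop] theorem LS.nextEv (m : NM Sym) {w E e c : α → ℕ} (hw : LS Sym w) (hE : LS Sym E)
    (he : LS Sym e) (hc : LS Sym c) : LS Sym (fun a => m.nextEv (w a) (E a) (e a) (c a)) := by
  unfold NM.nextEv; fun_prop
@[fun_prop] theorem LS.verdict (m : NM Sym) {e : α → ℕ} (he : LS Sym e) :
    LS Sym (fun a => m.verdict (e a)) := by
  unfold NM.verdict; fun_prop
@[fun_prop] theorem LS.clstep (m : NM Sym) {N w c : α → ℕ} (hN : LS Sym N) (hw : LS Sym w)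
    (hc : LS Sym c) : LS Sym (fun a => m.clstep (N a) (w a) (c a)) := by
  unfold NM.clstep; fun_prop
@[fun_prop] theorem LS.cvisit (m : NM Sym) {N w o T y e : α → ℕ} (hN : LS Sym N) (hw : LS Sym w)
    (ho : LS Sym o) (hT : LS Sym T) (hy : LS Sym y) (he : LS Sym e) :
    LS Sym (fun a => m.cvisit (N a) (w a) (o a) (T a) (y a) (e a)) := by
  unfold NM.cvisit; fun_prop
@[fun_prop] theorem LS.cblock0 [Finite Sym] (m : NM Sym) {x : α → List Sym} {N w o E k : α → ℕ}
    (hx : LS Sym x) (hN : LS Sym N) (hw : LS Sym w) (ho : LS Sym o) (hE : LS Sym E)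
    (hk : LS Sym k) : LS Sym (fun a => m.cblock0 (x a) (N a) (w a) (o a) (E a) (k a)) := by
  unfold NM.cblock0; fun_prop
@[fun_prop] theorem LS.pp {A : α → ℕ} (hA : LS Sym A) : LS Sym (fun a => pp (A a)) := by
  unfold Vale.Agent.P312.pp; fun_prop
@[fun_prop] theorem LS.clog {g l : α → ℕ} (hg : LS Sym g) (hl : LS Sym l) :
    LS Sym (fun a => clog (g a) (l a)) := by
  unfold Vale.Agent.P312.clog; fun_prop
@[fun_prop] theorem LS.bmax {n : α → ℕ} {f : α → ℕ → ℕ} (hn : LS Sym n)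
    (hf : LS Sym (fun q : α × ℕ => f q.1 q.2)) : LS Sym (fun a => bmax (n a) (f a)) := by
  unfold Vale.Agent.P312.bmax; fun_prop
@[fun_prop] theorem LS.wid (m : NM Sym) {l : α → ℕ} (hl : LS Sym l) :
    LS Sym (fun a => m.wid (l a)) := by
  unfold NM.wid; fun_prop
@[fun_prop] theorem LS.VV (m : NM Sym) {l : α → ℕ} (hl : LS Sym l) :
    LS Sym (fun a => m.VV (l a)) := by
  unfold NM.VV; fun_prop
@[fun_prop] theorem LS.PP (m : NM Sym) {l : α → ℕ} (hl : LS Sym l) :
    LS Sym (fun a => m.PP (l a)) := by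
  unfold NM.PP; fun_prop
@[fun_prop] theorem LS.GG [Finite Sym] (m : NM Sym) {x : α → List Sym} {N l o : α → ℕ}
    (hx : LS Sym x) (hN : LS Sym N) (hl : LS Sym l) (ho : LS Sym o) :
    LS Sym (fun a => m.GG (x a) (N a) (l a) (o a)) := by
  unfold NM.GG; fun_prop

theorem LS.FF [Finite Sym] (m : NM Sym) : LS Sym (fun a : List Sym × ℕ => m.FF a.1 a.2) := by
  unfold NM.FF; fun_prop

end LSfacts

end Vale.Agent.P312
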