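import Vale.Agent.P312.Alg

/-! The call tree of the simulation and its correctness over `ZMod p`. -/

namespace Vale.Agent.P312

open Finset

/-- Run a call tree of depth `d` and arity `J`. -/
def run {A S : Type} (J : ℕ) (δ : A → ℕ → A) (act : A → ℕ → S → S) : ℕ → A → S → S
  | 0, _, R => R
  | d + 1, a, R => iter J R (fun t R => run J δ act d (δ a t) (act a t R))

/-- Node addresses. -/
inductive Addr where
  | nop : Addr
  | X (J k u sd : ℕ) : Addr
  | E (j : ℕ) : Addr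
  | G (j s n c : ℕ) : Addr
  | B (j s c r : ℕ) : Addr

/-- Parameters. -/
structure Par where
  p : ℕ
  V : ℕ
  b : ℕ
  l : ℕ
  D : Dyn

namespace Par

variable (P : Par)

def M : ℕ := P.l * P.l
def W : ℕ := P.b + P.M + 1
def slot (j : ℕ) : ℕ := 2 * P.b + j % (P.M + 1)
def areg (r : ℕ) : ℕ := 2 * P.b + (P.M + 1) + r
def xreg (sd u : ℕ) : ℕ := sd * P.b + u
def band (j : ℕ) : ℕ := (j - 1) / P.M
def β (j : ℕ) : ℕ := (j - 1) / P.M * P.M
def σ (j : ℕ) : ℕ := (j - 1) / P.l * P.l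

/-- Content of block `k` after replaying `n` events. -/
def replay (k y : ℕ) (c : ℕ → ℕ) (n : ℕ) : ℕ :=
  iter n y (fun i y => if P.D.blk (c i) = k then P.D.vy y (c i) else y)

def φX (k u z : ℕ) : ℕ :=
  digit P.V (P.replay k (z % P.V ^ P.b) (fun i => digit P.V (z / P.V ^ P.b) i) P.M) u

def φB (n₀ c r z : ℕ) : ℕ :=
  if digit P.V (z / P.V ^ P.b) n₀ = digit P.V c 0 ∧
      P.D.ve (P.replay (P.D.blk (digit P.V c r)) (z % P.V ^ P.b)
        (fun i => if i < n₀ then digit P.V (z / P.V ^ P.b) i else digit P.V c (i - n₀)) (n₀ + r))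
        (digit P.V c r) = digit P.V c (r + 1) then 1 else 0

def tgt : Addr → ℕ
  | .nop => 0
  | .X _ _ u sd => P.xreg sd u
  | .E j => P.slot j
  | .G j _ _ _ => P.slot j
  | .B _ _ _ r => P.areg r

def δ : Addr → ℕ → Addr
  | .nop, _ => .nop
  | .X J k _ sd, t =>
    if J = 0 then .nop
    else if t % (P.W + 1) < P.b then .X (J - 1) k (t % (P.W + 1)) (1 - sd)
    else if t % (P.W + 1) < P.b + P.M then .E ((J - 1) * P.M + (t % (P.W + 1) - P.b))
    else .nop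
  | .E j, t =>
    if j = 0 then .nop
    else if t % (P.W + 1) ≤ P.σ j - P.β j then .E (P.β j + t % (P.W + 1))
    else if t % (P.W + 1) = P.W ∧ t / (P.W + 1) + 1 < P.p then .G j (t / (P.W + 1)) 0 0
    else .nop
  | .G j s n c, t =>
    if n ≤ P.l then (if t < P.V then .G j s (n + 1) (c + t * P.V ^ n) else .nop)
    else if t % (P.W + 1) < P.l then .B j s c (t % (P.W + 1)) else .nop
  | .B j _ c r, t =>
    if t % (P.W + 1) < P.b then .X (P.band j) (P.D.blk (digit P.V c r)) (t % (P.W + 1)) 0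
    else .nop

/-- The amount added to the target register in phase `t`. -/
noncomputable def h [Fact P.p.Prime] : Addr → ℕ → (ℕ → ZMod P.p) → ZMod P.p
  | .nop, _, _ => 0
  | .X J k u sd, t, R =>
    if J = 0 then (if t = 0 then (digit P.V (P.D.X0 k) u : ℕ) else 0)
    else if t % (P.W + 1) = P.W ∧ t / (P.W + 1) + 1 < P.p then
      - lde P.V (P.b + P.M) (fun i => ((t / (P.W + 1) + 1 : ℕ) : ZMod P.p)⁻¹ *
          R (if i < P.b then P.xreg (1 - sd) i else P.slot ((J - 1) * P.M + (i - P.b)))) (P.φX k u)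
    else 0
  | .E j, t, _ => if j = 0 ∧ t = 0 then (P.D.e0 : ℕ) else 0
  | .G j _ n c, t, R =>
    if n ≤ P.l then 0
    else if t % (P.W + 1) = P.W ∧ t / (P.W + 1) + 1 < P.p then
      (digit P.V c (j - P.σ j) : ℕ) *
        ∏ r ∈ range P.l, ((t / (P.W + 1) + 1 : ℕ) : ZMod P.p)⁻¹ * R (P.areg r)
    else 0
  | .B j s c r, t, R =>
    if t % (P.W + 1) = P.W ∧ t / (P.W + 1) + 1 < P.p then
      - lde P.V (P.b + (P.σ j - P.β j + 1))
        (fun i => if i < P.b then ((t / (P.W + 1) + 1 : ℕ) : ZMod P.p)⁻¹ * R (P.xreg 0 i)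
          else ((s + 1 : ℕ) : ZMod P.p)⁻¹ * R (P.slot (P.β j + (i - P.b)))) (P.φB (P.σ j - P.β j) c r)
    else 0

noncomputable def act [Fact P.p.Prime] (a : Addr) (t : ℕ) (R : ℕ → ZMod P.p) : ℕ → ZMod P.p :=
  R + Pi.single (P.tgt a) (P.h a t R)

noncomputable def valB [Fact P.p.Prime] (j c r : ℕ) (w : ℕ → ZMod P.p) : ZMod P.p :=
  lde P.V (P.b + (P.σ j - P.β j + 1))
    (fun i => if i < P.b then (digit P.V (P.D.Y (P.β j) (P.D.blk (digit P.V c r))) i : ℕ)
      else w (i - P.b)) (P.φB (P.σ j - P.β j) c r)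

noncomputable def valP [Fact P.p.Prime] (j c : ℕ) (w : ℕ → ZMod P.p) : ZMod P.p :=
  (digit P.V c (j - P.σ j) : ℕ) * ∏ r ∈ range P.l, P.valB j c r w

/-- The value that a node adds to its target. -/
noncomputable def val [Fact P.p.Prime] : Addr → (ℕ → ZMod P.p) → ZMod P.p
  | .nop, _ => 0
  | .X J k u _, _ => (digit P.V (P.D.Y (J * P.M) k) u : ℕ)
  | .E j, _ => (P.D.ev j : ℕ)
  | .G j s n c, R => - ∑ c' ∈ range (P.V ^ (P.l + 1 - n)), P.valP j (c + c' * P.V ^ n)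
      (fun i => ((s + 1 : ℕ) : ZMod P.p)⁻¹ * R (P.slot (P.β j + i)))
  | .B j s c r, R => P.valB j c r (fun i => ((s + 1 : ℕ) : ZMod P.p)⁻¹ * R (P.slot (P.β j + i)))

def rank : Addr → ℕ
  | .nop => 0
  | .X J _ _ _ => J * (2 * P.l + 4) + 1
  | .E j => if j = 0 then 1 else P.band j * (2 * P.l + 4) + P.l + 5 + (P.σ j - P.β j) / P.l
  | .G j _ n _ => P.band j * (2 * P.l + 4) + 3 + (P.l + 1 - n)
  | .B j _ _ _ => P.band j * (2 * P.l + 4) + 2

def WF : Addr → Prop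
  | .nop => True
  | .X _ _ u sd => u < P.b ∧ sd ≤ 1
  | .E _ => True
  | .G j _ n c => 1 ≤ j ∧ n ≤ P.l + 1 ∧ c < P.V ^ n
  | .B j _ _ r => 1 ≤ j ∧ r < P.l

/-- Standing hypotheses. -/
structure Good : Prop where
  l_pos : 1 ≤ P.l
  V_pos : 1 ≤ P.V
  deg : P.l * ((P.b + P.M + 1) * P.V) + 1 < P.p
  Y_lt' : ∀ j k, P.D.Y j k < P.V ^ P.b
  ev_lt' : ∀ j, P.D.ev j < P.V

variable {P}

theorem ev_succ (j : ℕ) : P.D.ev (j + 1) = P.D.ve (P.D.Y j (P.D.blk (P.D.ev j))) (P.D.ev j) := rfl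

theorem Y_succ (j k : ℕ) : P.D.Y (j + 1) k =
    if P.D.blk (P.D.ev j) = k then P.D.vy (P.D.Y j k) (P.D.ev j) else P.D.Y j k := rfl

theorem ev_lt (hG : P.Good) (j : ℕ) : P.D.ev j < P.V := hG.ev_lt' j

theorem Y_lt (hG : P.Good) (j k : ℕ) : P.D.Y j k < P.V ^ P.b := hG.Y_lt' j k

theorem replay_eq (β k n : ℕ) (c : ℕ → ℕ) (hc : ∀ i < n, c i = P.D.ev (β + i)) :
    P.replay k (P.D.Y β k) c n = P.D.Y (β + n) k := by
  induction n with
  | zero => rfl
  | succ n ih =>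
    have := ih (fun i hi => hc i (by omega))
    unfold replay at *
    rw [iter_succ, this, ← Nat.add_assoc, Y_succ, hc n (by omega)]

theorem M_pos (hG : P.Good) : 0 < P.M := Nat.mul_pos hG.l_pos hG.l_pos

theorem l_le_M (hG : P.Good) : P.l ≤ P.M := Nat.le_mul_of_pos_left _ hG.l_pos

theorem V_le_p (hG : P.Good) : P.V ≤ P.p := by
  have h1 := hG.deg
  have h2 : P.V ≤ P.l * ((P.b + P.M + 1) * P.V) :=
    le_trans (Nat.le_mul_of_pos_left _ (by omega)) (Nat.le_mul_of_pos_left _ hG.l_pos)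
  omega

theorem σ_facts (hG : P.Good) {j : ℕ} (hj : 1 ≤ j) :
    P.β j ≤ P.σ j ∧ P.σ j < j ∧ j ≤ P.σ j + P.l ∧ P.σ j + P.l ≤ P.β j + P.M ∧
      (P.σ j - P.β j) / P.l * P.l = P.σ j - P.β j ∧ (P.σ j - P.β j) / P.l < P.l := by
  have hl := hG.l_pos
  have e1 : (j - 1) / P.M = (j - 1) / P.l / P.l := by
    unfold M; rw [Nat.div_div_eq_div_mul]
  set a := (j - 1) / P.l with ha
  have h1 : a / P.l * P.l ≤ a := Nat.div_mul_le_self _ _
  have h2 : a < a / P.l * P.l + P.l := by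
    have := Nat.mod_lt a hl
    have := Nat.div_add_mod' a P.l
    omega
  have h3 : a * P.l ≤ j - 1 := Nat.div_mul_le_self _ _
  have h4 : j - 1 < a * P.l + P.l := by
    have := Nat.mod_lt (j - 1) hl
    have := Nat.div_add_mod' (j - 1) P.l
    rw [← ha] at this
    omega
  have eβ : P.β j = (a / P.l * P.l) * P.l := by
    unfold β; rw [e1]; unfold M; ring
  have eσ : P.σ j = a * P.l := rfl
  have e3 : P.σ j - P.β j = (a - a / P.l * P.l) * P.l := by
    rw [eβ, eσ, Nat.sub_mul]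
  have h5 : (a + 1) * P.l ≤ (a / P.l * P.l + P.l) * P.l := Nat.mul_le_mul_right _ (by omega)
  refine ⟨?_, ?_, ?_, ?_, ?_, ?_⟩
  · rw [eβ, eσ]; exact Nat.mul_le_mul_right _ h1
  · omega
  · omega
  · rw [eβ, eσ]; unfold M; nlinarith
  · rw [e3, Nat.mul_div_cancel _ hl]
  · rw [e3, Nat.mul_div_cancel _ hl]; omega

theorem slot_inj {β i i' : ℕ} (hi : i ≤ P.M) (hi' : i' ≤ P.M)
    (h : P.slot (β + i) = P.slot (β + i')) : i = i' := by
  unfold slot at h
  have h1 : (β + i) % (P.M + 1) = (β + i') % (P.M + 1) := by omega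
  have h2 : i % (P.M + 1) = i' % (P.M + 1) := Nat.ModEq.add_left_cancel' β h1
  rwa [Nat.mod_eq_of_lt (by omega), Nat.mod_eq_of_lt (by omega)] at h2

theorem slot_bounds (j : ℕ) : 2 * P.b ≤ P.slot j ∧ P.slot j < 2 * P.b + (P.M + 1) := by
  unfold slot
  have := Nat.mod_lt j (show P.M + 1 > 0 by omega)
  omega

theorem xreg_lt {sd u : ℕ} (hsd : sd ≤ 1) (hu : u < P.b) : P.xreg sd u < 2 * P.b := by
  unfold xreg
  rcases Nat.le_one_iff_eq_zero_or_eq_one.1 hsd with h | h <;> subst h <;> omega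

theorem phase_div (s : ℕ) {i : ℕ} (hi : i ≤ P.W) : (s * (P.W + 1) + i) / (P.W + 1) = s := by
  rw [add_comm, Nat.add_mul_div_right _ _ (by omega), Nat.div_eq_of_lt (by omega), zero_add]

theorem phase_mod (s : ℕ) {i : ℕ} (hi : i ≤ P.W) : (s * (P.W + 1) + i) % (P.W + 1) = i := by
  rw [add_comm, Nat.add_mul_mod_self_right, Nat.mod_eq_of_lt (by omega)]

/-- Rank of an event node in terms of an upper bound on its index. -/
theorem rank_E_le (hG : P.Good) {j J : ℕ} (hj : j ≤ J * P.M) :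
    P.rank (.E j) ≤ J * (2 * P.l + 4) + (if J = 0 then 1 else 0) := by
  simp only [rank]
  split_ifs with h1 h2 h2
  · omega
  · have : 1 ≤ J := by omega
    nlinarith
  · subst h2; omega
  · obtain ⟨-, -, -, -, -, h6⟩ := σ_facts hG (show 1 ≤ j by omega)
    have h3 : P.band j < J := by
      unfold band
      apply Nat.div_lt_of_lt_mul
      rw [mul_comm]; omega
    have h4 : (P.band j + 1) * (2 * P.l + 4) ≤ J * (2 * P.l + 4) := Nat.mul_le_mul_right _ h3
    nlinarith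

end Par

end Vale.Agent.P312
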